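import Vale.Agent.P257.D.EF
import Vale.Agent.P251.H.PQMap
import Vale.Agent.P251.H.PQLC

/-!
# P257, design D (port of P251.H): representables, free functors and shifts

* `EF.rep a`: the representable functor `b ↦ Map(s a, s b)` and the Yoneda lemma
  `EF.yo`, `EF.yoEquiv : (rep a ⟶ X) ≃ OnePoint (X.obj a)`;
* `EF.smul K X` (`K : PQ`): the levelwise smash product `a ↦ K ⊗ X.obj a`;
* `EF.F : PQ ⥤ EF J`, `F K = (a ↦ K ⊗ s a)`, left adjoint to the evaluation at `𝟙_ J`;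
* `EF.sh a : EF J ⥤ EF J`, `(sh a X).obj b = X.obj (a ⊗ b)`.
-/

open CategoryTheory MonoidalCategory Topology OnePoint

namespace Vale.Agent.P257.D

open Vale.Agent.P251.H (CH PQ NonBase toQ ofQ toQ_infty toQ_coe ofQ_base toQ_ofQ ofQ_toQ
  ofQ_surjective ofQ_injective ofQ_eq_infty)

open Vale.Agent.P251.G (LC)
open Vale.Agent.P251.G.LC (smash smash_coe_coe smash_infty_left smash_infty_right)

namespace EF

variable {J : Type} [Idx J]

section rep

/-- The space of morphisms between two objects of the index category. -/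
abbrev homPQ (a b : J) : PQ where
  carrier := NonBase (a ⟶ b) 0
  plot K f := Idx.plot K (fun k => toQ (0 : a ⟶ b) (f k))
  plot_const K _ := Idx.plot_const K _
  plot_comp := fun g _ hg hf => Idx.plot_pre g hg hf
  plot_sum := fun _ h1 h2 => Idx.plot_sum h1 h2
  plot_surj := fun g _ hg hs hf => Idx.plot_surj g hg hs hf

theorem homPQ_plot {a b : J} {K : CH} {w : K → (a ⟶ b)} (hw : Idx.plot K w) :
    (homPQ a b).plot K (fun k => ofQ 0 (w k)) := by
  change Idx.plot K (fun k => toQ (0 : a ⟶ b) (ofQ 0 (w k)))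
  simp only [toQ_ofQ]
  exact hw

/-- The representable functor. -/
noncomputable def rep (a : J) : EF J where
  obj b := homPQ a b
  map {b c} w := ⟨fun x => ofQ 0 (toQ (0 : a ⟶ b) x ≫ w), by
      rw [toQ_infty, Limits.zero_comp, ofQ_base], fun K f hf => by
      exact homPQ_plot (Idx.plot_comp hf (Idx.plot_const K w))⟩
  map_id b := by
    apply PQ.hom_ext'; intro x
    change ofQ 0 (toQ (0 : a ⟶ b) x ≫ 𝟙 b) = x
    rw [Category.comp_id, ofQ_toQ]
  map_comp {b c d} f g := by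
    apply PQ.hom_ext'; intro x
    change ofQ 0 (toQ (0 : a ⟶ b) x ≫ f ≫ g) =
      ofQ 0 (toQ (0 : a ⟶ c) (ofQ 0 (toQ (0 : a ⟶ b) x ≫ f)) ≫ g)
    rw [toQ_ofQ, Category.assoc]
  map_zero b c := by
    apply PQ.hom_ext'; intro x
    change ofQ 0 (toQ (0 : a ⟶ b) x ≫ 0) = ∞
    rw [Limits.comp_zero, ofQ_base]
  map_plot {b c} K w x hw hx := by
    exact homPQ_plot (Idx.plot_comp hx hw)

theorem rep_obj (a b : J) : (rep a).obj b = homPQ a b := rfl

/-- a point of `rep a` -/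
noncomputable def pr {a b : J} (w : a ⟶ b) : OnePoint ((rep a).obj b) := ofQ 0 w

/-- the morphism given by a point of `rep a` -/
def unpr {a b : J} (x : OnePoint ((rep a).obj b)) : a ⟶ b := toQ 0 x

@[simp] theorem unpr_pr {a b : J} (w : a ⟶ b) : unpr (pr w) = w := toQ_ofQ _ _

@[simp] theorem pr_unpr {a b : J} (x : OnePoint ((rep a).obj b)) : pr (unpr x) = x :=
  ofQ_toQ _ _

@[simp] theorem pr_zero {a b : J} : pr (0 : a ⟶ b) = ∞ := ofQ_base _

@[simp] theorem unpr_infty {a b : J} : unpr (∞ : OnePoint ((rep a).obj b)) = 0 := rfl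

theorem pr_surjective {a b : J} : Function.Surjective (pr : (a ⟶ b) → _) :=
  fun x => ⟨unpr x, pr_unpr x⟩

theorem pr_injective {a b : J} : Function.Injective (pr : (a ⟶ b) → _) :=
  Function.LeftInverse.injective unpr_pr

@[simp] theorem rep_act {a b c : J} (u : a ⟶ b) (w : b ⟶ c) :
    (rep a).act w (pr u) = pr (u ≫ w) := by
  change ofQ 0 (toQ (0 : a ⟶ b) (ofQ 0 u) ≫ w) = ofQ 0 (u ≫ w)
  rw [toQ_ofQ]

theorem unpr_rep_act {a b c : J} (x : OnePoint ((rep a).obj b)) (w : b ⟶ c) :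
    unpr ((rep a).act w x) = unpr x ≫ w := by
  obtain ⟨u, rfl⟩ := pr_surjective x
  rw [rep_act, unpr_pr, unpr_pr]

theorem pr_plot {a b : J} {K : CH} {w : K → (a ⟶ b)} (hw : Idx.plot K w) :
    ((rep a).obj b).plot K (fun k => pr (w k)) := homPQ_plot hw

theorem unpr_plot {a b : J} {K : CH} {x : K → OnePoint ((rep a).obj b)}
    (hx : ((rep a).obj b).plot K x) : Idx.plot K (fun k => unpr (x k)) := hx

/-- The Yoneda lemma: the morphism corresponding to a point of `X.obj a`. -/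
noncomputable def yo {X : EF J} {a : J} (x : OnePoint (X.obj a)) : rep a ⟶ X :=
  homMk (fun _ u => X.act (unpr u) x) (fun b => by rw [unpr_infty, act_zero])
    (fun b K u hu => X.act_plot (unpr_plot hu) ((X.obj a).plot_const K x))
    (fun w u => by rw [unpr_rep_act, act_comp])

theorem fn_yo {X : EF J} {a b : J} (x : OnePoint (X.obj a)) (u : OnePoint ((rep a).obj b)) :
    fn (yo x) u = X.act (unpr u) x := rfl

@[simp] theorem fn_yo_pr {X : EF J} {a b : J} (x : OnePoint (X.obj a)) (u : a ⟶ b) :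
    fn (yo x) (pr u) = X.act u x := by rw [fn_yo, unpr_pr]

theorem fn_pr {X : EF J} {a b : J} (f : rep a ⟶ X) (u : a ⟶ b) :
    fn f (pr u) = X.act u (fn f (pr (𝟙 a))) := by
  rw [← fn_act, rep_act, Category.id_comp]

theorem rep_hom_ext {X : EF J} {a : J} {f g : rep a ⟶ X}
    (h : fn f (pr (𝟙 a)) = fn g (pr (𝟙 a))) : f = g := by
  apply hom_ext
  intro b u
  obtain ⟨u, rfl⟩ := pr_surjective u
  rw [fn_pr f, fn_pr g, h]

/-- **Yoneda lemma.** -/
@[simps] noncomputable def yoEquiv (X : EF J) (a : J) : (rep a ⟶ X) ≃ OnePoint (X.obj a) where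
  toFun f := fn f (pr (𝟙 a))
  invFun x := yo x
  left_inv f := rep_hom_ext (by rw [fn_yo_pr, act_id])
  right_inv x := by
    change fn (yo x) (pr (𝟙 a)) = x
    rw [fn_yo_pr, act_id]

@[simp] theorem yo_comp {X Y : EF J} {a : J} (x : OnePoint (X.obj a)) (f : X ⟶ Y) :
    yo x ≫ f = yo (fn f x) := rep_hom_ext (by rw [fn_comp, fn_yo_pr, fn_yo_pr, fn_act])

/-- contravariant functoriality of representables -/
noncomputable def repMap {a b : J} (w : a ⟶ b) : rep b ⟶ rep a := yo (pr w)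

@[simp] theorem fn_repMap_pr {a b c : J} (w : a ⟶ b) (u : b ⟶ c) :
    fn (repMap w) (pr u) = pr (w ≫ u) := by rw [repMap, fn_yo_pr, rep_act]

@[simp] theorem repMap_yo {X : EF J} {a b : J} (w : a ⟶ b) (x : OnePoint (X.obj a)) :
    repMap w ≫ yo x = yo (X.act w x) := rep_hom_ext (by
  rw [fn_comp, fn_repMap_pr, fn_yo_pr, fn_yo_pr, Category.comp_id, act_id])

@[simp] theorem repMap_id (a : J) : repMap (𝟙 a) = 𝟙 (rep a) := rep_hom_ext (by
  rw [fn_repMap_pr, Category.comp_id]; rfl)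

theorem repMap_comp {a b c : J} (u : a ⟶ b) (w : b ⟶ c) :
    repMap (u ≫ w) = repMap w ≫ repMap u := rep_hom_ext (by
  rw [fn_repMap_pr, fn_comp, fn_repMap_pr, fn_repMap_pr, Category.comp_id, Category.comp_id])

theorem repMap_plot {a b : J} {K : CH} {w : K → (a ⟶ b)} (hw : Idx.plot K w) {c : J}
    {x : K → OnePoint ((rep b).obj c)} (hx : ((rep b).obj c).plot K x) :
    ((rep a).obj c).plot K (fun k => fn (repMap (w k)) (x k)) := by
  have : (fun k => fn (repMap (w k)) (x k)) = fun k => pr (w k ≫ unpr (x k)) := by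
    funext k
    obtain ⟨u, hu⟩ := pr_surjective (x k)
    rw [← hu, fn_repMap_pr, unpr_pr]
  rw [this]
  exact pr_plot (Idx.plot_comp hw (unpr_plot hx))

end rep

section smul

/-- Families of tensor products of morphisms. -/
theorem plot_whiskerLeft_family (A : PQ) {X Y : PQ} {K : CH} {f : K → (X ⟶ Y)}
    (hf : ∀ (L : CH) (g : L → K) (x : L → OnePoint X), Continuous g → X.plot L x →
      Y.plot L (fun l => PQ.app (f (g l)) (x l)))
    {z : K → OnePoint (A × X)} (hz : (PQ.tensor A X).plot K z) :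
    (PQ.tensor A Y).plot K (fun k => PQ.app (A ◁ f k) (z k)) := by
  have h1 : (PQ.Map X Y).plot K (fun k => PQ.ofHom (f k)) :=
    PQ.map_plot_iff.mpr fun L g a hg ha => by
      simp only [PQ.toHom_ofHom]
      exact hf L g a hg ha
  have h2 : (PQ.Map A A).plot K (fun _ => PQ.ofHom (𝟙 A)) := (PQ.Map A A).plot_const K _
  have h3 := PQ.app_plot (PQ.mapTensor A A X Y) (PQ.tensor_plot _ _ h2 h1)
  have h4 := PQ.map_plot_app h3 hz
  refine (congrArg ((PQ.tensor A Y).plot K) ?_).mp h4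
  funext k
  rw [PQ.toHom_app_mapTensor_smash, PQ.toHom_ofHom, PQ.toHom_ofHom, id_tensorHom]

/-- The levelwise smash product with a pointed quasi-topological space. -/
def smul (A : PQ) (X : EF J) : EF J where
  obj a := A ⊗ X.obj a
  map w := A ◁ X.map w
  map_id a := by rw [X.map_id, MonoidalCategory.whiskerLeft_id]
  map_comp f g := by rw [X.map_comp, MonoidalCategory.whiskerLeft_comp]
  map_zero a b := by
    apply PQ.hom_ext₂; intro x y
    rw [X.map_zero, PQ.app_whiskerLeft_smash, PQ.app_zero, PQ.app_zero, smash_infty_right]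
  map_plot {a b} K w x hw hx := plot_whiskerLeft_family A
    (fun L g y hg hy => X.map_plot L (fun l => w (g l)) y (Idx.plot_pre g hg hw) hy) hx

theorem smul_obj (A : PQ) (X : EF J) (a : J) : (smul A X).obj a = A ⊗ X.obj a := rfl

/-- The points of `smul A X`. -/
def sm {A : PQ} {X : EF J} {a : J} (k : OnePoint A) (x : OnePoint (X.obj a)) :
    OnePoint ((smul A X).obj a) := smash k x

section sm

variable {A : PQ} {X : EF J} {a : J}

@[simp] theorem sm_infty_left (x : OnePoint (X.obj a)) : sm (∞ : OnePoint A) x = ∞ :=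
  smash_infty_left x

@[simp] theorem sm_infty_right (k : OnePoint A) : sm k (∞ : OnePoint (X.obj a)) = ∞ :=
  smash_infty_right k

theorem sm_surjective (z : OnePoint ((smul A X).obj a)) :
    ∃ (k : OnePoint A) (x : OnePoint (X.obj a)), sm k x = z := by
  obtain ⟨⟨k, x⟩, h⟩ := P251.H.Sp0.smash_surjective (X := A) (Y := X.obj a) z
  exact ⟨k, x, h⟩

@[simp] theorem smul_act {b : J} (w : a ⟶ b) (k : OnePoint A) (x : OnePoint (X.obj a)) :
    (smul A X).act w (sm k x) = sm k (X.act w x) :=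
  PQ.app_whiskerLeft_smash A (X.map w) k x

theorem sm_plot {K : CH} {k : K → OnePoint A} {x : K → OnePoint (X.obj a)} (hk : A.plot K k)
    (hx : (X.obj a).plot K x) : ((smul A X).obj a).plot K (fun i => sm (k i) (x i)) :=
  PQ.tensor_plot _ _ hk hx

end sm

/-- Morphisms out of `smul A X` are determined on smash products of points. -/
theorem smul_hom_ext {A : PQ} {X Y : EF J} {f g : smul A X ⟶ Y}
    (h : ∀ (a : J) (k : OnePoint A) (x : OnePoint (X.obj a)), fn f (sm k x) = fn g (sm k x)) :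
    f = g := by
  apply hom_ext
  intro a z
  obtain ⟨k, x, rfl⟩ := sm_surjective z
  exact h a k x

/-- Morphisms out of `smul A X`. -/
def smulDesc {A : PQ} {X Y : EF J} (Φ : ∀ a, OnePoint A → OnePoint (X.obj a) → OnePoint (Y.obj a))
    (h1 : ∀ a x, Φ a ∞ x = ∞) (h2 : ∀ a k, Φ a k ∞ = ∞)
    (h3 : ∀ (a : J) (K : CH) (k : K → OnePoint A) (x : K → OnePoint (X.obj a)),
      A.plot K k → (X.obj a).plot K x → (Y.obj a).plot K (fun i => Φ a (k i) (x i)))
    (h4 : ∀ (a b : J) (w : a ⟶ b) (k : OnePoint A) (x : OnePoint (X.obj a)),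
      Φ b k (X.act w x) = Y.act w (Φ a k x)) : smul A X ⟶ Y :=
  homMk (fun a => PQ.app (PQ.lift₂ (Φ a) (h1 a) (h2 a) (h3 a))) (fun a => rfl)
    (fun a K x hx => PQ.app_plot (PQ.lift₂ (Φ a) (h1 a) (h2 a) (h3 a)) hx)
    (fun {a b} w z => by
      obtain ⟨k, x, rfl⟩ := sm_surjective z
      rw [smul_act]
      refine (PQ.app_lift₂_smash (Φ b) (h1 b) (h2 b) (h3 b) k (X.act w x)).trans ?_
      rw [h4]
      exact congrArg (Y.act w) (PQ.app_lift₂_smash (Φ a) (h1 a) (h2 a) (h3 a) k x).symm)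

@[simp] theorem fn_smulDesc {A : PQ} {X Y : EF J}
    (Φ : ∀ a, OnePoint A → OnePoint (X.obj a) → OnePoint (Y.obj a))
    (h1 : ∀ a x, Φ a ∞ x = ∞) (h2 : ∀ a k, Φ a k ∞ = ∞)
    (h3 : ∀ (a : J) (K : CH) (k : K → OnePoint A) (x : K → OnePoint (X.obj a)),
      A.plot K k → (X.obj a).plot K x → (Y.obj a).plot K (fun i => Φ a (k i) (x i)))
    (h4 : ∀ (a b : J) (w : a ⟶ b) (k : OnePoint A) (x : OnePoint (X.obj a)),
      Φ b k (X.act w x) = Y.act w (Φ a k x)) {a : J} (k : OnePoint A)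
    (x : OnePoint (X.obj a)) :
    fn (smulDesc Φ h1 h2 h3 h4) (sm k x) = Φ a k x :=
  PQ.app_lift₂_smash (Φ a) (h1 a) (h2 a) (h3 a) k x

/-- functoriality of `smul` -/
def smulMap {A B : PQ} {X Y : EF J} (f : A ⟶ B) (g : X ⟶ Y) : smul A X ⟶ smul B Y :=
  smulDesc (fun _ k x => sm (PQ.app f k) (fn g x)) (fun _ _ => by rw [PQ.app_infty, sm_infty_left])
    (fun _ _ => by rw [fn_infty, sm_infty_right])
    (fun _ _ _ _ hk hx => sm_plot (PQ.app_plot f hk) (fn_plot g hx))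
    (fun _ _ w k x => by rw [fn_act, smul_act])

@[simp] theorem fn_smulMap {A B : PQ} {X Y : EF J} (f : A ⟶ B) (g : X ⟶ Y) {a : J}
    (k : OnePoint A) (x : OnePoint (X.obj a)) :
    fn (smulMap f g) (sm k x) = sm (PQ.app f k) (fn g x) := fn_smulDesc _ _ _ _ _ _ _

theorem smulMap_id (A : PQ) (X : EF J) : smulMap (𝟙 A) (𝟙 X) = 𝟙 (smul A X) :=
  smul_hom_ext (fun a k x => by rw [fn_smulMap]; rfl)

theorem smulMap_comp {A B C : PQ} {X Y Z : EF J} (f : A ⟶ B) (f' : B ⟶ C) (g : X ⟶ Y)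
    (g' : Y ⟶ Z) : smulMap (f ≫ f') (g ≫ g') = smulMap f g ≫ smulMap f' g' :=
  smul_hom_ext (fun a k x => by
    rw [fn_comp, fn_smulMap, fn_smulMap, fn_smulMap, PQ.app_comp, fn_comp])

/-- Morphisms out of `smul A (rep a)`. -/
noncomputable def smulYo {A : PQ} {X : EF J} {a : J} (g : A ⟶ X.obj a) : smul A (rep a) ⟶ X :=
  smulDesc (fun b k u => X.act (unpr u) (PQ.app g k))
    (fun b u => by rw [PQ.app_infty, act_infty]) (fun b k => by rw [unpr_infty, act_zero])
    (fun b K k u hk hu => X.act_plot (unpr_plot hu) (PQ.app_plot g hk))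
    (fun _ _ w k u => by rw [unpr_rep_act, act_comp])

@[simp] theorem fn_smulYo {A : PQ} {X : EF J} {a b : J} (g : A ⟶ X.obj a) (k : OnePoint A)
    (u : a ⟶ b) :
    fn (smulYo g) (sm k (pr u)) = X.act u (PQ.app g k) := by
  rw [smulYo, fn_smulDesc, unpr_pr]

theorem smul_rep_hom_ext {A : PQ} {X : EF J} {a : J} {f g : smul A (rep a) ⟶ X}
    (h : ∀ k : OnePoint A, fn f (sm k (pr (𝟙 a))) = fn g (sm k (pr (𝟙 a)))) : f = g := by
  apply smul_hom_ext
  intro b k u
  obtain ⟨u, rfl⟩ := pr_surjective u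
  have := congrArg (X.act u) (h k)
  rw [← fn_act, ← fn_act, smul_act, rep_act, Category.id_comp] at this
  exact this

/-- the point-morphism `A ⟶ (smul A (rep a)).obj a` -/
noncomputable def smulUnit (A : PQ) (a : J) : A ⟶ (smul A (rep a)).obj a :=
  ⟨fun k => sm k (pr (𝟙 a)), sm_infty_left _,
    fun _ _ hk => sm_plot hk (((rep a).obj a).plot_const _ _)⟩

@[simp] theorem app_smulUnit (A : PQ) (a : J) (k : OnePoint A) :
    PQ.app (smulUnit A a) k = sm k (pr (𝟙 a)) := rfl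

/-- Parametrized Yoneda lemma. -/
noncomputable def smulYoEquiv (A : PQ) (X : EF J) (a : J) :
    (smul A (rep a) ⟶ X) ≃ (A ⟶ X.obj a) where
  toFun f := smulUnit A a ≫ Hom.app f a
  invFun g := smulYo g
  left_inv f := smul_rep_hom_ext (fun k => by rw [fn_smulYo, act_id]; rfl)
  right_inv g := PQ.hom_ext' (fun k => by
    change fn (smulYo g) (sm k (pr (𝟙 a))) = _
    rw [fn_smulYo, act_id])

end smul

section sphere

variable (J) in
/-- The unit: the functor represented by the unit of the index category. -/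
noncomputable abbrev sphere : EF J := rep (𝟙_ J)

theorem sphere_hom_ext {X : EF J} {f g : sphere J ⟶ X}
    (h : fn f (pr (𝟙 (𝟙_ J))) = fn g (pr (𝟙 (𝟙_ J)))) : f = g := rep_hom_ext h

end sphere

section free

variable (J) in
/-- The free functor `A ↦ (a ↦ A ⊗ Hom (𝟙, a))`. -/
noncomputable def F : PQ ⥤ EF J where
  obj A := smul A (sphere J)
  map f := smulMap f (𝟙 (sphere J))
  map_id A := smulMap_id A (sphere J)
  map_comp f g := by rw [← smulMap_comp, Category.comp_id]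

theorem F_obj (A : PQ) : (F J).obj A = smul A (sphere J) := rfl

theorem F_obj_obj (A : PQ) (a : J) : ((F J).obj A).obj a = A ⊗ homPQ (𝟙_ J) a := rfl

/-- The points of `(F J).obj A`. -/
noncomputable def fm {A : PQ} {a : J} (k : OnePoint A) (x : 𝟙_ J ⟶ a) :
    OnePoint (((F J).obj A).obj a) :=
  sm k (pr x)

section fm

variable {A : PQ} {a b : J}

@[simp] theorem fm_infty_left (x : 𝟙_ J ⟶ a) : fm (∞ : OnePoint A) x = ∞ :=
  sm_infty_left _

@[simp] theorem fm_zero (k : OnePoint A) : fm k (0 : 𝟙_ J ⟶ a) = ∞ := by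
  rw [fm, pr_zero]; exact sm_infty_right _

theorem fm_surjective (z : OnePoint (((F J).obj A).obj a)) :
    ∃ (k : OnePoint A) (x : 𝟙_ J ⟶ a), fm k x = z := by
  obtain ⟨k, x, h⟩ := sm_surjective (A := A) (X := sphere J) z
  obtain ⟨x, rfl⟩ := pr_surjective x
  exact ⟨k, x, h⟩

theorem fm_eq_sm (k : OnePoint A) (x : 𝟙_ J ⟶ a) : fm k x = sm k (pr x) := rfl

@[simp] theorem F_act (w : a ⟶ b) (k : OnePoint A) (x : 𝟙_ J ⟶ a) :
    ((F J).obj A).act w (fm k x) = fm k (x ≫ w) :=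
  (smul_act w k (pr x)).trans (by rw [rep_act]; rfl)

theorem fm_eq_act (k : OnePoint A) (x : 𝟙_ J ⟶ a) :
    fm k x = ((F J).obj A).act x (fm k (𝟙 _)) := by rw [F_act, Category.id_comp]

@[simp] theorem fn_F_map {B : PQ} (f : A ⟶ B) (k : OnePoint A) (x : 𝟙_ J ⟶ a) :
    fn ((F J).map f) (fm k x) = fm (PQ.app f k) x :=
  fn_smulMap f (𝟙 (sphere J)) k (pr x)

theorem fm_plot {K : CH} {k : K → OnePoint A} {x : K → (𝟙_ J ⟶ a)}
    (hk : A.plot K k) (hx : Idx.plot K x) :
    (((F J).obj A).obj a).plot K (fun i => fm (k i) (x i)) := sm_plot hk (pr_plot hx)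

end fm

theorem F_hom_ext {A : PQ} {X : EF J} {f g : (F J).obj A ⟶ X}
    (h : ∀ k : OnePoint A, fn f (fm k (𝟙 _)) = fn g (fm k (𝟙 _))) : f = g :=
  smul_rep_hom_ext h

/-- Morphisms out of a free object. -/
noncomputable def Fdesc {A : PQ} {X : EF J}
    (Φ : ∀ a : J, OnePoint A → (𝟙_ J ⟶ a) → OnePoint (X.obj a))
    (h1 : ∀ a x, Φ a ∞ x = ∞) (h2 : ∀ a k, Φ a k 0 = ∞)
    (h3 : ∀ (a : J) (K : CH) (k : K → OnePoint A) (x : K → (𝟙_ J ⟶ a)),
      A.plot K k → Idx.plot K x → (X.obj a).plot K (fun i => Φ a (k i) (x i)))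
    (h4 : ∀ (a b : J) (w : a ⟶ b) (k : OnePoint A) (x : 𝟙_ J ⟶ a),
      Φ b k (x ≫ w) = X.act w (Φ a k x)) : (F J).obj A ⟶ X :=
  smulDesc (X := sphere J) (fun a k x => Φ a k (unpr x)) (fun a x => h1 a _) (fun a k => h2 a k)
    (fun a K k x hk hx => h3 a K k _ hk (unpr_plot hx))
    (fun _ _ w k x => by rw [unpr_rep_act, h4])

@[simp] theorem fn_Fdesc {A : PQ} {X : EF J}
    (Φ : ∀ a : J, OnePoint A → (𝟙_ J ⟶ a) → OnePoint (X.obj a))
    (h1 : ∀ a x, Φ a ∞ x = ∞) (h2 : ∀ a k, Φ a k 0 = ∞)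
    (h3 : ∀ (a : J) (K : CH) (k : K → OnePoint A) (x : K → (𝟙_ J ⟶ a)),
      A.plot K k → Idx.plot K x → (X.obj a).plot K (fun i => Φ a (k i) (x i)))
    (h4 : ∀ (a b : J) (w : a ⟶ b) (k : OnePoint A) (x : 𝟙_ J ⟶ a),
      Φ b k (x ≫ w) = X.act w (Φ a k x)) {a : J} (k : OnePoint A)
    (x : 𝟙_ J ⟶ a) : fn (Fdesc Φ h1 h2 h3 h4) (fm k x) = Φ a k x :=
  (fn_smulDesc _ _ _ _ _ _ _).trans (by rw [unpr_pr])

/-- The transpose of a morphism `A ⟶ X.obj 𝟙`. -/
noncomputable def Fyo {A : PQ} {X : EF J} (g : A ⟶ X.obj (𝟙_ J)) : (F J).obj A ⟶ X := smulYo g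

@[simp] theorem fn_Fyo {A : PQ} {X : EF J} (g : A ⟶ X.obj (𝟙_ J)) {a : J} (k : OnePoint A)
    (x : 𝟙_ J ⟶ a) :
    fn (Fyo g) (fm k x) = X.act x (PQ.app g k) := fn_smulYo g k x

theorem fn_Fyo_id {A : PQ} {X : EF J} (g : A ⟶ X.obj (𝟙_ J)) (k : OnePoint A) :
    fn (Fyo g) (fm k (𝟙 _)) = PQ.app g k := by
  rw [fn_Fyo, act_id]

/-- the unit of the free-evaluation adjunction -/
noncomputable def Funit (A : PQ) : A ⟶ ((F J).obj A).obj (𝟙_ J) := smulUnit A (𝟙_ J)

@[simp] theorem app_Funit (A : PQ) (k : OnePoint A) :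
    PQ.app (Funit (J := J) A) k = fm k (𝟙 _) := rfl

/-- the bijection of the free-evaluation adjunction -/
noncomputable def FEquiv (A : PQ) (X : EF J) : ((F J).obj A ⟶ X) ≃ (A ⟶ X.obj (𝟙_ J)) :=
  smulYoEquiv A X (𝟙_ J)

theorem app_FEquiv {A : PQ} {X : EF J} (f : (F J).obj A ⟶ X) (k : OnePoint A) :
    PQ.app (FEquiv A X f) k = fn f (fm k (𝟙 _)) := rfl

theorem FEquiv_symm {A : PQ} {X : EF J} (g : A ⟶ X.obj (𝟙_ J)) :
    (FEquiv A X).symm g = Fyo g := rfl

variable (J) in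
/-- `F ⊣ ev 𝟙`. -/
noncomputable def FAdj : F J ⊣ ev (𝟙_ J) :=
  Adjunction.mkOfHomEquiv
    { homEquiv := fun A X => FEquiv A X
      homEquiv_naturality_left_symm := fun {A B X} f g => F_hom_ext (fun k => by
        refine (fn_Fyo_id (X := X) (f ≫ g) k).trans ?_
        refine Eq.trans ?_ (congrArg (fn (Fyo (X := X) g)) (fn_F_map f k (𝟙 _))).symm
        exact (fn_Fyo_id (X := X) g _).symm)
      homEquiv_naturality_right := fun {A X Y} f g => rfl }

instance : (F J).IsLeftAdjoint := ⟨_, ⟨FAdj J⟩⟩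

end free

section shift

/-- The shift `(sh a X).obj b = X.obj (a ⊗ b)`. -/
def sh (a : J) : EF J ⥤ EF J where
  obj X :=
    { obj := fun b => X.obj (a ⊗ b)
      map := fun w => X.map (a ◁ w)
      map_id := fun b => by rw [MonoidalCategory.whiskerLeft_id, X.map_id]
      map_comp := fun f g => by rw [MonoidalCategory.whiskerLeft_comp, X.map_comp]
      map_zero := fun b c => by rw [Idx.whiskerLeft_zero, X.map_zero]
      map_plot := fun {b c} K w x hw hx =>
        X.map_plot K (fun k => a ◁ w k) x (Idx.plot_whiskerLeft hw a) hx }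
  map f :=
    { app := fun b => Hom.app f (a ⊗ b)
      naturality := fun w => Hom.naturality f (a ◁ w) }

theorem sh_obj_obj (a b : J) (X : EF J) : ((sh a).obj X).obj b = X.obj (a ⊗ b) := rfl

theorem sh_act (a : J) (X : EF J) {b c : J} (w : b ⟶ c) (x : OnePoint (X.obj (a ⊗ b))) :
    ((sh a).obj X).act w x = X.act (a ◁ w) x := rfl

theorem fn_sh_map (a : J) {X Y : EF J} (f : X ⟶ Y) {b : J}
    (x : OnePoint (X.obj (a ⊗ b))) : fn ((sh a).map f) (a := b) x = fn f (a := a ⊗ b) x := rfl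

end shift

end EF

end Vale.Agent.P257.D
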