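import Vale.Agent.P257.D.Day
import Vale.Agent.P257.D.Rep

/-!
# P257, design D (port of P251.H): the symmetric monoidal category of continuous functors
-/

open CategoryTheory MonoidalCategory Topology OnePoint

namespace Vale.Agent.P257.D

open Vale.Agent.P251.H (CH PQ NonBase toQ ofQ toQ_infty toQ_coe ofQ_base toQ_ofQ ofQ_toQ
  ofQ_surjective ofQ_injective ofQ_eq_infty)

open Vale.Agent.P251.G (LC)

namespace EF

variable {J : Type} [Idx J]

variable {X Y Z W X' Y' Z' : EF J} {a b c d a' b' : J}

/-- tensor product of morphisms -/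
noncomputable def dayMap (f : X ⟶ X') (g : Y ⟶ Y') : day X Y ⟶ day X' Y' :=
  desc
    { toFun := fun x y => bt (fn f x) (fn g y)
      infty_left := fun y => by rw [fn_infty, bt_infty_left]
      infty_right := fun x => by rw [fn_infty, bt_infty_right]
      nat := fun u v x y => by rw [fn_act, fn_act, act_bt]
      plot := fun hx hy => bt_plot (fn_plot f hx) (fn_plot g hy) }

@[simp] theorem dayMap_bt (f : X ⟶ X') (g : Y ⟶ Y') (x : OnePoint (X.obj a))
    (y : OnePoint (Y.obj b)) : fn (dayMap f g) (bt x y) = bt (fn f x) (fn g y) :=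
  fn_desc _ x y

/-! ### The associator -/

section assoc

/-- the family `[w; x, y], z ↦ [w ▷ d; α⁻¹ (x, (y, z))]` -/
noncomputable def assocFam (X Y Z : EF J) (c d : J) (z : OnePoint (Z.obj d)) :
    DayFam X Y c (OnePoint ((day X (day Y Z)).obj (c ⊗ d))) ∞ where
  F {a b} w x y := (day X (day Y Z)).act ((α_ a b d).inv ≫ (w ▷ d)) (bt x (bt y z))
  h1 w y := by rw [bt_infty_left, act_infty]
  h2 w x := by rw [bt_infty_left, bt_infty_right, act_infty]
  h3 u v w x y := by
    rw [← act_bt_left v y z, ← act_bt, ← act_comp]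
    congr 1
    simp [tensorHom_def]

/-- the associator, as a bilinear morphism -/
noncomputable def assocBil (X Y Z : EF J) : Bil (day X Y) Z (day X (day Y Z)) where
  toFun {c d} p z := dayElim (assocFam X Y Z c d z) p
  infty_left z := dayElim_infty _
  infty_right {c d} p := by
    obtain ⟨a, b, w, x, y, rfl⟩ := exists_br p
    rw [dayElim_br]
    simp [assocFam]
  nat {c d c' d'} u v p z := by
    obtain ⟨a, b, w, x, y, rfl⟩ := exists_br p
    rw [day_act_br, dayElim_br, dayElim_br]
    simp only [assocFam]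
    rw [← act_bt_right v y z, ← act_bt_right, ← act_comp, ← act_comp]
    congr 1
    rw [comp_whiskerRight, tensorHom_def, Category.assoc,
      associator_inv_naturality_right_assoc, whisker_exchange_assoc, whisker_exchange]
  plot {c d K p z} hp hz := by
    refine day_plot_left (W := (day X (day Y Z)).obj (c ⊗ d))
      (fun p z => dayElim (assocFam X Y Z c d z) p)
      (fun K (z : K → OnePoint (Z.obj d)) => (Z.obj d).plot K z)
      (fun g p hg hp => (Z.obj d).plot_comp g p hg hp) ?_ hp hz
    intro K a b w x y z hw hx hy hz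
    simp_rw [dayElim_br]
    exact act_plot _ (Idx.plot_comp (Idx.plot_const K _) (Idx.plot_whiskerRight hw d))
      (bt_plot hx (bt_plot hy hz))

/-- the associator -/
noncomputable def assocHom (X Y Z : EF J) : day (day X Y) Z ⟶ day X (day Y Z) :=
  desc (assocBil X Y Z)

theorem assocHom_bt (x : OnePoint (X.obj a)) (y : OnePoint (Y.obj b)) (z : OnePoint (Z.obj c)) :
    fn (assocHom X Y Z) (bt (bt x y) z) =
      (day X (day Y Z)).act (α_ a b c).inv (bt x (bt y z)) := by
  rw [assocHom, fn_desc]
  refine (dayElim_br (assocFam X Y Z (a ⊗ b) c z) (𝟙 _) x y).trans ?_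
  simp only [assocFam]
  rw [id_whiskerRight, Category.comp_id]

/-- Extensionality for morphisms out of triple tensor products. -/
theorem day_ext₃ {f g : day (day X Y) Z ⟶ W}
    (h : ∀ (a b c : J) (x : OnePoint (X.obj a)) (y : OnePoint (Y.obj b))
      (z : OnePoint (Z.obj c)), fn f (bt (bt x y) z) = fn g (bt (bt x y) z)) : f = g := by
  apply day_ext
  intro d c p z
  obtain ⟨a, b, w, x, y, rfl⟩ := exists_bt p
  rw [← act_bt_left, fn_act, fn_act, h]

theorem day_ext₃' {f g : day X (day Y Z) ⟶ W}
    (h : ∀ (a b c : J) (x : OnePoint (X.obj a)) (y : OnePoint (Y.obj b))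
      (z : OnePoint (Z.obj c)), fn f (bt x (bt y z)) = fn g (bt x (bt y z))) : f = g := by
  apply day_ext
  intro d c x p
  obtain ⟨a, b, w, y, z, rfl⟩ := exists_bt p
  rw [← act_bt_right, fn_act, fn_act, h]

theorem day_ext₄ {V : EF J} {f g : day (day (day X Y) Z) W ⟶ V}
    (h : ∀ (a b c d : J) (x : OnePoint (X.obj a)) (y : OnePoint (Y.obj b))
      (z : OnePoint (Z.obj c)) (t : OnePoint (W.obj d)),
      fn f (bt (bt (bt x y) z) t) = fn g (bt (bt (bt x y) z) t)) : f = g := by
  apply day_ext
  intro e d p t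
  obtain ⟨e', c, w, p', z, rfl⟩ := exists_bt p
  obtain ⟨a, b, w', x, y, rfl⟩ := exists_bt p'
  rw [← act_bt_left, fn_act, fn_act, ← act_bt_left, ← act_bt_left, fn_act, fn_act, h]

end assoc

/-! ### The braiding -/

section braiding

/-- the swap -/
noncomputable def swapHom (X Y : EF J) : day X Y ⟶ day Y X :=
  desc
    { toFun := fun {a b} x y => (day Y X).act (β_ b a).hom (bt y x)
      infty_left := fun y => by rw [bt_infty_right, act_infty]
      infty_right := fun x => by rw [bt_infty_left, act_infty]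
      nat := fun u v x y => by
        rw [← act_bt, ← act_comp, ← act_comp, BraidedCategory.braiding_naturality]
      plot := fun hx hy => act_plot' _ _ (bt_plot hy hx) }

theorem swapHom_bt (x : OnePoint (X.obj a)) (y : OnePoint (Y.obj b)) :
    fn (swapHom X Y) (bt x y) = (day Y X).act (β_ b a).hom (bt y x) := fn_desc _ x y

theorem swapHom_swapHom (X Y : EF J) : swapHom X Y ≫ swapHom Y X = 𝟙 _ := by
  apply day_ext
  intro a b x y
  rw [fn_comp, swapHom_bt, fn_act, swapHom_bt, ← act_comp, SymmetricCategory.symmetry, act_id,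
    fn_id]

/-- the braiding -/
noncomputable def swapIso (X Y : EF J) : day X Y ≅ day Y X where
  hom := swapHom X Y
  inv := swapHom Y X
  hom_inv_id := swapHom_swapHom X Y
  inv_hom_id := swapHom_swapHom Y X

end braiding

section assoc

/-- the inverse of the associator -/
noncomputable def assocInv (X Y Z : EF J) : day X (day Y Z) ⟶ day (day X Y) Z :=
  swapHom X (day Y Z) ≫ dayMap (swapHom Y Z) (𝟙 X) ≫ assocHom Z Y X ≫
    swapHom Z (day Y X) ≫ dayMap (swapHom Y X) (𝟙 Z)

theorem assocInv_bt (x : OnePoint (X.obj a)) (y : OnePoint (Y.obj b)) (z : OnePoint (Z.obj c)) :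
    fn (assocInv X Y Z) (bt x (bt y z)) =
      (day (day X Y) Z).act (α_ a b c).hom (bt (bt x y) z) := by
  simp only [assocInv, fn_comp]
  rw [swapHom_bt, fn_act, dayMap_bt, swapHom_bt, fn_id, ← act_bt_left]
  simp only [fn_act]
  rw [assocHom_bt]
  simp only [fn_act]
  rw [swapHom_bt]
  simp only [fn_act]
  rw [dayMap_bt, swapHom_bt, fn_id, ← act_bt_left]
  simp only [← act_comp]
  congr 1
  simp only [BraidedCategory.braiding_tensor_left_hom, Category.assoc, Iso.hom_inv_id_assoc]
  rw [← comp_whiskerRight_assoc (β_ b c).hom, SymmetricCategory.symmetry, id_whiskerRight,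
    Category.id_comp, Iso.inv_hom_id_assoc, ← MonoidalCategory.whiskerLeft_comp_assoc,
    SymmetricCategory.symmetry, MonoidalCategory.whiskerLeft_id, Category.id_comp,
    Iso.hom_inv_id_assoc, ← comp_whiskerRight_assoc, SymmetricCategory.symmetry, id_whiskerRight,
    Category.id_comp]

end assoc

/-! ### The unitors -/

section unitors

/-- the unit point of the sphere spectrum -/
noncomputable abbrev onePt : OnePoint ((sphere J).obj (𝟙_ J)) := pr (𝟙 _)

theorem act_unpr_onePt (p : OnePoint ((sphere J).obj a)) : (sphere J).act (unpr p) onePt = p := by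
  rw [rep_act, Category.id_comp, pr_unpr]

/-- left unitor -/
noncomputable def leftHom (X : EF J) : day (sphere J) X ⟶ X :=
  desc
    { toFun := fun {a b} p x => X.act ((λ_ b).inv ≫ unpr p ▷ b) x
      infty_left := fun x => by
        rw [unpr_infty, Idx.zero_whiskerRight, Limits.comp_zero, act_zero]
      infty_right := fun p => act_infty _ _
      nat := fun u v p x => by
        rw [unpr_rep_act, ← act_comp, ← act_comp]
        congr 1
        rw [leftUnitor_inv_naturality_assoc, tensorHom_def, comp_whiskerRight, Category.assoc,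
          whisker_exchange_assoc, whisker_exchange]
      plot := fun hp hx => act_plot _ (Idx.plot_comp (Idx.plot_const _ _)
        (Idx.plot_whiskerRight (unpr_plot hp) _)) hx }

theorem leftHom_bt (p : OnePoint ((sphere J).obj a)) (x : OnePoint (X.obj b)) :
    fn (leftHom X) (bt p x) = X.act ((λ_ b).inv ≫ unpr p ▷ b) x := fn_desc _ p x

/-- inverse of the left unitor -/
noncomputable def leftInv (X : EF J) : X ⟶ day (sphere J) X :=
  homMk (fun a x => (day (sphere J) X).act (λ_ a).hom (bt onePt x))
    (fun a => by rw [bt_infty_right, act_infty])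
    (fun a K x hx => act_plot' _ _ (bt_plot (((sphere J).obj _).plot_const _ _) hx))
    (fun {a b} w x => by
      rw [← act_bt_right, ← act_comp, ← act_comp, leftUnitor_naturality])

theorem fn_leftInv (x : OnePoint (X.obj a)) :
    fn (leftInv X) x = (day (sphere J) X).act (λ_ a).hom (bt onePt x) := rfl

/-- right unitor -/
noncomputable def rightHom (X : EF J) : day X (sphere J) ⟶ X :=
  desc
    { toFun := fun {a b} x p => X.act ((ρ_ a).inv ≫ a ◁ unpr p) x
      infty_left := fun x => act_infty _ _
      infty_right := fun p => by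
        rw [unpr_infty, Idx.whiskerLeft_zero, Limits.comp_zero, act_zero]
      nat := fun u v x p => by
        rw [unpr_rep_act, ← act_comp, ← act_comp]
        congr 1
        rw [rightUnitor_inv_naturality_assoc, tensorHom_def', MonoidalCategory.whiskerLeft_comp,
          Category.assoc, ← whisker_exchange_assoc, ← whisker_exchange]
      plot := fun hx hp => act_plot _ (Idx.plot_comp (Idx.plot_const _ _)
        (Idx.plot_whiskerLeft (unpr_plot hp) _)) hx }

theorem rightHom_bt (x : OnePoint (X.obj a)) (p : OnePoint ((sphere J).obj b)) :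
    fn (rightHom X) (bt x p) = X.act ((ρ_ a).inv ≫ a ◁ unpr p) x := fn_desc _ x p

/-- inverse of the right unitor -/
noncomputable def rightInv (X : EF J) : X ⟶ day X (sphere J) :=
  homMk (fun a x => (day X (sphere J)).act (ρ_ a).hom (bt x onePt))
    (fun a => by rw [bt_infty_left, act_infty])
    (fun a K x hx => act_plot' _ _ (bt_plot hx (((sphere J).obj _).plot_const _ _)))
    (fun {a b} w x => by
      rw [← act_bt_left, ← act_comp, ← act_comp, rightUnitor_naturality])

theorem fn_rightInv (x : OnePoint (X.obj a)) :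
    fn (rightInv X) x = (day X (sphere J)).act (ρ_ a).hom (bt x onePt) := rfl

end unitors

/-! ### The monoidal category -/

noncomputable instance : MonoidalCategoryStruct (EF J) where
  tensorObj := day
  tensorUnit := sphere J
  whiskerLeft X _ _ f := dayMap (𝟙 X) f
  whiskerRight f Z := dayMap f (𝟙 Z)
  tensorHom := dayMap
  associator X Y Z :=
    { hom := assocHom X Y Z
      inv := assocInv X Y Z
      hom_inv_id := by
        apply day_ext₃; intro a b c x y z
        rw [fn_comp, assocHom_bt, fn_act, assocInv_bt, ← act_comp, Iso.hom_inv_id, act_id, fn_id]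
      inv_hom_id := by
        apply day_ext₃'; intro a b c x y z
        rw [fn_comp, assocInv_bt, fn_act, assocHom_bt, ← act_comp, Iso.inv_hom_id, act_id,
          fn_id] }
  leftUnitor X :=
    { hom := leftHom X
      inv := leftInv X
      hom_inv_id := by
        apply day_ext; intro a b p x
        rw [fn_comp, leftHom_bt, fn_leftInv, ← act_bt_right, ← act_comp, leftUnitor_naturality,
          Iso.hom_inv_id_assoc, act_bt_left, act_unpr_onePt, fn_id]
      inv_hom_id := by
        apply hom_ext; intro a x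
        rw [fn_comp, fn_leftInv, fn_act, leftHom_bt, unpr_pr, id_whiskerRight,
          Category.comp_id, ← act_comp, Iso.inv_hom_id, act_id, fn_id] }
  rightUnitor X :=
    { hom := rightHom X
      inv := rightInv X
      hom_inv_id := by
        apply day_ext; intro a b x p
        rw [fn_comp, rightHom_bt, fn_rightInv, ← act_bt_left, ← act_comp, rightUnitor_naturality,
          Iso.hom_inv_id_assoc, act_bt_right, act_unpr_onePt, fn_id]
      inv_hom_id := by
        apply hom_ext; intro a x
        rw [fn_comp, fn_rightInv, fn_act, rightHom_bt, unpr_pr,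
          MonoidalCategory.whiskerLeft_id, Category.comp_id, ← act_comp, Iso.inv_hom_id, act_id,
          fn_id] }

theorem tensorObj_eq (X Y : EF J) : X ⊗ Y = day X Y := rfl

theorem tensorUnit_eq : 𝟙_ (EF J) = sphere J := rfl

section fn

/-- The generators of the tensor product `X ⊗ Y`. -/
noncomputable def tm {X Y : EF J} {a b : J} (x : OnePoint (X.obj a)) (y : OnePoint (Y.obj b)) :
    OnePoint ((X ⊗ Y).obj (a ⊗ b)) := bt x y

@[simp] theorem tm_infty_left (y : OnePoint (Y.obj b)) :
    tm (∞ : OnePoint (X.obj a)) y = ∞ := bt_infty_left _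

@[simp] theorem tm_infty_right (x : OnePoint (X.obj a)) :
    tm x (∞ : OnePoint (Y.obj b)) = ∞ := bt_infty_right _

theorem act_tm (u : a ⟶ a') (v : b ⟶ b') (x : OnePoint (X.obj a)) (y : OnePoint (Y.obj b)) :
    (X ⊗ Y).act (u ⊗ₘ v) (tm x y) = tm (X.act u x) (Y.act v y) := act_bt u v x y

theorem act_tm_left (u : a ⟶ a') (x : OnePoint (X.obj a)) (y : OnePoint (Y.obj b)) :
    (X ⊗ Y).act (u ▷ b) (tm x y) = tm (X.act u x) y := act_bt_left u x y

theorem act_tm_right (v : b ⟶ b') (x : OnePoint (X.obj a)) (y : OnePoint (Y.obj b)) :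
    (X ⊗ Y).act (a ◁ v) (tm x y) = tm x (Y.act v y) := act_bt_right v x y

theorem exists_tm (z : OnePoint ((X ⊗ Y).obj c)) :
    ∃ (a b : J) (w : a ⊗ b ⟶ c) (x : OnePoint (X.obj a)) (y : OnePoint (Y.obj b)),
      z = (X ⊗ Y).act w (tm x y) := exists_bt z

theorem tm_plot {K : CH} {x : K → OnePoint (X.obj a)} {y : K → OnePoint (Y.obj b)}
    (hx : (X.obj a).plot K x) (hy : (Y.obj b).plot K y) :
    ((X ⊗ Y).obj (a ⊗ b)).plot K (fun k => tm (x k) (y k)) := bt_plot hx hy

/-- Morphisms out of the tensor product are determined on generators. -/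
theorem tensor_ext {f g : X ⊗ Y ⟶ Z}
    (h : ∀ (a b : J) (x : OnePoint (X.obj a)) (y : OnePoint (Y.obj b)),
      fn f (tm x y) = fn g (tm x y)) : f = g := day_ext h

theorem tensor_ext₃ {f g : (X ⊗ Y) ⊗ Z ⟶ W}
    (h : ∀ (a b c : J) (x : OnePoint (X.obj a)) (y : OnePoint (Y.obj b))
      (z : OnePoint (Z.obj c)), fn f (tm (tm x y) z) = fn g (tm (tm x y) z)) : f = g :=
  day_ext₃ h

theorem tensor_ext₃' {f g : X ⊗ (Y ⊗ Z) ⟶ W}
    (h : ∀ (a b c : J) (x : OnePoint (X.obj a)) (y : OnePoint (Y.obj b))
      (z : OnePoint (Z.obj c)), fn f (tm x (tm y z)) = fn g (tm x (tm y z))) : f = g :=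
  day_ext₃' h

theorem tensor_ext₄ {V : EF J} {f g : ((X ⊗ Y) ⊗ Z) ⊗ W ⟶ V}
    (h : ∀ (a b c d : J) (x : OnePoint (X.obj a)) (y : OnePoint (Y.obj b))
      (z : OnePoint (Z.obj c)) (t : OnePoint (W.obj d)),
      fn f (tm (tm (tm x y) z) t) = fn g (tm (tm (tm x y) z) t)) : f = g :=
  day_ext₄ h

theorem tensorHom_tm (f : X ⟶ X') (g : Y ⟶ Y') (x : OnePoint (X.obj a))
    (y : OnePoint (Y.obj b)) : fn (f ⊗ₘ g) (tm x y) = tm (fn f x) (fn g y) :=
  dayMap_bt f g x y

theorem whiskerLeft_tm (X : EF J) {Y Y' : EF J} (g : Y ⟶ Y') (x : OnePoint (X.obj a))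
    (y : OnePoint (Y.obj b)) : fn (X ◁ g) (tm x y) = tm x (fn g y) :=
  dayMap_bt (𝟙 X) g x y

theorem whiskerRight_tm {X X' : EF J} (f : X ⟶ X') (Y : EF J) (x : OnePoint (X.obj a))
    (y : OnePoint (Y.obj b)) : fn (f ▷ Y) (tm x y) = tm (fn f x) y :=
  dayMap_bt f (𝟙 Y) x y

theorem associator_tm (x : OnePoint (X.obj a)) (y : OnePoint (Y.obj b))
    (z : OnePoint (Z.obj c)) : fn (α_ X Y Z).hom (tm (tm x y) z) =
      (X ⊗ (Y ⊗ Z)).act (α_ a b c).inv (tm x (tm y z)) := assocHom_bt x y z

theorem associator_inv_tm (x : OnePoint (X.obj a)) (y : OnePoint (Y.obj b))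
    (z : OnePoint (Z.obj c)) : fn (α_ X Y Z).inv (tm x (tm y z)) =
      ((X ⊗ Y) ⊗ Z).act (α_ a b c).hom (tm (tm x y) z) := assocInv_bt x y z

theorem leftUnitor_tm (p : OnePoint ((𝟙_ (EF J)).obj a)) (x : OnePoint (X.obj b)) :
    fn (λ_ X).hom (tm p x) = X.act ((λ_ b).inv ≫ unpr p ▷ b) x := leftHom_bt p x

theorem rightUnitor_tm (x : OnePoint (X.obj a)) (p : OnePoint ((𝟙_ (EF J)).obj b)) :
    fn (ρ_ X).hom (tm x p) = X.act ((ρ_ a).inv ≫ a ◁ unpr p) x := rightHom_bt x p

theorem leftUnitor_inv_fn (x : OnePoint (X.obj a)) :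
    fn (λ_ X).inv x = (𝟙_ (EF J) ⊗ X).act (λ_ a).hom (tm onePt x) := rfl

theorem rightUnitor_inv_fn (x : OnePoint (X.obj a)) :
    fn (ρ_ X).inv x = (X ⊗ 𝟙_ (EF J)).act (ρ_ a).hom (tm x onePt) := rfl

end fn

noncomputable instance : MonoidalCategory (EF J) where
  tensorHom_def f g := by
    apply tensor_ext; intro a b x y
    rw [tensorHom_tm, fn_comp, whiskerRight_tm, whiskerLeft_tm]
  id_tensorHom_id X Y := by
    apply tensor_ext; intro a b x y
    rw [tensorHom_tm, fn_id, fn_id, fn_id]
  tensorHom_comp_tensorHom f₁ f₂ g₁ g₂ := by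
    apply tensor_ext; intro a b x y
    rw [fn_comp, tensorHom_tm, tensorHom_tm, tensorHom_tm, fn_comp, fn_comp]
  whiskerLeft_id X Y := by
    apply tensor_ext; intro a b x y
    rw [whiskerLeft_tm, fn_id, fn_id]
  id_whiskerRight X Y := by
    apply tensor_ext; intro a b x y
    rw [whiskerRight_tm, fn_id, fn_id]
  associator_naturality f₁ f₂ f₃ := by
    apply tensor_ext₃; intro a b c x y z
    rw [fn_comp, tensorHom_tm, tensorHom_tm, associator_tm, fn_comp, associator_tm, fn_act,
      tensorHom_tm, tensorHom_tm]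
  leftUnitor_naturality f := by
    apply tensor_ext; intro a b p x
    rw [fn_comp, whiskerLeft_tm, leftUnitor_tm, fn_comp, leftUnitor_tm, fn_act]
  rightUnitor_naturality f := by
    apply tensor_ext; intro a b x p
    rw [fn_comp, whiskerRight_tm, rightUnitor_tm, fn_comp, rightUnitor_tm, fn_act]
  pentagon W X Y Z := by
    apply tensor_ext₄; intro a b c d w x y z
    simp only [fn_comp]
    rw [whiskerRight_tm, associator_tm, ← act_tm_left, fn_act, associator_tm, fn_act, fn_act,
      whiskerLeft_tm, associator_tm, ← act_tm_right, associator_tm, fn_act, associator_tm]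
    simp only [← act_comp]
    congr 1
    rw [Category.assoc, pentagon_inv]
  triangle X Y := by
    apply tensor_ext₃; intro a b c x p y
    rw [fn_comp, associator_tm, fn_act, whiskerLeft_tm, leftUnitor_tm, whiskerRight_tm,
      rightUnitor_tm, ← act_tm_right, ← act_tm_left, ← act_comp]
    congr 1
    simp

theorem swapIso_tm (x : OnePoint (X.obj a)) (y : OnePoint (Y.obj b)) :
    fn (swapIso X Y).hom (tm x y) = (Y ⊗ X).act (β_ b a).hom (tm y x) := swapHom_bt x y

noncomputable instance : BraidedCategory (EF J) where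
  braiding X Y := swapIso X Y
  braiding_naturality_right X Y Z f := by
    apply tensor_ext; intro a b x y
    rw [fn_comp, whiskerLeft_tm, fn_comp]
    erw [swapIso_tm, swapIso_tm]
    rw [fn_act, whiskerRight_tm]
  braiding_naturality_left f Z := by
    apply tensor_ext; intro a b x y
    rw [fn_comp, whiskerRight_tm, fn_comp]
    erw [swapIso_tm, swapIso_tm]
    rw [fn_act, whiskerLeft_tm]
  hexagon_forward X Y Z := by
    apply tensor_ext₃; intro a b c x y z
    simp only [fn_comp]
    rw [associator_tm, whiskerRight_tm, fn_act]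
    erw [swapIso_tm, swapIso_tm]
    rw [fn_act, fn_act, associator_tm, ← act_tm_left, fn_act, associator_tm, fn_act, fn_act,
      whiskerLeft_tm]
    erw [swapIso_tm]
    rw [← act_tm_right]
    simp only [← act_comp]
    congr 1
    rw [Category.assoc, Category.assoc, BraidedCategory.hexagon_reverse]
  hexagon_reverse X Y Z := by
    apply tensor_ext₃'; intro a b c x y z
    simp only [fn_comp]
    rw [associator_inv_tm, whiskerLeft_tm, fn_act]
    erw [swapIso_tm, swapIso_tm]
    rw [fn_act, fn_act, associator_inv_tm, ← act_tm_right, fn_act, associator_inv_tm, fn_act,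
      fn_act, whiskerRight_tm]
    erw [swapIso_tm]
    rw [← act_tm_left]
    simp only [← act_comp]
    congr 1
    rw [Category.assoc, Category.assoc, BraidedCategory.hexagon_forward]

theorem braiding_tm (x : OnePoint (X.obj a)) (y : OnePoint (Y.obj b)) :
    fn (β_ X Y).hom (tm x y) = (Y ⊗ X).act (β_ b a).hom (tm y x) := swapHom_bt x y

theorem braiding_inv_tm (x : OnePoint (X.obj a)) (y : OnePoint (Y.obj b)) :
    fn (β_ X Y).inv (tm y x) = (X ⊗ Y).act (β_ a b).hom (tm x y) := swapHom_bt y x

noncomputable instance : SymmetricCategory (EF J) where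
  symmetry X Y := swapHom_swapHom X Y

/-! ### The universal property -/

/-- Morphisms out of the tensor product, from bilinear morphisms. -/
noncomputable def tensorDesc (φ : Bil X Y Z) : X ⊗ Y ⟶ Z := desc φ

@[simp] theorem tensorDesc_tm (φ : Bil X Y Z) (x : OnePoint (X.obj a))
    (y : OnePoint (Y.obj b)) : fn (tensorDesc φ) (tm x y) = φ.toFun x y := fn_desc φ x y

/-- The universal property of the tensor product. -/
noncomputable def tensorEquiv : (X ⊗ Y ⟶ Z) ≃ Bil X Y Z := descEquiv

@[simp] theorem tensorEquiv_toFun (f : X ⊗ Y ⟶ Z) (x : OnePoint (X.obj a))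
    (y : OnePoint (Y.obj b)) : (tensorEquiv f).toFun x y = fn f (tm x y) := rfl

@[simp] theorem tensorEquiv_symm (φ : Bil X Y Z) : tensorEquiv.symm φ = tensorDesc φ := rfl

@[simp] theorem zero_tensorHom (g : Y ⟶ Y') : (0 : X ⟶ X') ⊗ₘ g = 0 := by
  apply tensor_ext; intro a b x y
  rw [tensorHom_tm, fn_zero, tm_infty_left, fn_zero]

@[simp] theorem tensorHom_zero (f : X ⟶ X') : f ⊗ₘ (0 : Y ⟶ Y') = 0 := by
  apply tensor_ext; intro a b x y
  rw [tensorHom_tm, fn_zero, tm_infty_right, fn_zero]

@[simp] theorem whiskerLeft_zero (X : EF J) : X ◁ (0 : Y ⟶ Y') = 0 := by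
  rw [← id_tensorHom, tensorHom_zero]

@[simp] theorem zero_whiskerRight (Y : EF J) : (0 : X ⟶ X') ▷ Y = 0 := by
  rw [← tensorHom_id, zero_tensorHom]

end EF

end Vale.Agent.P257.D
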