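import Vale.Agent.P257.D.Day

/-!
# P257, design D (port of P251.H): the internal hom of continuous functors

* `EF.MapEF X Y : PQ`: the mapping space of two continuous functors;
* `EF.shR b Z`: the shift `a ↦ Z (a ⊗ b)`;
* `EF.IHom X Z : EF J`: `b ↦ MapEF X (shR b Z)`;
* `EF.curryBil : Bil X Y Z ≃ (Y ⟶ IHom X Z)` and `EF.dayHomEquiv : (day X Y ⟶ Z) ≃ (Y ⟶ IHom X Z)`.
-/

open CategoryTheory MonoidalCategory Topology OnePoint

namespace Vale.Agent.P257.D

open Vale.Agent.P251.H (CH PQ NonBase toQ ofQ toQ_infty toQ_coe ofQ_base toQ_ofQ ofQ_toQ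
  ofQ_surjective ofQ_injective ofQ_eq_infty)

namespace EF

variable {J : Type} [Idx J]

/-- a morphism of continuous functors as a point of the mapping space -/
noncomputable abbrev ofH {X Y : EF J} (f : X ⟶ Y) : OnePoint (NonBase (X ⟶ Y) 0) := ofQ 0 f

/-- a point of the mapping space as a morphism of continuous functors -/
abbrev toH {X Y : EF J} (φ : OnePoint (NonBase (X ⟶ Y) 0)) : X ⟶ Y := toQ 0 φ

theorem toH_ofH {X Y : EF J} (f : X ⟶ Y) : toH (ofH f) = f := toQ_ofQ 0 f

theorem ofH_toH {X Y : EF J} (φ : OnePoint (NonBase (X ⟶ Y) 0)) : ofH (toH φ) = φ := ofQ_toQ 0 φ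

theorem toH_infty {X Y : EF J} : toH (∞ : OnePoint (NonBase (X ⟶ Y) 0)) = 0 := rfl

theorem ofH_zero {X Y : EF J} : ofH (0 : X ⟶ Y) = ∞ := ofQ_base 0

theorem toH_injective {X Y : EF J} :
    Function.Injective (toH : OnePoint (NonBase (X ⟶ Y) 0) → (X ⟶ Y)) := fun φ ψ h => by
  rw [← ofH_toH φ, h, ofH_toH]

/-- The mapping space of two continuous functors. -/
abbrev MapEF (X Y : EF J) : PQ where
  carrier := NonBase (X ⟶ Y) 0
  plot K φ := ∀ (a : J) (L : CH) (x : L → OnePoint (X.obj a)), (X.obj a).plot L x →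
    (Y.obj a).plot (CH.prod K L) (fun p => fn (toH (φ p.1)) (x p.2))
  plot_const K φ a L x hx :=
    (Y.obj a).plot_comp (K := L) (L := CH.prod K L) Prod.snd (fun l => fn (toH φ) (x l))
      continuous_snd (fn_plot (toH φ) hx)
  plot_comp := fun {K K'} g φ hg hφ a L x hx =>
    (Y.obj a).plot_comp (K := CH.prod K L) (L := CH.prod K' L) (fun p => (g p.1, p.2))
      (fun p => fn (toH (φ p.1)) (x p.2)) (by fun_prop) (hφ a L x hx)
  plot_sum := fun {K K'} φ h1 h2 a L x hx => by
    refine (Y.obj a).plot_cover (K := CH.prod K L) (L := CH.prod K' L)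
      (M := CH.prod (CH.sum K K') L)
      (fun p => fn (toH (φ p.1)) (x p.2)) (fun p => (Sum.inl p.1, p.2))
      (fun p => (Sum.inr p.1, p.2)) (by fun_prop) (by fun_prop) ?_ (h1 a L x hx) (h2 a L x hx)
    rintro ⟨k | k, l⟩
    · exact Or.inl ⟨(k, l), rfl⟩
    · exact Or.inr ⟨(k, l), rfl⟩
  plot_surj := fun {K K'} g φ hg hs hφ a L x hx => by
    refine (Y.obj a).plot_surj (K := CH.prod K L) (L := CH.prod K' L) (fun p => (g p.1, p.2))
      (fun p => fn (toH (φ p.1)) (x p.2)) (by fun_prop) ?_ (hφ a L x hx)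
    rintro ⟨k, l⟩
    obtain ⟨k', rfl⟩ := hs k
    exact ⟨(k', l), rfl⟩

theorem mapEF_plot_app {X Y : EF J} {K : CH} {φ : K → OnePoint (NonBase (X ⟶ Y) 0)}
    (h : (MapEF X Y).plot K φ) {a : J} {x : K → OnePoint (X.obj a)}
    (hx : (X.obj a).plot K x) : (Y.obj a).plot K (fun k => fn (toH (φ k)) (x k)) :=
  (Y.obj a).plot_comp (K := CH.prod K K) (L := K) (fun l => (l, l)) _ (by fun_prop)
    (h a K x hx)

section shift

variable (Z : EF J)

/-- The right shift `a ↦ Z (a ⊗ b)`. -/
abbrev shR (b : J) : EF J where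
  obj a := Z.obj (a ⊗ b)
  map w := Z.map (w ▷ b)
  map_id a := by rw [id_whiskerRight, Z.map_id]
  map_comp f g := by rw [comp_whiskerRight, Z.map_comp]
  map_zero a a' := by rw [Idx.zero_whiskerRight, Z.map_zero]
  map_plot K _ x hw hx := Z.map_plot K _ x (Idx.plot_whiskerRight hw b) hx

theorem shR_act {Z : EF J} {b a a' : J} (w : a ⟶ a') (x : OnePoint (Z.obj (a ⊗ b))) :
    (shR Z b).act w x = Z.act (w ▷ b) x := rfl

/-- The right shift is functorial in the amount of the shift. -/
def shRMap {b b' : J} (v : b ⟶ b') : shR Z b ⟶ shR Z b' where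
  app a := Z.map (a ◁ v)
  naturality {a a'} w := by
    change Z.map (w ▷ b) ≫ Z.map (a' ◁ v) = Z.map (a ◁ v) ≫ Z.map (w ▷ b')
    rw [← Z.map_comp, ← Z.map_comp, whisker_exchange]

@[simp] theorem fn_shRMap {b b' : J} (v : b ⟶ b') {a : J} (x : OnePoint (Z.obj (a ⊗ b))) :
    fn (shRMap Z v) (a := a) x = Z.act (a ◁ v) x := rfl

variable {Z}

/-- The right shift is functorial. -/
def shRFun {Z' : EF J} (f : Z ⟶ Z') (b : J) : shR Z b ⟶ shR Z' b where
  app a := Hom.app f (a ⊗ b)
  naturality _ := Hom.naturality f _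

@[simp] theorem fn_shRFun {Z' : EF J} (f : Z ⟶ Z') (b : J) {a : J}
    (x : OnePoint (Z.obj (a ⊗ b))) : fn (shRFun f b) (a := a) x = fn f x := rfl

end shift

/-- The internal hom. -/
noncomputable abbrev IHom (X Z : EF J) : EF J where
  obj b := MapEF X (shR Z b)
  map v := ⟨fun φ => ofH (toH φ ≫ shRMap Z v), by
      rw [toH_infty, Limits.zero_comp, ofH_zero], by
      intro K φ hφ a L x hx
      simp only [toH_ofH]
      exact Z.map_plot _ _ _ (Idx.plot_const _ (a ◁ v)) (hφ a L x hx)⟩
  map_id b := by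
    apply PQ.hom_ext'; intro φ
    apply toH_injective
    refine (toH_ofH _).trans ?_
    apply hom_ext; intro a x
    change Z.act (a ◁ 𝟙 b) _ = _
    rw [MonoidalCategory.whiskerLeft_id, act_id]; rfl
  map_comp f g := by
    apply PQ.hom_ext'; intro φ
    apply toH_injective
    refine (toH_ofH _).trans ?_
    refine Eq.trans ?_ (toH_ofH _).symm
    apply hom_ext; intro a x
    change Z.act (a ◁ (f ≫ g)) _ = Z.act (a ◁ g) (fn (toH (ofH (toH φ ≫ shRMap Z f))) x)
    rw [MonoidalCategory.whiskerLeft_comp, act_comp, toH_ofH]; rfl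
  map_zero b b' := by
    apply PQ.hom_ext'; intro φ
    apply toH_injective
    refine (toH_ofH _).trans ?_
    apply hom_ext; intro a x
    change Z.act (a ◁ (0 : b ⟶ b')) _ = _
    rw [Idx.whiskerLeft_zero, act_zero]; rfl
  map_plot := fun {b b'} K w φ hw hφ a L x hx => by
    change (Z.obj (a ⊗ b')).plot (CH.prod K L)
      (fun p => fn (toH (ofH (toH (φ p.1) ≫ shRMap Z (w p.1)))) (x p.2))
    simp only [toH_ofH]
    exact Z.map_plot (CH.prod K L) (fun p => a ◁ w p.1) _
      (Idx.plot_pre (K := K) (L := CH.prod K L) Prod.fst continuous_fst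
        (Idx.plot_whiskerLeft hw a)) (hφ a L x hx)

section curry

variable {X Y Z : EF J}

@[simp] theorem iHom_obj (b : J) : (IHom X Z).obj b = MapEF X (shR Z b) := rfl

theorem toH_iHom_act {b b' : J} (v : b ⟶ b') (φ : OnePoint ((IHom X Z).obj b)) :
    toH ((IHom X Z).act v φ) = toH φ ≫ shRMap Z v := toH_ofH _

/-- the morphism obtained by fixing the second variable of a bilinear morphism -/
def Bil.slice (φ : Bil X Y Z) {b : J} (y : OnePoint (Y.obj b)) : X ⟶ shR Z b :=
  homMk (fun _ x => φ.toFun x y) (fun _ => φ.infty_left y)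
    (fun _ K _ hx => φ.plot hx ((Y.obj b).plot_const K y))
    (fun {_ _} w x => by
      have := φ.nat w (𝟙 b) x y
      rw [act_id] at this
      rw [this, tensorHom_id]; rfl)

@[simp] theorem fn_slice (φ : Bil X Y Z) {b : J} (y : OnePoint (Y.obj b)) {a : J}
    (x : OnePoint (X.obj a)) : fn (φ.slice y) x = φ.toFun x y := rfl

/-- currying a bilinear morphism -/
noncomputable def Bil.curry (φ : Bil X Y Z) : Y ⟶ IHom X Z :=
  homMk (Y := IHom X Z) (fun _ y => ofH (φ.slice y))
    (fun b => by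
      rw [← ofH_zero]
      congr 1
      apply hom_ext; intro a x
      rw [fn_slice, φ.infty_right]; rfl)
    (fun b K y hy a L x hx => by
      simp only [toH_ofH]
      exact φ.plot (K := CH.prod K L) (x := fun p => x p.2) (y := fun p => y p.1)
        ((X.obj a).plot_comp (K := L) (L := CH.prod K L) Prod.snd x continuous_snd hx)
        ((Y.obj b).plot_comp (K := K) (L := CH.prod K L) Prod.fst y continuous_fst hy))
    (fun {b b'} v y => by
      apply toH_injective
      rw [toH_iHom_act, toH_ofH, toH_ofH]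
      apply hom_ext; intro a x
      have := φ.nat (𝟙 a) v x y
      rw [act_id] at this
      change φ.toFun x (Y.act v y) = Z.act (a ◁ v) (φ.toFun x y)
      rw [this, id_tensorHom])

theorem toH_fn_curry (φ : Bil X Y Z) {b : J} (y : OnePoint (Y.obj b)) :
    toH (fn φ.curry y) = φ.slice y := toH_ofH _

@[simp] theorem fn_toH_fn_curry (φ : Bil X Y Z) {a b : J} (x : OnePoint (X.obj a))
    (y : OnePoint (Y.obj b)) : fn (toH (fn φ.curry y)) x = φ.toFun x y := by
  rw [toH_fn_curry]; rfl

/-- uncurrying -/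
noncomputable def Bil.uncurry (g : Y ⟶ IHom X Z) : Bil X Y Z where
  toFun := fun {a b} x y => fn (toH (fn g y)) x
  infty_left := fun {a b} y => fn_infty (toH (fn g y)) a
  infty_right := fun {a b} x => by rw [fn_infty]; rfl
  nat := fun {a b a' b'} u v x y => by
    have h1 : toH (fn g (Y.act v y)) = toH (fn g y) ≫ shRMap Z v := by
      rw [fn_act g]; exact toH_iHom_act _ _
    rw [h1, fn_comp, fn_act (toH (fn g y)) u x, shR_act]
    change Z.act (a' ◁ v) (Z.act (u ▷ b) _) = _
    rw [← act_comp, tensorHom_def]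
  plot := fun hx hy => mapEF_plot_app (fn_plot g hy) hx

@[simp] theorem uncurry_toFun (g : Y ⟶ IHom X Z) {a b : J} (x : OnePoint (X.obj a))
    (y : OnePoint (Y.obj b)) : (Bil.uncurry g).toFun x y = fn (toH (fn g y)) x := rfl

/-- Bilinear morphisms are morphisms into the internal hom. -/
noncomputable def curryBil : Bil X Y Z ≃ (Y ⟶ IHom X Z) where
  toFun φ := φ.curry
  invFun g := Bil.uncurry g
  left_inv φ := by
    ext a b x y
    exact fn_toH_fn_curry φ x y
  right_inv g := by
    apply hom_ext; intro b y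
    apply toH_injective
    apply hom_ext; intro a x
    exact fn_toH_fn_curry (Bil.uncurry g) x y

/-- The tensor-hom bijection. -/
noncomputable def dayHomEquiv : (day X Y ⟶ Z) ≃ (Y ⟶ IHom X Z) := descEquiv.trans curryBil

@[simp] theorem fn_toH_fn_dayHomEquiv (f : day X Y ⟶ Z) {a b : J} (x : OnePoint (X.obj a))
    (y : OnePoint (Y.obj b)) : fn (toH (fn (dayHomEquiv f) y)) x = fn f (bt x y) :=
  fn_toH_fn_curry _ x y

@[simp] theorem fn_dayHomEquiv_symm (g : Y ⟶ IHom X Z) {a b : J} (x : OnePoint (X.obj a))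
    (y : OnePoint (Y.obj b)) :
    fn (dayHomEquiv.symm g) (bt x y) = fn (toH (fn g y)) x :=
  fn_desc _ _ _

end curry

section functor

/-- the internal hom is functorial in the second variable -/
noncomputable def iHomRight (X : EF J) {Z Z' : EF J} (f : Z ⟶ Z') : IHom X Z ⟶ IHom X Z' :=
  homMk (X := IHom X Z) (Y := IHom X Z') (fun b φ => ofH (toH φ ≫ shRFun f b))
    (fun b => by rw [toH_infty, Limits.zero_comp, ofH_zero])
    (fun b K φ hφ a L x hx => by
      simp only [toH_ofH]
      exact fn_plot f (hφ a L x hx))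
    (fun {b b'} v φ => by
      apply toH_injective
      refine (toH_ofH _).trans ?_
      rw [toH_iHom_act, toH_iHom_act]
      refine Eq.trans ?_ (congrArg (fun ψ => ψ ≫ shRMap Z' v) (toH_ofH _).symm)
      apply hom_ext; intro a x
      change fn f (Z.act (a ◁ v) _) = Z'.act (a ◁ v) (fn f _)
      rw [fn_act])

theorem toH_fn_iHomRight (X : EF J) {Z Z' : EF J} (f : Z ⟶ Z') {b : J}
    (φ : OnePoint ((IHom X Z).obj b)) :
    toH (fn (iHomRight X f) φ) = toH φ ≫ shRFun f b := toH_ofH _

/-- the internal hom functor -/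
noncomputable def iHomFunctor (X : EF J) : EF J ⥤ EF J where
  obj Z := IHom X Z
  map f := iHomRight X f
  map_id Z := by
    apply hom_ext; intro b φ
    apply toH_injective
    rw [toH_fn_iHomRight]; rfl
  map_comp f g := by
    apply hom_ext; intro b φ
    apply toH_injective
    rw [toH_fn_iHomRight, fn_comp, toH_fn_iHomRight, toH_fn_iHomRight]; rfl

end functor

end EF

end Vale.Agent.P257.D
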