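 
import Vale.Agent.P257.D.IHom
import Vale.Agent.P257.D.DayMon
import Mathlib.CategoryTheory.Monoidal.Closed.Basic

/-!
# P257, design D (port of P251.H): the category of continuous functors is monoidal closed
-/

open CategoryTheory MonoidalCategory Topology OnePoint

namespace Vale.Agent.P257.D

open Vale.Agent.P251.H (CH PQ NonBase toQ ofQ toQ_infty toQ_coe ofQ_base toQ_ofQ ofQ_toQ
  ofQ_surjective ofQ_injective ofQ_eq_infty)

open Vale.Agent.P251.G (LC)

namespace EF

variable {J : Type} [Idx J]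

theorem dayHomEquiv_left_symm (X : EF J) {Y' Y Z : EF J} (f : Y' ⟶ Y) (g : Y ⟶ IHom X Z) :
    dayHomEquiv.symm (f ≫ g) = (X ◁ f : X ⊗ Y' ⟶ X ⊗ Y) ≫ dayHomEquiv.symm g := by
  refine tensor_ext (X := X) (Y := Y') fun a b x y => ?_
  refine (fn_dayHomEquiv_symm (f ≫ g) x y).trans ?_
  rw [fn_comp, fn_comp, whiskerLeft_tm]
  exact (fn_dayHomEquiv_symm g x (fn f y)).symm

theorem dayHomEquiv_right (X : EF J) {Y Z Z' : EF J} (f : X ⊗ Y ⟶ Z) (g : Z ⟶ Z') :
    dayHomEquiv (X := X) (Y := Y) (Z := Z') (f ≫ g) =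
      (dayHomEquiv (X := X) (Y := Y) (Z := Z) f : Y ⟶ IHom X Z) ≫ iHomRight X g := by
  refine hom_ext fun b y => ?_
  apply toH_injective
  refine hom_ext fun a x => ?_
  refine (fn_toH_fn_dayHomEquiv (X := X) (Y := Y) (Z := Z') (f ≫ g) x y).trans ?_
  rw [fn_comp, fn_comp, toH_fn_iHomRight, fn_comp, fn_shRFun, fn_toH_fn_dayHomEquiv]

/-- The adjunction between the tensor product and the internal hom. -/
noncomputable def tensorIHomAdj (X : EF J) : tensorLeft X ⊣ iHomFunctor X :=
  Adjunction.mkOfHomEquiv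
    { homEquiv := fun Y Z => dayHomEquiv (X := X) (Y := Y) (Z := Z)
      homEquiv_naturality_left_symm := fun f g => dayHomEquiv_left_symm X f g
      homEquiv_naturality_right := fun f g => dayHomEquiv_right X f g }

noncomputable instance : MonoidalClosed (EF J) where
  closed X := { rightAdj := iHomFunctor X, adj := tensorIHomAdj X }

end EF

end Vale.Agent.P257.D
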