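import Vale.Agent.P257.D.FMon
import Vale.Agent.P251.H.RotLC

/-!
# P257, design D: index categories with a circle

`SphIdx J`: the endomorphisms of the unit form `S⁰`; there is an object `gen` with a map
`σ : S¹ ⟶ Hom (𝟙, gen)` inducing isomorphisms `S¹ ⊗ Hom (𝟙, b) ≅ Hom (𝟙, gen ⊗ b)`, and a
rotation homotopy.  Under this hypothesis `EF J` satisfies `StabInput` (file `Base`).
-/

open CategoryTheory MonoidalCategory Topology OnePoint

namespace Vale.Agent.P257.D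

open Vale.Agent.P251.H (CH PQ flipRR)
open Vale.Agent.P251.G (LC)
open Vale.Agent.P251.G.LC (smash RR II)

namespace EF

variable {J : Type} [Idx J]

variable (J) in
/-- the map `S⁰ ⟶ Hom (𝟙, 𝟙)` -/
noncomputable def epsPQ : 𝟙_ PQ ⟶ (sphere J).obj (𝟙_ J) :=
  ⟨fun u : OnePoint Unit => PQ.unitFun u (pr (𝟙 (𝟙_ J))), rfl, fun K _ hu =>
    PQ.plot_ite ((sphere J).obj (𝟙_ J)) hu (((sphere J).obj (𝟙_ J)).plot_const K _)⟩

theorem app_epsPQ_kpu : PQ.app (epsPQ J) P251.H.PQ.kpu = pr (𝟙 (𝟙_ J)) := rfl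

/-- the map `A ⊗ Hom (𝟙, b) ⟶ Hom (𝟙, g ⊗ b)` induced by `σ : A ⟶ Hom (𝟙, g)` -/
noncomputable def sigMul {A : PQ} {g : J} (σ : A ⟶ (sphere J).obj g) (b : J) :
    A ⊗ (sphere J).obj b ⟶ (sphere J).obj (g ⊗ b) :=
  σ ▷ (sphere J).obj b ≫ smpPQ g b

theorem app_sigMul {A : PQ} {g : J} (σ : A ⟶ (sphere J).obj g) {b : J} (r : OnePoint A)
    (t : 𝟙_ J ⟶ b) :
    PQ.app (sigMul σ b) (smash r (pr t)) = pr (smp (unpr (PQ.app σ r)) t) := by
  rw [sigMul, PQ.app_comp, PQ.app_whiskerRight_smash, ← app_smpPQ, pr_unpr]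

end EF

open EF

/-- Index categories with a circle. -/
class SphIdx (J : Type) [Idx J] where
  /-- the one-dimensional object -/
  gen : J
  isIso_eps : IsIso (epsPQ J)
  /-- the points of the circle -/
  σ : PQ.LCPQ.obj RR ⟶ (sphere J).obj gen
  isIso_sigMul : ∀ b : J, IsIso (sigMul σ b)
  /-- the rotation -/
  rot : PQ.LCPQ.obj (RR ⊗ II) ⟶ (rep gen).obj (gen ⊗ gen)
  rot_zero : ∀ w : OnePoint ℝ,
    PQ.app rot (smash w ((0 : unitInterval) : OnePoint unitInterval)) =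
      pr ((λ_ gen).inv ≫ unpr (PQ.app σ w) ▷ gen)
  rot_one : ∀ w : OnePoint ℝ,
    PQ.app rot (smash w ((1 : unitInterval) : OnePoint unitInterval)) =
      pr ((ρ_ gen).inv ≫ gen ◁ unpr (PQ.app σ (LC.app flipRR w)))

attribute [instance] SphIdx.isIso_eps SphIdx.isIso_sigMul

namespace SphIdx

variable {J : Type} [Idx J] [SphIdx J]

/-- the point of the circle, as a morphism `𝟙 ⟶ gen` -/
noncomputable def pt (r : OnePoint ℝ) : 𝟙_ J ⟶ gen := unpr (PQ.app σ r)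

@[simp] theorem pt_infty : (pt ∞ : 𝟙_ J ⟶ gen) = 0 := by
  rw [pt]
  exact (congrArg unpr (PQ.app_infty σ)).trans unpr_infty

theorem pt_plot {K : CH} {r : K → OnePoint ℝ} (hr : Continuous r) :
    Idx.plot K (fun k => (pt (r k) : 𝟙_ J ⟶ gen)) :=
  unpr_plot (PQ.app_plot σ (K := K) (a := r) hr)

end SphIdx

end Vale.Agent.P257.D
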