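 
import Vale.Agent.P257.D.Sph

/-!
# P257, design D (port of P251.H): the functor `F : PQ ⥤ EF J` is fully faithful
-/

open CategoryTheory MonoidalCategory Topology OnePoint

namespace Vale.Agent.P257.D

open Vale.Agent.P251.H (CH PQ NonBase toQ ofQ toQ_infty toQ_coe ofQ_base toQ_ofQ ofQ_toQ
  ofQ_surjective ofQ_injective ofQ_eq_infty)

open Vale.Agent.P251.G (LC)
open Vale.Agent.P251.G.LC (smash)

namespace EF

variable {J : Type} [Idx J] [SphIdx J]

/-- the inverse of `Funit A` -/
noncomputable def Fcounit (A : PQ) : ((F J).obj A).obj (𝟙_ J) ⟶ A :=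
  A ◁ inv (epsPQ J) ≫ (ρ_ A).hom

theorem app_inv_epsPQ : PQ.app (inv (epsPQ J)) (pr (𝟙 (𝟙_ J))) = P251.H.PQ.kpu := by
  rw [← app_epsPQ_kpu, ← PQ.app_comp, IsIso.hom_inv_id, PQ.app_id]

@[simp] theorem app_Fcounit (A : PQ) (k : OnePoint A) :
    PQ.app (Fcounit (J := J) A) (fm k (𝟙 _)) = k := by
  refine (congrArg (PQ.app (ρ_ A).hom)
    (PQ.app_whiskerLeft_smash A (inv (epsPQ J)) k (pr (𝟙 (𝟙_ J))))).trans ?_
  rw [app_inv_epsPQ]
  exact PQ.app_rightUnitor_smash A k

theorem unit_cases (x : 𝟙_ J ⟶ 𝟙_ J) : x = 0 ∨ x = 𝟙 _ := by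
  have h : PQ.app (epsPQ J) (PQ.app (inv (epsPQ J)) (pr x)) = pr x := by
    rw [← PQ.app_comp, IsIso.inv_hom_id, PQ.app_id]
  generalize PQ.app (inv (epsPQ J)) (pr x) = u at h
  induction u using OnePoint.rec with
  | infty =>
    left
    apply pr_injective
    rw [← h, pr_zero]
    exact PQ.app_infty _
  | coe u =>
    right
    apply pr_injective
    exact h.symm

/-- The unit of the free-evaluation adjunction is invertible. -/
noncomputable def FunitIso (A : PQ) : A ≅ ((F J).obj A).obj (𝟙_ J) where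
  hom := Funit A
  inv := Fcounit A
  hom_inv_id := PQ.hom_ext' (fun k => app_Fcounit A k)
  inv_hom_id := PQ.hom_ext' (fun z => by
    obtain ⟨k, x, rfl⟩ := fm_surjective z
    rcases unit_cases x with rfl | rfl
    · rw [fm_zero, PQ.app_infty, PQ.app_infty]
    · exact congrArg (PQ.app (Funit A)) (app_Fcounit A k))

variable (J) in
/-- `F` is fully faithful. -/
noncomputable def fullyFaithfulF : (F J).FullyFaithful where
  preimage {A B} f := Funit A ≫ Hom.app f (𝟙_ J) ≫ Fcounit B
  map_preimage {A B} f := by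
    apply F_hom_ext
    intro k
    rw [fn_F_map, ← app_Funit, ← PQ.app_comp]
    change PQ.app ((Funit A ≫ Hom.app f (𝟙_ J)) ≫ Fcounit B ≫ Funit B) k = _
    have h : Fcounit (J := J) B ≫ Funit B = 𝟙 _ := (FunitIso (J := J) B).inv_hom_id
    rw [h, Category.comp_id]
    rfl
  preimage_map {A B} f := by
    apply PQ.hom_ext'
    intro k
    change PQ.app (Fcounit B) (fn ((F J).map f) (fm k (𝟙 _))) = _
    rw [fn_F_map, app_Fcounit]

instance : (F J).Full := (fullyFaithfulF J).full

instance : (F J).Faithful := (fullyFaithfulF J).faithful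

end EF

end Vale.Agent.P257.D
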