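import Vale.Agent.P257.D.BaseRot
import Vale.Agent.P257.D.FFull
import Vale.Agent.P257.D.Push
import Vale.Agent.P257.D.Fin
import Vale.Agent.P257.D.Closed

/-!
# P257, design D: `EF J` satisfies `StabInput` for every index category with a circle
-/

open CategoryTheory MonoidalCategory Limits

namespace Vale.Agent.P257.D

open Vale.Agent.P251.H (StabInput)

namespace EF

variable {J : Type} [Idx J] [SphIdx J]

/-- **The input of the construction of the stable homotopy category**: continuous functors on
`J`, with `L` the functor represented by the one-dimensional object. -/
noncomputable instance : StabInput (EF J) where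
  j := jC J
  braided := inferInstance
  full := inferInstance
  faithful := inferInstance
  isZero_empty := isZero_F_empty
  pushout _ _ _ _ hi h := isPushout_F_LCPQ hi h
  L := rep SphIdx.gen
  lam := lamC J
  ev_bij X K := by
    simp only [jev_eq]
    exact evalC_bij K X
  rot := rotC J
  fin n K := finFactor_cell _ n K

end EF

end Vale.Agent.P257.D
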