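import Vale.Agent.P257.D.Sph
import Vale.Agent.P251.H.StabInput

/-!
# P257, design D (port of P251.H): the formal desuspension in continuous functors

`L = rep gen`, the structure map `lam : L ⊗ F S¹ ⟶ 𝟙`, and the isomorphism
`shIso K : F (ℝ ⊗ K) ≅ sh gen (F K)`.
-/

open CategoryTheory MonoidalCategory Topology OnePoint

namespace Vale.Agent.P257.D

open Vale.Agent.P251.H (CH PQ jev)
open Vale.Agent.P251.G (LC)
open Vale.Agent.P251.G.LC (smash smash_coe_coe smash_infty_left smash_infty_right RR II)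

namespace EF

variable {J : Type} [Idx J]

variable (J) in
/-- The functor from spaces to continuous functors. -/
noncomputable abbrev jC : LC ⥤ EF J := PQ.LCPQ ⋙ F J

section jm

variable {K K' : LC} {a b : J}

/-- the points of `jC.obj K` -/
noncomputable def jm (k : OnePoint K) (x : 𝟙_ J ⟶ a) : OnePoint (((jC J).obj K).obj a) :=
  fm (A := PQ.LCPQ.obj K) k x

@[simp] theorem jm_infty_left (x : 𝟙_ J ⟶ a) : jm (∞ : OnePoint K) x = ∞ :=
  fm_infty_left (A := PQ.LCPQ.obj K) _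

@[simp] theorem jm_zero (k : OnePoint K) : jm k (0 : 𝟙_ J ⟶ a) = ∞ :=
  fm_zero (A := PQ.LCPQ.obj K) _

theorem jm_surjective (z : OnePoint (((jC J).obj K).obj a)) :
    ∃ (k : OnePoint K) (x : 𝟙_ J ⟶ a), jm k x = z :=
  fm_surjective (A := PQ.LCPQ.obj K) z

theorem jC_act (w : a ⟶ b) (k : OnePoint K) (x : 𝟙_ J ⟶ a) :
    ((jC J).obj K).act w (jm k x) = jm k (x ≫ w) :=
  F_act (A := PQ.LCPQ.obj K) w k x

theorem fn_jC_map (f : K ⟶ K') (k : OnePoint K) (x : 𝟙_ J ⟶ a) :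
    fn ((jC J).map f) (jm k x) = jm (LC.app f k) x :=
  fn_F_map (PQ.LCPQ.map f) k x

theorem jm_plot {T : CH} {k : T → OnePoint K} {x : T → (𝟙_ J ⟶ a)} (hk : Continuous k)
    (hx : Idx.plot T x) : (((jC J).obj K).obj a).plot T (fun t => jm (k t) (x t)) :=
  fm_plot (A := PQ.LCPQ.obj K) hk hx

theorem jC_hom_ext {X : EF J} {f g : (jC J).obj K ⟶ X}
    (h : ∀ k : OnePoint K, fn f (jm k (𝟙 _)) = fn g (jm k (𝟙 _))) : f = g :=
  F_hom_ext h

theorem fn_δ_jC (k : OnePoint K) (l : OnePoint K') :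
    fn (Functor.OplaxMonoidal.δ (jC J) K K') (jm (K := K ⊗ K') (smash k l) (𝟙 (𝟙_ J))) =
      ((jC J).obj K ⊗ (jC J).obj K').act (λ_ (𝟙_ J)).hom (tm (jm k (𝟙 _)) (jm l (𝟙 _))) := by
  rw [Functor.OplaxMonoidal.comp_δ, fn_comp]
  refine (congrArg (fn _) (fn_F_map _ _ _)).trans ?_
  exact fn_muInv_id (A := PQ.LCPQ.obj K) (B := PQ.LCPQ.obj K') k l

theorem fn_μ_jC (k : OnePoint K) (l : OnePoint K') (x : 𝟙_ J ⟶ a) (y : 𝟙_ J ⟶ b) :
    fn (Functor.LaxMonoidal.μ (jC J) K K') (tm (jm k x) (jm l y)) =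
      jm (K := K ⊗ K') (smash k l) (smp x y) := by
  rw [Functor.LaxMonoidal.comp_μ, fn_comp]
  refine (congrArg (fn _) (fn_muHom (A := PQ.LCPQ.obj K) (B := PQ.LCPQ.obj K') k l x y)).trans ?_
  exact fn_F_map _ _ _

theorem fn_ε_jC (x : 𝟙_ J ⟶ a) :
    fn (Functor.LaxMonoidal.ε (jC J)) (pr x) =
      jm (K := 𝟙_ LC) ((() : Unit) : OnePoint Unit) x := by
  rw [Functor.LaxMonoidal.comp_ε, fn_comp]
  refine (congrArg (fn _) (fn_epsIso_hom x)).trans ?_
  exact fn_F_map _ _ _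

end jm

variable [SphIdx J]

open SphIdx (gen σ pt)

variable (J) in
/-- the transpose of the structure map -/
noncomputable def sigHom : (jC J).obj RR ⟶ (sh gen).obj (sphere J) :=
  Fyo (X := (sh gen).obj (sphere J)) (σ ≫ (sphere J).map (ρ_ gen).inv)

theorem fn_sigHom {b : J} (r : OnePoint RR) (t : 𝟙_ J ⟶ b) :
    unshi (fn (sigHom J) (jm r t)) = pr (smp (pt r) t) := by
  refine (congrArg unshi (fn_Fyo (A := PQ.LCPQ.obj RR) _ r t)).trans ?_
  rw [unshi_act]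
  change (sphere J).act (gen ◁ t) ((sphere J).act (ρ_ gen).inv (PQ.app σ r)) = _
  rw [← pr_unpr (PQ.app σ r), rep_act, rep_act, smp_eq_right, Category.assoc]
  rfl

variable (J) in
/-- The structure map `L ⊗ S¹ ⟶ 𝟙`. -/
noncomputable def lamC : rep gen ⊗ (jC J).obj RR ⟶ 𝟙_ (EF J) := repDesc (sigHom J)

theorem lamC_tm {a b : J} (f : gen ⟶ a) (r : OnePoint RR) (t : 𝟙_ J ⟶ b) :
    fn (lamC J) (tm (pr f) (jm r t)) = pr (smp (pt r ≫ f) t) := by
  refine (fn_repDesc (sigHom J) f (jm r t)).trans ?_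
  rw [fn_sigHom, rep_act, smp_comp_whiskerRight]

/-! ### The shift of `F K` -/

section shift

variable (K : LC)

/-- `(F (ℝ ⊗ K)).obj b ≅ (F K).obj (gen ⊗ b)` -/
noncomputable def shPQ (b : J) :
    ((jC J).obj (RR ⊗ K)).obj b ≅ ((sh gen).obj ((jC J).obj K)).obj b :=
  whiskerRightIso ((PQ.μLC RR K).symm ≪≫ β_ _ _) ((sphere J).obj b) ≪≫ α_ _ _ _ ≪≫
    whiskerLeftIso (PQ.LCPQ.obj K) (asIso (sigMul σ b))

theorem app_shPQ_hom {b : J} (r : OnePoint RR) (k : OnePoint K) (t : 𝟙_ J ⟶ b) :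
    PQ.app (shPQ K b).hom (jm (K := RR ⊗ K) (smash r k) t) =
      shi (jm (K := K) k (smp (pt r) t)) := by
  change PQ.app (PQ.LCPQ.obj K ◁ sigMul σ b) (PQ.app (α_ _ _ _).hom
    (PQ.app (((PQ.μLC RR K).inv ≫ (β_ _ _).hom) ▷ (sphere J).obj b)
      (smash (smash r k) (pr t)))) = _
  erw [PQ.app_whiskerRight_smash, PQ.app_comp, PQ.app_μLC_inv, PQ.app_braiding_smash,
    PQ.app_associator_smash, PQ.app_whiskerLeft_smash, app_sigMul]
  rfl

/-- `F (ℝ ⊗ K) ≅ sh gen (F K)` -/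
noncomputable def shIso : (jC J).obj (RR ⊗ K) ≅ (sh gen).obj ((jC J).obj K) :=
  isoMk (shPQ K) (fun {b c} w => by
    apply PQ.hom_ext'
    intro z
    obtain ⟨rk, t, rfl⟩ := jm_surjective z
    obtain ⟨⟨r, k⟩, rfl⟩ := P251.H.Sp0.smash_surjective rk
    refine (congrArg (PQ.app (shPQ K c).hom) (jC_act w (smash r k) t)).trans ?_
    refine (app_shPQ_hom K r k _).trans ?_
    refine Eq.trans ?_
      (congrArg (((sh gen).obj ((jC J).obj K)).act w) (app_shPQ_hom K r k t).symm)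
    rw [act_shi, jC_act, smp_comp_whiskerLeft])

theorem fn_shIso_hom {b : J} (r : OnePoint RR) (k : OnePoint K) (t : 𝟙_ J ⟶ b) :
    fn (shIso K).hom (jm (K := RR ⊗ K) (smash r k) t) = shi (jm (K := K) k (smp (pt r) t)) :=
  app_shPQ_hom K r k t

end shift

/-! ### The evaluation -/

section ev

variable (K : LC)

variable (J) in
/-- evaluation `L ⊗ F (ℝ ⊗ K) ⟶ F K` -/
noncomputable def evalC : rep gen ⊗ (jC J).obj (RR ⊗ K) ⟶ (jC J).obj K :=
  repDesc (shIso K).hom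

theorem evalC_tm_jm {a b : J} (f : gen ⟶ a) (r : OnePoint RR) (k : OnePoint K)
    (t : 𝟙_ J ⟶ b) :
    fn (evalC J K) (tm (pr f) (jm (K := RR ⊗ K) (smash r k) t)) =
      jm k (smp (pt r ≫ f) t) := by
  refine (fn_repDesc (shIso K).hom f _).trans ?_
  rw [fn_shIso_hom, unshi_shi, jC_act, smp_comp_whiskerRight]

theorem evalC_bij (X : EF J) :
    Function.Bijective (fun x : X ⟶ (jC J).obj (RR ⊗ K) => rep gen ◁ x ≫ evalC J K) := by
  have h : (fun x : X ⟶ (jC J).obj (RR ⊗ K) => rep gen ◁ x ≫ evalC J K) =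
      (repEquiv gen X _).symm ∘ (fun x => x ≫ (shIso K).hom) := by
    funext x
    apply rep_tensor_ext
    intro c y
    rw [fn_comp, whiskerLeft_tm]
    exact (fn_repDesc_id _ _).trans (fn_repDesc_id (x ≫ (shIso K).hom) y).symm
  rw [h]
  exact (repEquiv gen X _).symm.bijective.comp (Iso.homToEquiv (shIso K)).bijective

theorem jev_eq : jev (jC J) (rep gen) (lamC J) K = evalC J K := by
  apply FF_ext_right
  intro z a x
  obtain ⟨f, rfl⟩ := pr_surjective x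
  obtain ⟨⟨r, k⟩, rfl⟩ := P251.H.Sp0.smash_surjective (X := RR) (Y := K) z
  refine Eq.trans ?_ (evalC_tm_jm K f r k (𝟙 _)).symm
  simp only [jev, fn_comp]
  rw [whiskerLeft_tm]
  refine (congrArg (fun z => fn (λ_ ((jC J).obj K)).hom (fn (lamC J ▷ (jC J).obj K)
    (fn (α_ (rep gen) ((jC J).obj RR) ((jC J).obj K)).inv (tm (pr f) z))))
      (fn_δ_jC r k)).trans ?_
  rw [← act_tm_right, fn_act, fn_act, fn_act, associator_inv_tm, fn_act, fn_act,
    whiskerRight_tm, lamC_tm, leftUnitor_tm, jC_act, jC_act, jC_act]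
  congr 1
  erw [unpr_pr]
  rw [Category.id_comp]
  generalize pt r ≫ f = x
  rw [smp_id_right, unitors_inv_equal, ← rightUnitor_inv_naturality]
  simp only [Category.assoc]
  congr 1
  monoidal

end ev

end EF

end Vale.Agent.P257.D
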