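import Vale.Agent.P257.D.BaseL
import Vale.Agent.P251.H.RotAbs

/-!
# P257, design D (port of P251.H): the rotation homotopy in continuous functors
-/

open CategoryTheory MonoidalCategory Topology OnePoint

namespace Vale.Agent.P257.D

open Vale.Agent.P251.H (CH PQ JHomotopic contr₁ contr₂ rot_of flipRR)
open Vale.Agent.P251.G (LC)
open Vale.Agent.P251.G.LC (smash smash_coe_coe smash_infty_left smash_infty_right RR II incl
  app_incl)

namespace EF

variable {J : Type} [Idx J]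

/-- Maps out of `(rep a ⊗ rep b) ⊗ F A` are determined by the values on the generators. -/
theorem RRF_ext {a b : J} {A : PQ} {Z : EF J} {f g : (rep a ⊗ rep b) ⊗ (F J).obj A ⟶ Z}
    (h : ∀ k : OnePoint A, fn f (tm (tm (pr (𝟙 a)) (pr (𝟙 b))) (fm k (𝟙 _))) =
      fn g (tm (tm (pr (𝟙 a)) (pr (𝟙 b))) (fm k (𝟙 _)))) : f = g := by
  apply tensor_ext₃
  intro a' b' c x y z
  obtain ⟨u, rfl⟩ := pr_surjective x
  obtain ⟨v, rfl⟩ := pr_surjective y
  obtain ⟨k, t, rfl⟩ := fm_surjective z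
  have h1 : tm (tm (pr u) (pr v)) (fm k t) = ((rep a ⊗ rep b) ⊗ (F J).obj A).act
      ((u ⊗ₘ v) ⊗ₘ t) (tm (tm (pr (𝟙 a)) (pr (𝟙 b))) (fm k (𝟙 _))) := by
    rw [act_tm, act_tm, rep_act, rep_act, Category.id_comp, Category.id_comp, ← fm_eq_act]
  rw [h1, fn_act, fn_act, h]

theorem fn_repF_hom_id {a : J} {A : PQ} (k : OnePoint A) :
    fn (repF a A).hom (tm (pr (𝟙 a)) (fm k (𝟙 _))) = sm k (pr (ρ_ a).inv) := by
  simp only [repF, Iso.trans_hom, fn_comp]
  rw [braiding_tm, fn_act, fn_FTensor_hom, smul_act, rep_act, rep_act, Category.id_comp,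
    id_whiskerRight, Category.comp_id, leftUnitor_inv_braiding]

/-- The map out of `(rep a ⊗ rep b) ⊗ F A` given by a family of points. -/
noncomputable def famG {a b : J} {A : PQ} {Z : EF J} (γ : A ⟶ Z.obj (a ⊗ b)) :
    (rep a ⊗ rep b) ⊗ (F J).obj A ⟶ Z :=
  (repTensor a b).hom ▷ _ ≫ (repF (a ⊗ b) A).hom ≫ smulYo γ

theorem fn_famG {a b : J} {A : PQ} {Z : EF J} (γ : A ⟶ Z.obj (a ⊗ b)) (k : OnePoint A) :
    fn (famG γ) (tm (tm (pr (𝟙 a)) (pr (𝟙 b))) (fm k (𝟙 _))) =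
      Z.act (ρ_ (a ⊗ b)).inv (PQ.app γ k) := by
  simp only [famG, fn_comp]
  rw [whiskerRight_tm, fn_repTensor_hom, id_tensorHom_id, fn_repF_hom_id, fn_smulYo]

theorem app_incl_some (t : unitInterval) (w : OnePoint RR) :
    LC.app (LC.incl t RR) w = smash w (t : OnePoint unitInterval) := by
  induction w using OnePoint.rec with
  | infty => rw [LC.app_infty]; exact (smash_infty_left _).symm
  | coe w => rw [app_incl]

variable [SphIdx J]

open SphIdx (gen σ pt rot)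

variable (J) in
/-- The family `G` of the rotation homotopy. -/
noncomputable def rotG : (rep gen ⊗ rep gen) ⊗ (jC J).obj (RR ⊗ II) ⟶ rep gen :=
  famG rot

theorem fn_rotG (z : OnePoint (RR ⊗ II : LC)) :
    fn (rotG J) (tm (tm (pr (𝟙 gen)) (pr (𝟙 gen))) (jm (K := RR ⊗ II) z (𝟙 _))) =
      (rep gen).act (ρ_ (gen ⊗ gen)).inv (PQ.app rot z) :=
  fn_famG rot z

theorem fn_contr₁ (w : OnePoint RR) :
    fn (contr₁ (rep gen) (lamC J)) (tm (tm (pr (𝟙 gen)) (pr (𝟙 gen))) (jm w (𝟙 _))) =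
      pr (((λ_ gen).inv ≫ pt w ▷ gen) ≫ (ρ_ (gen ⊗ gen)).inv) := by
  simp only [contr₁, fn_comp]
  rw [associator_tm, fn_act, fn_act, fn_act, fn_act, whiskerLeft_tm, braiding_tm, ← act_tm_right,
    fn_act, fn_act, fn_act, associator_inv_tm, fn_act, fn_act, whiskerRight_tm, lamC_tm,
    leftUnitor_tm]
  rw [rep_act, rep_act, rep_act, rep_act, Category.id_comp]
  congr 1
  erw [unpr_pr]
  rw [Category.comp_id, smp_id_right, comp_whiskerRight]
  simp only [Category.assoc]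
  congr 2
  rw [braiding_tensorUnit_left]
  monoidal

theorem fn_contr₂ (w : OnePoint RR) :
    fn (contr₂ (rep gen) (lamC J)) (tm (tm (pr (𝟙 gen)) (pr (𝟙 gen))) (jm w (𝟙 _))) =
      pr (((ρ_ gen).inv ≫ gen ◁ pt w) ≫ (ρ_ (gen ⊗ gen)).inv) := by
  simp only [contr₂, fn_comp]
  rw [associator_tm, fn_act, fn_act, whiskerLeft_tm, lamC_tm, rightUnitor_tm, rep_act, rep_act,
    Category.id_comp]
  congr 1
  erw [unpr_pr]
  rw [Category.comp_id, smp_id_right, MonoidalCategory.whiskerLeft_comp]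
  simp only [Category.assoc]
  congr 2
  monoidal

theorem fn_rotG_incl (t : unitInterval) (w : OnePoint RR) :
    fn ((rep gen ⊗ rep gen) ◁ (jC J).map (LC.incl t RR) ≫ rotG J)
      (tm (tm (pr (𝟙 gen)) (pr (𝟙 gen))) (jm w (𝟙 _))) =
      (rep gen).act (ρ_ (gen ⊗ gen)).inv
        (PQ.app rot (smash w (t : OnePoint unitInterval))) := by
  rw [fn_comp, whiskerLeft_tm]
  refine Eq.trans ?_ (fn_rotG _)
  have h : fn ((jC J).map (LC.incl t RR)) (jm w (a := 𝟙_ J) (𝟙 _)) =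
    jm (K := RR ⊗ II) (smash w (t : OnePoint unitInterval)) (𝟙 _) :=
    (fn_jC_map (LC.incl t RR) w (𝟙 _)).trans (congrArg (fun z => jm (K := RR ⊗ II) z (𝟙 _))
      (app_incl_some t w))
  exact congrArg (fun z => fn (rotG J) (tm (tm (pr (𝟙 gen)) (pr (𝟙 gen))) z)) h

theorem rotG_zero : (rep gen ⊗ rep gen) ◁ (jC J).map (LC.incl 0 RR) ≫ rotG J =
    contr₁ (rep gen) (lamC J) := by
  apply RRF_ext
  intro w
  refine (fn_rotG_incl 0 w).trans (Eq.trans ?_ (fn_contr₁ w).symm)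
  erw [SphIdx.rot_zero w]
  rw [rep_act]
  rfl

theorem rotG_one : (rep gen ⊗ rep gen) ◁ (jC J).map (LC.incl 1 RR) ≫ rotG J =
    (rep gen ⊗ rep gen) ◁ (jC J).map flipRR ≫ contr₂ (rep gen) (lamC J) := by
  apply RRF_ext
  intro w
  refine (fn_rotG_incl 1 w).trans ?_
  rw [fn_comp, whiskerLeft_tm]
  refine Eq.trans ?_ (congrArg (fun z => fn (contr₂ (rep gen) (lamC J))
    (tm (tm (pr (𝟙 gen)) (pr (𝟙 gen))) z)) (fn_jC_map flipRR w (𝟙 _))).symm
  erw [SphIdx.rot_one w]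
  rw [fn_contr₂, rep_act]
  rfl

variable (J) in
/-- **The rotation homotopy.** -/
theorem rotC : JHomotopic (jC J)
    (lamC J ▷ (rep gen ⊗ (jC J).obj RR) ≫ (λ_ (rep gen ⊗ (jC J).obj RR)).hom)
    ((rep gen ⊗ (jC J).obj RR) ◁ lamC J ≫ (ρ_ (rep gen ⊗ (jC J).obj RR)).hom) :=
  rot_of (jC J) (rep gen) (lamC J) (rotG J) rotG_zero rotG_one

end EF

end Vale.Agent.P257.D
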