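import Vale.Agent.P257.D.Sub
import Vale.Agent.P257.T.Pow

/-!
# P257, design D: points of unordered tensor products

`EF.btm x` is the point `⊗ᵢ xᵢ` of `(big X) (big a)`.  `Cmp f u x y` says that `f` sends `x` to
the point which `u` carries to `y`; all structure isomorphisms of `big` are compatible in this
sense.
-/

open CategoryTheory MonoidalCategory Topology OnePoint Limits

namespace Vale.Agent.P257.D

open Vale.Agent.P251.H (CH PQ)
open Vale.Agent.P257.A
open Vale.Agent.P257.T (unL bigUnit)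

namespace EF

variable {J : Type} [Idx J]

section cmp

variable {X Y Z X' Y' Z' : EF J} {a b c a' b' c' : J}

/-- `u` carries `f x` to `y` -/
def Cmp (f : X ⟶ Y) (u : a ⟶ b) (x : OnePoint (X.obj a)) (y : OnePoint (Y.obj b)) : Prop :=
  Y.act u (fn f x) = y

namespace Cmp

theorem id (x : OnePoint (X.obj a)) : Cmp (𝟙 X) (𝟙 a) x x := X.act_id x

theorem comp {f : X ⟶ Y} {g : Y ⟶ Z} {u : a ⟶ b} {v : b ⟶ c} {x : OnePoint (X.obj a)}
    {y : OnePoint (Y.obj b)} {z : OnePoint (Z.obj c)} (h : Cmp f u x y) (h' : Cmp g v y z) :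
    Cmp (f ≫ g) (u ≫ v) x z := by
  unfold Cmp at *
  rw [fn_comp, act_comp, ← fn_act, h, h']

theorem tensor {f : X ⟶ X'} {g : Y ⟶ Y'} {u : a ⟶ a'} {v : b ⟶ b'} {x : OnePoint (X.obj a)}
    {y : OnePoint (Y.obj b)} {x' : OnePoint (X'.obj a')} {y' : OnePoint (Y'.obj b')}
    (h : Cmp f u x x') (h' : Cmp g v y y') : Cmp (f ⊗ₘ g) (u ⊗ₘ v) (tm x y) (tm x' y') := by
  unfold Cmp at *
  rw [tensorHom_tm, act_tm, h, h']

theorem whiskerLeft (x : OnePoint (X.obj a)) {g : Y ⟶ Y'} {v : b ⟶ b'} {y : OnePoint (Y.obj b)}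
    {y' : OnePoint (Y'.obj b')} (h : Cmp g v y y') : Cmp (X ◁ g) (a ◁ v) (tm x y) (tm x y') := by
  rw [← id_tensorHom, ← id_tensorHom]; exact (id x).tensor h

theorem whiskerRight {f : X ⟶ X'} {u : a ⟶ a'} {x : OnePoint (X.obj a)}
    {x' : OnePoint (X'.obj a')} (h : Cmp f u x x') (y : OnePoint (Y.obj b)) :
    Cmp (f ▷ Y) (u ▷ b) (tm x y) (tm x' y) := by
  rw [← tensorHom_id, ← tensorHom_id]; exact h.tensor (id y)

theorem symm {f : X ≅ Y} {u : a ≅ b} {x : OnePoint (X.obj a)} {y : OnePoint (Y.obj b)}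
    (h : Cmp f.hom u.hom x y) : Cmp f.inv u.inv y x := by
  unfold Cmp at *
  rw [← h, fn_act, act_hom_inv, ← fn_comp, f.hom_inv_id, fn_id]

theorem fn_eq {f : X ⟶ Y} {u : a ≅ b} {x : OnePoint (X.obj a)} {y : OnePoint (Y.obj b)}
    (h : Cmp f u.hom x y) : fn f x = Y.act u.inv y := by
  rw [← show _ = y from h, act_hom_inv]

theorem assoc (x : OnePoint (X.obj a)) (y : OnePoint (Y.obj b)) (z : OnePoint (Z.obj c)) :
    Cmp (α_ X Y Z).hom (α_ a b c).hom (tm (tm x y) z) (tm x (tm y z)) := by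
  unfold Cmp
  rw [associator_tm, act_inv_hom]

theorem assoc_inv (x : OnePoint (X.obj a)) (y : OnePoint (Y.obj b)) (z : OnePoint (Z.obj c)) :
    Cmp (α_ X Y Z).inv (α_ a b c).inv (tm x (tm y z)) (tm (tm x y) z) := (assoc x y z).symm

theorem braid (x : OnePoint (X.obj a)) (y : OnePoint (Y.obj b)) :
    Cmp (β_ X Y).hom (β_ a b).hom (tm x y) (tm y x) := by
  unfold Cmp
  rw [braiding_tm, ← act_comp, SymmetricCategory.symmetry, act_id]

theorem lunit (x : OnePoint (X.obj a)) :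
    Cmp (λ_ X).hom (λ_ a).hom (tm (X := 𝟙_ (EF J)) onePt x) x := by
  unfold Cmp
  rw [leftUnitor_tm]
  erw [unpr_pr]
  rw [id_whiskerRight, Category.comp_id, act_inv_hom]

theorem runit (x : OnePoint (X.obj a)) :
    Cmp (ρ_ X).hom (ρ_ a).hom (tm (Y := 𝟙_ (EF J)) x onePt) x := by
  unfold Cmp
  rw [rightUnitor_tm]
  erw [unpr_pr]
  rw [MonoidalCategory.whiskerLeft_id, Category.comp_id, act_inv_hom]

theorem sw (x : OnePoint (X.obj a)) (y : OnePoint (Y.obj b)) (z : OnePoint (Z.obj c)) :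
    Cmp (sw X Y Z).hom (sw a b c).hom (tm x (tm y z)) (tm y (tm x z)) :=
  (assoc_inv x y z).comp (((braid x y).whiskerRight z).comp (assoc y x z))

theorem tensorμ {W : EF J} {d : J} (x : OnePoint (X.obj a)) (y : OnePoint (Y.obj b))
    (z : OnePoint (Z.obj c)) (w : OnePoint (W.obj d)) :
    Cmp (tensorμ X Y Z W) (tensorμ a b c d) (tm (tm x y) (tm z w)) (tm (tm x z) (tm y w)) :=
  (assoc x y (tm z w)).comp ((whiskerLeft x (assoc_inv y z w)).comp
    ((whiskerLeft x ((braid y z).whiskerRight w)).comp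
      ((whiskerLeft x (assoc z y w)).comp (assoc_inv x z (tm y w)))))

end Cmp

end cmp

variable {ι κ : Type}

section lists

variable {X Y : ι → EF J} {a b : ι → J}

/-- the tensor product of points along a list -/
noncomputable def tmL (x : ∀ i, OnePoint ((X i).obj (a i))) :
    ∀ l : List ι, OnePoint ((evL X l).obj (evL a l))
  | [] => onePt
  | i :: l => tm (x i) (tmL x l)

theorem cmp_mapL {f : ∀ i, X i ⟶ Y i} {u : ∀ i, a i ⟶ b i} {x : ∀ i, OnePoint ((X i).obj (a i))}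
    {y : ∀ i, OnePoint ((Y i).obj (b i))} (h : ∀ i, Cmp (f i) (u i) (x i) (y i)) :
    ∀ l : List ι, Cmp (mapL f l) (mapL u l) (tmL x l) (tmL y l)
  | [] => Cmp.id _
  | i :: l => (h i).tensor (cmp_mapL h l)

theorem cmp_rem (x : ∀ i, OnePoint ((X i).obj (a i))) {i : ι} :
    ∀ {l l' : List ι} (r : Rem i l l'),
      Cmp (r.iso X).hom (r.iso a).hom (tmL x l) (tm (x i) (tmL x l'))
  | _, _, Rem.here _ => Cmp.id _
  | _, _, Rem.there j r => (Cmp.whiskerLeft (x j) (cmp_rem x r)).comp (Cmp.sw _ _ _)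

theorem cmp_pm (x : ∀ i, OnePoint ((X i).obj (a i))) :
    ∀ {l m : List ι} (P : Pm l m), Cmp (P.iso X).hom (P.iso a).hom (tmL x l) (tmL x m)
  | _, _, Pm.nil => Cmp.id _
  | _, _, Pm.cons (i := i) r P => (cmp_rem x r).comp (Cmp.whiskerLeft (x i) (cmp_pm x P))

theorem cmp_relL {X : κ → EF J} {a : κ → J} (x : ∀ k, OnePoint ((X k).obj (a k))) (e : ι → κ) :
    ∀ l : List ι, Cmp (relL X e l).hom (relL a e l).hom
      (tmL (X := fun i => X (e i)) (a := fun i => a (e i)) (fun i => x (e i)) l) (tmL x (l.map e))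
  | [] => Cmp.id _
  | i :: l => Cmp.whiskerLeft (x (e i)) (cmp_relL x e l)

theorem cmp_appL (x : ∀ i, OnePoint ((X i).obj (a i))) (m : List ι) :
    ∀ l : List ι, Cmp (appL X m l).hom (appL a m l).hom (tmL x (l ++ m)) (tm (tmL x l) (tmL x m))
  | [] => Cmp.symm (f := λ_ _) (u := λ_ _) (Cmp.lunit _)
  | i :: l => (Cmp.whiskerLeft (x i) (cmp_appL x m l)).comp (Cmp.assoc_inv _ _ _)

theorem cmp_tenL (x : ∀ i, OnePoint ((X i).obj (a i))) (y : ∀ i, OnePoint ((Y i).obj (b i))) :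
    ∀ l : List ι, Cmp (tenL X Y l).hom (tenL a b l).hom
      (tmL (X := fun i => X i ⊗ Y i) (a := fun i => a i ⊗ b i) (fun i => tm (x i) (y i)) l)
      (tm (tmL x l) (tmL y l))
  | [] => Cmp.symm (f := λ_ _) (u := λ_ _) (Cmp.lunit _)
  | i :: l => (Cmp.whiskerLeft (tm (x i) (y i)) (cmp_tenL x y l)).comp (Cmp.tensorμ _ _ _ _)

theorem cmp_unL : ∀ l : List ι, Cmp (unL (M := EF J) l).hom (unL (M := J) l).hom
      (tmL (X := fun _ => 𝟙_ (EF J)) (a := fun _ => 𝟙_ J) (fun _ => onePt) l) onePt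
  | [] => Cmp.id _
  | _ :: l => (Cmp.whiskerLeft (X := 𝟙_ (EF J)) onePt (cmp_unL l)).comp (Cmp.lunit _)

theorem tmL_plot {K : CH} {x : K → ∀ i, OnePoint ((X i).obj (a i))}
    (hx : ∀ i, ((X i).obj (a i)).plot K (fun k => x k i)) :
    ∀ l : List ι, ((evL X l).obj (evL a l)).plot K (fun k => tmL (x k) l)
  | [] => PQ.plot_const _ K _
  | i :: l => tm_plot (hx i) (tmL_plot hx l)

theorem tmL_infty {x : ∀ i, OnePoint ((X i).obj (a i))} {i : ι} (hi : x i = ∞) :
    ∀ {l : List ι}, i ∈ l → tmL x l = ∞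
  | j :: l, h => by
    rcases List.mem_cons.mp h with rfl | h
    · exact (congrArg (fun t => tm t (tmL x l)) hi).trans (tm_infty_left _)
    · exact (congrArg (tm (x j)) (tmL_infty hi h)).trans (tm_infty_right _)

theorem tmL_congr {x y : ∀ i, OnePoint ((X i).obj (a i))} :
    ∀ {l : List ι}, (∀ i ∈ l, x i = y i) → tmL x l = tmL y l
  | [], _ => rfl
  | i :: l, h => by
    change tm (x i) (tmL x l) = tm (y i) (tmL y l)
    rw [h i List.mem_cons_self, tmL_congr fun j hj => h j (List.mem_cons_of_mem _ hj)]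

end lists

theorem exists_tmL (X : ι → EF J) : ∀ {l : List ι} (_ : l.Nodup) {c : J}
    (z : OnePoint ((evL X l).obj c)), ∃ (s : ∀ i, Σ a : J, OnePoint ((X i).obj a))
      (w : evL (fun i => (s i).1) l ⟶ c), z = (evL X l).act w (tmL (fun i => (s i).2) l)
  | [], _, c, z => ⟨fun _ => ⟨𝟙_ J, ∞⟩, unpr z, (act_unpr_onePt z).symm⟩
  | i :: l, h, c, z => by
    classical
    obtain ⟨a, b, w, x, y, rfl⟩ := exists_tm (X := X i) (Y := evL X l) z
    obtain ⟨s, v, rfl⟩ := exists_tmL X (List.nodup_cons.mp h).2 y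
    have hi : i ∉ l := (List.nodup_cons.mp h).1
    have key : ∀ (l : List ι), i ∉ l → ∀ t : Σ a : J, OnePoint ((X i).obj a),
        ∃ e : evL (fun j => (Function.update s i t j).1) l ⟶ evL (fun j => (s j).1) l,
          (evL X l).act e (tmL (fun j => (Function.update s i t j).2) l) =
            tmL (fun j => (s j).2) l := by
      intro l
      induction l with
      | nil => exact fun _ _ => ⟨𝟙 _, act_id _ _⟩
      | cons j l ih =>
        intro hj t
        obtain ⟨e, he⟩ := ih (fun h => hj (List.mem_cons_of_mem _ h)) t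
        have hji : Function.update s i t j = s j :=
          Function.update_of_ne (fun h : j = i => hj (h ▸ List.mem_cons_self)) _ _
        have : ∃ e' : (Function.update s i t j).1 ⟶ (s j).1,
            (X j).act e' (Function.update s i t j).2 = (s j).2 := by
          rw [hji]; exact ⟨𝟙 _, act_id _ _⟩
        obtain ⟨e', he'⟩ := this
        refine ⟨e' ⊗ₘ e, (act_tm _ _ _ _).trans ?_⟩
        rw [he, he']; rfl
    obtain ⟨e, he⟩ := key l hi ⟨a, x⟩
    have : ∃ e' : (Function.update s i ⟨a, x⟩ i).1 ⟶ a,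
        (X i).act e' (Function.update s i ⟨a, x⟩ i).2 = x := by
      rw [Function.update_self]; exact ⟨𝟙 _, act_id _ _⟩
    obtain ⟨e', he'⟩ := this
    refine ⟨Function.update s i ⟨a, x⟩, (e' ⊗ₘ (e ≫ v)) ≫ w, ?_⟩
    refine Eq.trans ?_ (act_comp _ _ _ _).symm
    congr 1
    refine Eq.trans ?_ (act_tm _ _ _ _).symm
    rw [he', act_comp, he]

variable [Finite ι] [Finite κ]

section big

variable {X Y : ι → EF J} {a b : ι → J}

/-- the unordered tensor product of points -/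
noncomputable def btm (x : ∀ i, OnePoint ((X i).obj (a i))) : OnePoint ((big X).obj (big a)) :=
  tmL x (enum ι)

theorem btm_plot {K : CH} {x : K → ∀ i, OnePoint ((X i).obj (a i))}
    (hx : ∀ i, ((X i).obj (a i)).plot K (fun k => x k i)) :
    ((big X).obj (big a)).plot K (fun k => btm (x k)) := tmL_plot hx _

theorem btm_infty {x : ∀ i, OnePoint ((X i).obj (a i))} {i : ι} (hi : x i = ∞) : btm x = ∞ :=
  tmL_infty hi (mem_enum i)

theorem cmp_bigMap {f : ∀ i, X i ⟶ Y i} {u : ∀ i, a i ⟶ b i}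
    {x : ∀ i, OnePoint ((X i).obj (a i))} {y : ∀ i, OnePoint ((Y i).obj (b i))}
    (h : ∀ i, Cmp (f i) (u i) (x i) (y i)) : Cmp (bigMap f) (bigMap u) (btm x) (btm y) :=
  cmp_mapL h _

theorem fn_bigMap_btm (f : ∀ i, X i ⟶ Y i) (x : ∀ i, OnePoint ((X i).obj (a i))) :
    fn (bigMap f) (btm x) = btm (fun i => fn (f i) (x i)) := by
  have := cmp_bigMap (f := f) (u := fun i => 𝟙 (a i)) (x := x) (fun i => act_id _ _)
  rwa [bigMap_id, Cmp, act_id] at this

theorem act_bigMap_btm (u : ∀ i, a i ⟶ b i) (x : ∀ i, OnePoint ((X i).obj (a i))) :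
    (big X).act (bigMap u) (btm x) = btm (fun i => (X i).act (u i) (x i)) := by
  have := cmp_bigMap (f := fun i => 𝟙 (X i)) (u := u) (x := x) (fun i => rfl)
  rwa [bigMap_id, Cmp, fn_id] at this

theorem exists_btm {c : J} (z : OnePoint ((big X).obj c)) :
    ∃ (a : ι → J) (x : ∀ i, OnePoint ((X i).obj (a i))) (w : big a ⟶ c),
      z = (big X).act w (btm x) := by
  obtain ⟨s, w, h⟩ := exists_tmL X (nodup_enum ι) z
  exact ⟨_, _, w, h⟩

theorem big_ext {Z : EF J} {f g : big X ⟶ Z}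
    (h : ∀ (a : ι → J) (x : ∀ i, OnePoint ((X i).obj (a i))), fn f (btm x) = fn g (btm x)) :
    f = g := hom_ext fun c z => by
  obtain ⟨a, x, w, rfl⟩ := exists_btm z
  rw [fn_act, fn_act, h]

theorem cmp_bigEquiv {X : κ → EF J} {a : κ → J} (e : ι ≃ κ)
    (x : ∀ k, OnePoint ((X k).obj (a k))) :
    Cmp (bigEquiv e X).hom (bigEquiv e a).hom
      (btm (X := fun i => X (e i)) (a := fun i => a (e i)) (fun i => x (e i))) (btm x) :=
  (cmp_relL x e _).comp (cmp_pm x _)

theorem cmp_bigSum {X : ι ⊕ κ → EF J} {a : ι ⊕ κ → J} (x : ∀ k, OnePoint ((X k).obj (a k))) :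
    Cmp (bigSum X).hom (bigSum a).hom (btm x)
      (tm (btm (X := fun i => X (Sum.inl i)) (a := fun i => a (Sum.inl i)) fun i => x (Sum.inl i))
        (btm (X := fun i => X (Sum.inr i)) (a := fun i => a (Sum.inr i))
          fun i => x (Sum.inr i))) :=
  (cmp_pm x _).comp ((cmp_appL x _ _).comp
    ((cmp_relL x Sum.inl _).symm.tensor (cmp_relL x Sum.inr _).symm))

theorem cmp_bigEmpty [IsEmpty ι] (x : ∀ i, OnePoint ((X i).obj (a i))) :
    Cmp (bigEmpty X).hom (bigEmpty a).hom (btm x) onePt := cmp_pm x (pmEmpty ι)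

theorem cmp_bigUnique [Subsingleton ι] (x : ∀ i, OnePoint ((X i).obj (a i))) (i : ι) :
    Cmp (bigUnique X i).hom (bigUnique a i).hom (btm x) (x i) :=
  (cmp_pm x (pmUnique i)).comp (Cmp.runit (x i))

theorem cmp_bigOption {X : Option ι → EF J} {a : Option ι → J}
    (x : ∀ k, OnePoint ((X k).obj (a k))) :
    Cmp (bigOption X).hom (bigOption a).hom (btm x)
      (tm (x none) (btm (X := fun i => X (Option.some i)) (a := fun i => a (Option.some i))
        fun i => x (Option.some i))) :=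
  (cmp_pm x (pmOption ι)).comp (Cmp.whiskerLeft (x none) (cmp_relL x Option.some _).symm)

theorem cmp_bigTensor (x : ∀ i, OnePoint ((X i).obj (a i))) (y : ∀ i, OnePoint ((Y i).obj (b i))) :
    Cmp (bigTensor X Y).hom (bigTensor a b).hom
      (btm (X := fun i => X i ⊗ Y i) (a := fun i => a i ⊗ b i) (fun i => tm (x i) (y i)))
      (tm (btm x) (btm y)) := cmp_tenL x y _

theorem cmp_bigUnit : Cmp (bigUnit ι (EF J)).hom (bigUnit ι J).hom
    (btm (X := fun _ => 𝟙_ (EF J)) (a := fun _ => 𝟙_ J) (fun _ => onePt)) onePt := cmp_unL _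

end big

section repBig

theorem cmp_repTensor (a b : J) :
    Cmp (repTensor a b).hom (𝟙 _) (tm (pr (𝟙 a)) (pr (𝟙 b))) (pr (𝟙 (a ⊗ b))) := by
  unfold Cmp
  rw [fn_repTensor_hom, act_id, id_tensorHom_id]

/-- the tensor product of representables along a list -/
noncomputable def repL (a : ι → J) : ∀ l : List ι, evL (fun i => rep (a i)) l ≅ rep (evL a l)
  | [] => Iso.refl _
  | i :: l => whiskerLeftIso (rep (a i)) (repL a l) ≪≫ repTensor _ _

omit [Finite ι] in
theorem fn_repL {a b : ι → J} (u : ∀ i, a i ⟶ b i) : ∀ l : List ι,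
    fn (repL a l).hom (tmL (X := fun i => rep (a i)) (fun i => pr (u i)) l) = pr (mapL u l)
  | [] => rfl
  | i :: l => by
    change fn (repTensor _ _).hom (fn (rep (a i) ◁ (repL a l).hom) (tm (pr (u i)) _)) = _
    rw [whiskerLeft_tm, fn_repL u l, fn_repTensor_hom]
    rfl

/-- the unordered tensor product of representables -/
noncomputable def repBig (a : ι → J) : big (fun i => rep (a i)) ≅ rep (big a) := repL a _

theorem fn_repBig_hom {a b : ι → J} (u : ∀ i, a i ⟶ b i) :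
    fn (repBig a).hom (btm (X := fun i => rep (a i)) (fun i => pr (u i))) = pr (bigMap u) :=
  fn_repL u _

theorem fn_repBig_inv (a : ι → J) :
    fn (repBig a).inv (pr (𝟙 _)) = btm (X := fun i => rep (a i)) (fun i => pr (𝟙 (a i))) := by
  rw [← bigMap_id, ← fn_repBig_hom, ← fn_comp, Iso.hom_inv_id, fn_id]

theorem big_rep_ext {a : ι → J} {Z : EF J} {f g : big (fun i => rep (a i)) ⟶ Z}
    (h : fn f (btm (X := fun i => rep (a i)) (fun i => pr (𝟙 (a i)))) =
      fn g (btm (X := fun i => rep (a i)) (fun i => pr (𝟙 (a i))))) : f = g := by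
  rw [← cancel_epi (repBig a).inv]
  exact rep_hom_ext (by rw [fn_comp, fn_comp, fn_repBig_inv, h])

@[reassoc]
theorem bigMap_repBig {a b : ι → J} (u : ∀ i, a i ⟶ b i) :
    bigMap (fun i => repMap (u i)) ≫ (repBig a).hom = (repBig b).hom ≫ repMap (bigMap u) :=
  big_rep_ext (by
    rw [fn_comp, fn_comp, fn_bigMap_btm, fn_repBig_hom, fn_repMap_pr, ← bigMap_comp]
    simp only [fn_repMap_pr]
    exact fn_repBig_hom _)

@[reassoc]
theorem bigEquiv_repBig (e : ι ≃ κ) (a : κ → J) :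
    (bigEquiv e (fun k => rep (a k))).hom ≫ (repBig a).hom =
      (repBig (fun i => a (e i))).hom ≫ repMap (bigEquiv e a).inv :=
  big_rep_ext (by
    rw [fn_comp, fn_comp, fn_repBig_hom, fn_repMap_pr, bigMap_id, Category.comp_id]
    have := (cmp_bigEquiv (X := fun k => rep (a k)) e (fun k => pr (𝟙 (a k)))).fn_eq
    erw [this]
    rw [fn_act, fn_repBig_hom, bigMap_id, rep_act, Category.id_comp])

end repBig

end EF

end Vale.Agent.P257.D
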