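import Vale.Agent.P257.D.Idx

/-!
# P257, design D (port of P251.H): continuous functors on spheres

`EF J` is the category of continuous (that is, `PQ`-enriched) functors from the category of spheres
`J` to pointed quasi-topological spaces.  Continuity is a property of an ordinary functor.
This is the point-set model of spectra.
-/

open CategoryTheory MonoidalCategory Topology OnePoint

namespace Vale.Agent.P257.D

open Vale.Agent.P251.H (CH PQ NonBase toQ ofQ toQ_infty toQ_coe ofQ_base toQ_ofQ ofQ_toQ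
  ofQ_surjective ofQ_injective ofQ_eq_infty)

open Vale.Agent.P251.G (LC)
open Vale.Agent.P251.G.LC (smash smash_coe_coe smash_infty_left smash_infty_right)


/-- A continuous functor from the index category to pointed quasi-topological spaces. -/
structure EF (J : Type) [Idx J] where
  /-- the values -/
  obj : J → PQ
  /-- the action of morphisms -/
  map : ∀ {a b : J}, (a ⟶ b) → (obj a ⟶ obj b)
  map_id : ∀ a, map (𝟙 a) = 𝟙 (obj a)
  map_comp : ∀ {a b c : J} (f : a ⟶ b) (g : b ⟶ c), map (f ≫ g) = map f ≫ map g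
  map_zero : ∀ a b : J, map (0 : a ⟶ b) = 0
  map_plot : ∀ {a b : J} (K : CH) (w : K → (a ⟶ b)) (x : K → OnePoint (obj a)),
    Idx.plot K w → (obj a).plot K x → (obj b).plot K (fun k => PQ.app (map (w k)) (x k))

namespace EF

variable {J : Type} [Idx J]

/-- The action of a morphism of spheres on points. -/
def act (X : EF J) {a b : J} (w : a ⟶ b) (x : OnePoint (X.obj a)) : OnePoint (X.obj b) :=
  PQ.app (X.map w) x

section act

variable (X : EF J) {a b c : J}

theorem act_id (x : OnePoint (X.obj a)) : X.act (𝟙 a) x = x := by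
  rw [act, X.map_id]; rfl

theorem act_comp (f : a ⟶ b) (g : b ⟶ c) (x : OnePoint (X.obj a)) :
    X.act (f ≫ g) x = X.act g (X.act f x) := by
  rw [act, X.map_comp]; rfl

@[simp] theorem act_zero (x : OnePoint (X.obj a)) : X.act (0 : a ⟶ b) x = ∞ := by
  rw [act, X.map_zero]; rfl

@[simp] theorem act_infty (w : a ⟶ b) : X.act w ∞ = ∞ := PQ.app_infty _

theorem act_plot {K : CH} {w : K → (a ⟶ b)} {x : K → OnePoint (X.obj a)}
    (hw : Idx.plot K w) (hx : (X.obj a).plot K x) :
    (X.obj b).plot K (fun k => X.act (w k) (x k)) := X.map_plot K w x hw hx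

theorem act_plot' (w : a ⟶ b) {K : CH} {x : K → OnePoint (X.obj a)}
    (hx : (X.obj a).plot K x) : (X.obj b).plot K (fun k => X.act w (x k)) :=
  PQ.app_plot (X.map w) hx

theorem act_inv_hom (e : a ≅ b) (x : OnePoint (X.obj b)) :
    X.act e.hom (X.act e.inv x) = x := by
  rw [← act_comp, e.inv_hom_id, act_id]

theorem act_hom_inv (e : a ≅ b) (x : OnePoint (X.obj a)) :
    X.act e.inv (X.act e.hom x) = x := by
  rw [← act_comp, e.hom_inv_id, act_id]

end act

/-- Natural transformations. -/
@[ext]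
structure Hom (X Y : EF J) where
  /-- the components -/
  app : ∀ a, X.obj a ⟶ Y.obj a
  naturality : ∀ {a b : J} (w : a ⟶ b), X.map w ≫ app b = app a ≫ Y.map w

instance : Category (EF J) where
  Hom := Hom
  id X := ⟨fun a => 𝟙 _, fun w => by rw [Category.comp_id, Category.id_comp]⟩
  comp f g := ⟨fun a => f.app a ≫ g.app a, fun w => by
    rw [← Category.assoc, f.naturality, Category.assoc, g.naturality, Category.assoc]⟩

/-- the underlying functions of a morphism -/
def fn {X Y : EF J} (f : X ⟶ Y) {a : J} (x : OnePoint (X.obj a)) : OnePoint (Y.obj a) :=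
  PQ.app (Hom.app f a) x

theorem fn_def {X Y : EF J} (f : X ⟶ Y) {a : J} (x : OnePoint (X.obj a)) :
    fn f x = PQ.app (Hom.app f a) x := rfl

@[simp] theorem fn_infty {X Y : EF J} (f : X ⟶ Y) (a : J) :
    fn f (∞ : OnePoint (X.obj a)) = ∞ := PQ.app_infty _

@[simp] theorem fn_id (X : EF J) {a : J} (x : OnePoint (X.obj a)) : fn (𝟙 X) x = x := rfl

@[simp] theorem fn_comp {X Y Z : EF J} (f : X ⟶ Y) (g : Y ⟶ Z) {a : J}
    (x : OnePoint (X.obj a)) : fn (f ≫ g) x = fn g (fn f x) := rfl

theorem fn_act {X Y : EF J} (f : X ⟶ Y) {a b : J} (w : a ⟶ b) (x : OnePoint (X.obj a)) :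
    fn f (X.act w x) = Y.act w (fn f x) :=
  congrArg (fun g : X.obj a ⟶ Y.obj b => PQ.app g x) (Hom.naturality f w)

theorem fn_plot {X Y : EF J} (f : X ⟶ Y) {a : J} {K : CH} {x : K → OnePoint (X.obj a)}
    (hx : (X.obj a).plot K x) : (Y.obj a).plot K (fun k => fn f (x k)) :=
  PQ.app_plot (Hom.app f a) hx

theorem hom_ext {X Y : EF J} {f g : X ⟶ Y}
    (h : ∀ (a : J) (x : OnePoint (X.obj a)), fn f x = fn g x) : f = g := by
  apply Hom.ext
  funext a
  exact PQ.hom_ext' (h a)

theorem hom_ext' {X Y : EF J} {f g : X ⟶ Y} (h : ∀ a, Hom.app f a = Hom.app g a) : f = g :=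
  Hom.ext (funext h)

/-- Constructor for morphisms from functions on points. -/
def homMk {X Y : EF J} (F : ∀ a, OnePoint (X.obj a) → OnePoint (Y.obj a))
    (h0 : ∀ a, F a ∞ = ∞)
    (hp : ∀ (a : J) (K : CH) (x : K → OnePoint (X.obj a)), (X.obj a).plot K x →
      (Y.obj a).plot K (fun k => F a (x k)))
    (hn : ∀ {a b : J} (w : a ⟶ b) (x : OnePoint (X.obj a)),
      F b (X.act w x) = Y.act w (F a x)) : X ⟶ Y where
  app a := ⟨F a, h0 a, hp a⟩
  naturality w := PQ.hom_ext' (fun x => hn w x)

@[simp] theorem fn_homMk {X Y : EF J} (F : ∀ a, OnePoint (X.obj a) → OnePoint (Y.obj a))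
    (h0 : ∀ a, F a ∞ = ∞)
    (hp : ∀ (a : J) (K : CH) (x : K → OnePoint (X.obj a)), (X.obj a).plot K x →
      (Y.obj a).plot K (fun k => F a (x k)))
    (hn : ∀ {a b : J} (w : a ⟶ b) (x : OnePoint (X.obj a)),
      F b (X.act w x) = Y.act w (F a x)) {a : J} (x : OnePoint (X.obj a)) :
    fn (homMk F h0 hp hn) x = F a x := rfl

instance : Limits.HasZeroMorphisms (EF J) where
  zero _ Y := ⟨homMk (fun _ _ => ∞) (fun _ => rfl) (fun a K _ _ => (Y.obj a).plot_const K ∞)
    (fun w _ => (Y.act_infty w).symm)⟩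
  comp_zero _ _ := rfl
  zero_comp _ _ _ f := hom_ext (fun a _ => fn_infty f a)

@[simp] theorem fn_zero {X Y : EF J} {a : J} (x : OnePoint (X.obj a)) :
    fn (0 : X ⟶ Y) x = ∞ := rfl

/-- Isomorphisms of continuous functors, from levelwise isomorphisms. -/
def isoMk {X Y : EF J} (e : ∀ a, X.obj a ≅ Y.obj a)
    (h : ∀ {a b : J} (w : a ⟶ b), X.map w ≫ (e b).hom = (e a).hom ≫ Y.map w) : X ≅ Y where
  hom := ⟨fun a => (e a).hom, h⟩
  inv := ⟨fun a => (e a).inv, fun {a b} w => by
    rw [← cancel_epi (e a).hom, ← Category.assoc, ← h, Category.assoc, Iso.hom_inv_id,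
      Category.comp_id, Iso.hom_inv_id_assoc]⟩
  hom_inv_id := hom_ext' (fun a => (e a).hom_inv_id)
  inv_hom_id := hom_ext' (fun a => (e a).inv_hom_id)

/-- evaluation at a sphere -/
@[simps] def ev (a : J) : EF J ⥤ PQ where
  obj X := X.obj a
  map f := Hom.app f a

/-- the underlying ordinary functor -/
@[simps] def toFunctor (X : EF J) : J ⥤ PQ where
  obj := X.obj
  map := X.map
  map_id := X.map_id
  map_comp := X.map_comp

/-- the fully faithful functor to ordinary functors -/
@[simps] def incl (J : Type) [Idx J] : EF J ⥤ (J ⥤ PQ) where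
  obj := toFunctor
  map f := { app := fun a => Hom.app f a, naturality := fun _ _ w => Hom.naturality f w }

/-- `incl` is fully faithful. -/
def inclFullyFaithful : (incl J).FullyFaithful where
  preimage f := ⟨fun a => f.app a, fun w => f.naturality w⟩

instance : (incl J).Full := inclFullyFaithful.full
instance : (incl J).Faithful := inclFullyFaithful.faithful

end EF

end Vale.Agent.P257.D
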