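import Vale.Agent.P257.D.RepDay
import Vale.Agent.P251.H.FMon

/-!
# P257, design D (port of P251.H): the free functor `F : PQ ⥤ EF J` is a braided strong monoidal functor
-/

open CategoryTheory MonoidalCategory Topology OnePoint

namespace Vale.Agent.P257.D

open Vale.Agent.P251.H (CH PQ NonBase toQ ofQ toQ_infty toQ_coe ofQ_base toQ_ofQ ofQ_toQ
  ofQ_surjective ofQ_injective ofQ_eq_infty)

open Vale.Agent.P251.G (LC)
open Vale.Agent.P251.G.LC (smash smash_coe_coe smash_infty_left smash_infty_right)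

namespace EF

variable {J : Type} [Idx J]

open P251.H.PQ (kp kpu)

variable {A B C : PQ} {a b c : J}

/-- Maps out of `F A ⊗ F B` are determined by the values on the generators. -/
theorem FF_ext {Z : EF J} {f g : (F J).obj A ⊗ (F J).obj B ⟶ Z}
    (h : ∀ (k : OnePoint A) (l : OnePoint B),
      fn f (tm (fm k (𝟙 _)) (fm l (𝟙 _))) = fn g (tm (fm k (𝟙 _)) (fm l (𝟙 _)))) : f = g := by
  apply tensor_ext
  intro a b x y
  obtain ⟨k, x, rfl⟩ := fm_surjective x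
  obtain ⟨l, y, rfl⟩ := fm_surjective y
  rw [fm_eq_act k x, fm_eq_act l y, ← act_tm, fn_act, fn_act, h]

/-- Maps out of `(F A ⊗ F B) ⊗ F C` are determined by the values on the generators. -/
theorem FFF_ext {Z : EF J} {f g : ((F J).obj A ⊗ (F J).obj B) ⊗ (F J).obj C ⟶ Z}
    (h : ∀ (k : OnePoint A) (l : OnePoint B) (m : OnePoint C),
      fn f (tm (tm (fm k (𝟙 _)) (fm l (𝟙 _))) (fm m (𝟙 _))) =
        fn g (tm (tm (fm k (𝟙 _)) (fm l (𝟙 _))) (fm m (𝟙 _)))) : f = g := by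
  apply tensor_ext₃
  intro a b c x y z
  obtain ⟨k, x, rfl⟩ := fm_surjective x
  obtain ⟨l, y, rfl⟩ := fm_surjective y
  obtain ⟨m, z, rfl⟩ := fm_surjective z
  rw [fm_eq_act k x, fm_eq_act l y, fm_eq_act m z, ← act_tm, ← act_tm, fn_act, fn_act, h]

theorem FF_ext_left {X Z : EF J} {f g : (F J).obj A ⊗ X ⟶ Z}
    (h : ∀ (k : OnePoint A) (a : J) (x : OnePoint (X.obj a)),
      fn f (tm (fm k (𝟙 _)) x) = fn g (tm (fm k (𝟙 _)) x)) : f = g := by
  apply tensor_ext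
  intro a b x y
  obtain ⟨k, x, rfl⟩ := fm_surjective x
  rw [fm_eq_act k x, ← act_tm_left, fn_act, fn_act, h]

theorem FF_ext_right {X Z : EF J} {f g : X ⊗ (F J).obj A ⟶ Z}
    (h : ∀ (k : OnePoint A) (a : J) (x : OnePoint (X.obj a)),
      fn f (tm x (fm k (𝟙 _))) = fn g (tm x (fm k (𝟙 _)))) : f = g := by
  apply tensor_ext
  intro a b x y
  obtain ⟨k, y, rfl⟩ := fm_surjective y
  rw [fm_eq_act k y, ← act_tm_right, fn_act, fn_act, h]

/-- the product of two points of the unit -/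
def smp (x : 𝟙_ J ⟶ a) (y : 𝟙_ J ⟶ b) : 𝟙_ J ⟶ a ⊗ b := (λ_ (𝟙_ J)).inv ≫ (x ⊗ₘ y)

@[simp] theorem smp_zero_left (y : 𝟙_ J ⟶ b) : smp (0 : 𝟙_ J ⟶ a) y = 0 := by
  rw [smp, Idx.zero_tensorHom, Limits.comp_zero]

@[simp] theorem smp_zero_right (x : 𝟙_ J ⟶ a) : smp x (0 : 𝟙_ J ⟶ b) = 0 := by
  rw [smp, Idx.tensorHom_zero, Limits.comp_zero]

theorem smp_comp {a' b' : J} (x : 𝟙_ J ⟶ a) (y : 𝟙_ J ⟶ b) (u : a ⟶ a') (v : b ⟶ b') :
    smp x y ≫ (u ⊗ₘ v) = smp (x ≫ u) (y ≫ v) := by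
  rw [smp, smp, Category.assoc, tensorHom_comp_tensorHom]

theorem smp_comp_whiskerRight {a' : J} (x : 𝟙_ J ⟶ a) (y : 𝟙_ J ⟶ b) (u : a ⟶ a') :
    smp x y ≫ u ▷ b = smp (x ≫ u) y := by
  rw [← tensorHom_id, smp_comp, Category.comp_id]

theorem smp_comp_whiskerLeft {b' : J} (x : 𝟙_ J ⟶ a) (y : 𝟙_ J ⟶ b) (v : b ⟶ b') :
    smp x y ≫ a ◁ v = smp x (y ≫ v) := by
  rw [← id_tensorHom, smp_comp, Category.comp_id]

theorem smp_id_id : smp (𝟙 (𝟙_ J)) (𝟙 (𝟙_ J)) = (λ_ (𝟙_ J)).inv := by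
  rw [smp, id_tensorHom_id, Category.comp_id]

theorem smp_id_left (y : 𝟙_ J ⟶ b) : smp (𝟙 (𝟙_ J)) y = y ≫ (λ_ b).inv := by
  rw [smp, id_tensorHom, leftUnitor_inv_naturality]

theorem smp_id_right (x : 𝟙_ J ⟶ a) : smp x (𝟙 (𝟙_ J)) = x ≫ (ρ_ a).inv := by
  rw [smp, tensorHom_id, unitors_inv_equal, rightUnitor_inv_naturality]

theorem smp_eq_left (x : 𝟙_ J ⟶ a) (y : 𝟙_ J ⟶ b) : smp x y = y ≫ (λ_ b).inv ≫ x ▷ b := by
  rw [smp, tensorHom_def', leftUnitor_inv_naturality_assoc]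

theorem smp_eq_right (x : 𝟙_ J ⟶ a) (y : 𝟙_ J ⟶ b) : smp x y = x ≫ (ρ_ a).inv ≫ a ◁ y := by
  rw [smp, tensorHom_def, unitors_inv_equal, rightUnitor_inv_naturality_assoc]

theorem smp_braiding (x : 𝟙_ J ⟶ a) (y : 𝟙_ J ⟶ b) : smp x y ≫ (β_ a b).hom = smp y x := by
  rw [smp, smp, Category.assoc, BraidedCategory.braiding_naturality, ← Category.assoc,
    leftUnitor_inv_braiding, unitors_inv_equal]

theorem smp_associator (x : 𝟙_ J ⟶ a) (y : 𝟙_ J ⟶ b) (z : 𝟙_ J ⟶ c) :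
    smp (smp x y) z ≫ (α_ a b c).hom = smp x (smp y z) := by
  simp only [smp]
  rw [← Category.id_comp z, ← tensorHom_comp_tensorHom, Category.id_comp, Category.assoc,
    Category.assoc, associator_naturality]
  conv_rhs => rw [← Category.id_comp x, ← tensorHom_comp_tensorHom]
  simp only [← Category.assoc]
  congr 1
  monoidal

theorem smp_associator_inv (x : 𝟙_ J ⟶ a) (y : 𝟙_ J ⟶ b) (z : 𝟙_ J ⟶ c) :
    smp x (smp y z) ≫ (α_ a b c).inv = smp (smp x y) z := by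
  rw [← smp_associator, Category.assoc, Iso.hom_inv_id, Category.comp_id]

theorem smp_plot {K : CH} {x : K → (𝟙_ J ⟶ a)} {y : K → (𝟙_ J ⟶ b)} (hx : Idx.plot K x)
    (hy : Idx.plot K y) : Idx.plot K (fun k => smp (x k) (y k)) :=
  Idx.plot_comp (Idx.plot_const _ _) (Idx.plot_tensorHom hx hy)

/-- the product of points of the unit, as a morphism -/
noncomputable def smpPQ (a b : J) :
    (sphere J).obj a ⊗ (sphere J).obj b ⟶ (sphere J).obj (a ⊗ b) :=
  PQ.lift₂ (fun x y => pr (smp (unpr x) (unpr y)))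
    (fun y => by rw [unpr_infty, smp_zero_left, pr_zero])
    (fun x => by rw [unpr_infty, smp_zero_right, pr_zero])
    (fun K x y hx hy => pr_plot (smp_plot (unpr_plot hx) (unpr_plot hy)))

theorem app_smpPQ (x : 𝟙_ J ⟶ a) (y : 𝟙_ J ⟶ b) :
    PQ.app (smpPQ a b) (smash (pr x) (pr y)) = pr (smp x y) :=
  (PQ.app_lift₂_smash _ _ _ _ (pr x) (pr y)).trans (by rw [unpr_pr, unpr_pr])

/-- the tensorator on values -/
noncomputable def muPQ' (A B : PQ) (a b : J) :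
    (A ⊗ (sphere J).obj a) ⊗ (B ⊗ (sphere J).obj b) ⟶ (A ⊗ B) ⊗ (sphere J).obj (a ⊗ b) :=
  tensorμ A ((sphere J).obj a) B ((sphere J).obj b) ≫ (A ⊗ B) ◁ smpPQ a b

theorem app_muPQ' (k : OnePoint A) (l : OnePoint B) (x : 𝟙_ J ⟶ a) (y : 𝟙_ J ⟶ b) :
    PQ.app (muPQ' A B a b) (kp (kp k (pr x)) (kp l (pr y))) = kp (kp k l) (pr (smp x y)) := by
  rw [muPQ', PQ.app_comp, PQ.app_tensorμ_kp]
  refine (PQ.app_whiskerLeft_smash (A ⊗ B) (smpPQ a b) (smash k l) (smash (pr x) (pr y))).trans ?_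
  rw [app_smpPQ]
  rfl

/-- the tensorator on values -/
noncomputable def muPQ (A B : PQ) (a b : J) :
    (((F J).obj A).obj a) ⊗ (((F J).obj B).obj b) ⟶ ((F J).obj (A ⊗ B)).obj (a ⊗ b) :=
  muPQ' A B a b

theorem app_muPQ (k : OnePoint A) (l : OnePoint B) (x : 𝟙_ J ⟶ a) (y : 𝟙_ J ⟶ b) :
    PQ.app (muPQ A B a b) (kp (fm k x) (fm l y)) = fm (kp k l) (smp x y) :=
  app_muPQ' k l x y

/-- the tensorator as a bilinear morphism -/
noncomputable def muBil (A B : PQ) : Bil ((F J).obj A) ((F J).obj B) ((F J).obj (A ⊗ B)) where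
  toFun {a b} z w := PQ.app (muPQ A B a b) (kp z w)
  infty_left w := by rw [PQ.kp_infty_left]; exact PQ.app_infty _
  infty_right z := by rw [PQ.kp_infty_right]; exact PQ.app_infty _
  nat u v z w := by
    obtain ⟨k, x, rfl⟩ := fm_surjective z
    obtain ⟨l, y, rfl⟩ := fm_surjective w
    rw [F_act, F_act, app_muPQ, app_muPQ, F_act, smp_comp]
  plot hz hw := PQ.app_plot (muPQ A B _ _) (PQ.kp_plot hz hw)

/-- the tensorator of `F` -/
noncomputable def muHom (A B : PQ) : (F J).obj A ⊗ (F J).obj B ⟶ (F J).obj (A ⊗ B) :=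
  tensorDesc (muBil A B)

@[simp] theorem fn_muHom (k : OnePoint A) (l : OnePoint B) (x : (𝟙_ J ⟶ a))
    (y : (𝟙_ J ⟶ b)) :
    fn (muHom A B) (tm (fm k x) (fm l y)) = fm (kp k l) (smp x y) := by
  rw [muHom, tensorDesc_tm]
  exact app_muPQ k l x y

/-- the transpose of the inverse of the tensorator -/
noncomputable def muInv₀ (A B : PQ) : A ⊗ B ⟶ ((F J).obj A ⊗ (F J).obj B).obj (𝟙_ J) :=
  PQ.lift₂ (fun k l => ((F J).obj A ⊗ (F J).obj B).act (λ_ (𝟙_ J)).hom (tm (fm k (𝟙 _)) (fm l (𝟙 _))))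
    (fun l => by rw [fm_infty_left, tm_infty_left, act_infty])
    (fun k => by rw [fm_infty_left, tm_infty_right, act_infty])
    (fun K k l hk hl => act_plot' _ _ (tm_plot (fm_plot hk (Idx.plot_const _ _))
      (fm_plot hl (Idx.plot_const _ _))))

theorem app_muInv₀ (k : OnePoint A) (l : OnePoint B) :
    PQ.app (muInv₀ A B) (kp k l) =
      ((F J).obj A ⊗ (F J).obj B).act (λ_ (𝟙_ J)).hom (tm (fm k (𝟙 _)) (fm l (𝟙 _))) :=
  PQ.app_lift₂_smash _ _ _ _ k l

/-- the inverse of the tensorator of `F` -/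
noncomputable def muInv (A B : PQ) : (F J).obj (A ⊗ B) ⟶ (F J).obj A ⊗ (F J).obj B := Fyo (muInv₀ A B)

theorem fn_muInv (k : OnePoint A) (l : OnePoint B) (x : (𝟙_ J ⟶ a)) :
    fn (muInv A B) (fm (kp k l) x) =
      ((F J).obj A ⊗ (F J).obj B).act ((λ_ (𝟙_ J)).hom ≫ x) (tm (fm k (𝟙 _)) (fm l (𝟙 _))) := by
  rw [muInv, fn_Fyo, app_muInv₀, act_comp]

@[simp] theorem fn_muInv_id (k : OnePoint A) (l : OnePoint B) :
    fn (muInv A B) (fm (kp k l) (𝟙 _)) =
      ((F J).obj A ⊗ (F J).obj B).act (λ_ (𝟙_ J)).hom (tm (fm k (𝟙 _)) (fm l (𝟙 _))) := by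
  rw [fn_muInv, Category.comp_id]

/-- The tensorator of `F`. -/
noncomputable def muIso (A B : PQ) : (F J).obj A ⊗ (F J).obj B ≅ (F J).obj (A ⊗ B) where
  hom := muHom A B
  inv := muInv A B
  hom_inv_id := by
    apply FF_ext; intro k l
    rw [fn_comp, fn_muHom, fn_muInv, smp_id_id, Iso.hom_inv_id, act_id, fn_id]
  inv_hom_id := by
    apply F_hom_ext; intro k
    obtain ⟨k, l, rfl⟩ := PQ.kp_surjective k
    rw [fn_comp, fn_muInv_id, fn_act, fn_muHom, F_act, smp_id_id, Iso.inv_hom_id, fn_id]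

variable (J) in
/-- the unit comparison of `F` -/
noncomputable def epsIso : 𝟙_ (EF J) ≅ (F J).obj (𝟙_ PQ) where
  hom := yo (fm kpu (𝟙 _))
  inv := Fyo ⟨fun u : OnePoint Unit => PQ.unitFun u (pr (𝟙 (𝟙_ J))), rfl, fun K u hu =>
    PQ.plot_ite ((sphere J).obj (𝟙_ J)) hu (((sphere J).obj (𝟙_ J)).plot_const K _)⟩
  hom_inv_id := sphere_hom_ext (by
    rw [fn_comp, fn_yo_pr, act_id, fn_Fyo_id]; rfl)
  inv_hom_id := by
    apply F_hom_ext; intro k
    rw [fn_comp, fn_Fyo_id]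
    induction k using OnePoint.rec with
    | infty => exact (fn_infty _ _).trans (fm_infty_left (A := 𝟙_ PQ) (𝟙 (𝟙_ J))).symm
    | coe k => exact (fn_yo_pr _ _).trans (act_id _ _)

theorem fn_epsIso_hom (x : 𝟙_ J ⟶ a) :
    fn (epsIso J).hom (pr x) = fm kpu x := by
  change fn (yo (fm kpu (𝟙 _))) (pr x) = _
  rw [fn_yo_pr, ← fm_eq_act]

variable (J) in
/-- the monoidal structure of `F` -/
noncomputable def coreF : (F J).CoreMonoidal where
  εIso := epsIso J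
  μIso := muIso
  μIso_hom_natural_left {A B} f C := by
    apply FF_ext; intro k l
    rw [fn_comp, fn_comp, whiskerRight_tm, fn_F_map]
    change fn (muHom B C) _ = fn ((F J).map (f ▷ C)) (fn (muHom A C) _)
    rw [fn_muHom, fn_muHom, fn_F_map, PQ.app_whiskerRight_kp]
  μIso_hom_natural_right {A B} C f := by
    apply FF_ext; intro k l
    rw [fn_comp, fn_comp, whiskerLeft_tm, fn_F_map]
    change fn (muHom C B) _ = fn ((F J).map (C ◁ f)) (fn (muHom C A) _)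
    rw [fn_muHom, fn_muHom, fn_F_map, PQ.app_whiskerLeft_kp]
  associativity A B C := by
    apply FFF_ext; intro k l m
    simp only [fn_comp]
    rw [whiskerRight_tm, associator_tm, fn_act, whiskerLeft_tm]
    change fn ((F J).map (α_ A B C).hom) (fn (muHom (A ⊗ B) C) (tm (fn (muHom A B) _) _)) =
      fn (muHom A (B ⊗ C)) (EF.act _ _ (tm _ (fn (muHom B C) _)))
    rw [fn_muHom, fn_muHom, fn_muHom, fn_F_map, fn_act, fn_muHom, F_act,
      PQ.app_associator_kp, smp_associator_inv]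
  left_unitality A := by
    apply FF_ext_right; intro k a x
    simp only [fn_comp]
    obtain ⟨x, rfl⟩ := pr_surjective x
    rw [leftUnitor_tm, whiskerRight_tm, fn_epsIso_hom]
    change _ = fn ((F J).map (λ_ A).hom) (fn (muHom (𝟙_ PQ) A) _)
    rw [fn_muHom, fn_F_map, PQ.app_leftUnitor_kp, F_act, unpr_pr,
      Category.id_comp, smp_eq_left, Category.id_comp]
  right_unitality A := by
    apply FF_ext_left; intro k a x
    simp only [fn_comp]
    obtain ⟨x, rfl⟩ := pr_surjective x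
    rw [rightUnitor_tm, whiskerLeft_tm, fn_epsIso_hom]
    change _ = fn ((F J).map (ρ_ A).hom) (fn (muHom A (𝟙_ PQ)) _)
    rw [fn_muHom, fn_F_map, PQ.app_rightUnitor_kp, F_act, unpr_pr,
      Category.id_comp, smp_eq_right, Category.id_comp]

noncomputable instance : (F J).Monoidal := (coreF J).toMonoidal

open Functor.LaxMonoidal Functor.OplaxMonoidal Functor.Monoidal

@[simp] theorem F_μ (A B : PQ) : μ (F J) A B = muHom A B := rfl

@[simp] theorem F_δ (A B : PQ) : δ (F J) A B = muInv A B := rfl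

@[simp] theorem F_ε : ε (F J) = (epsIso J).hom := rfl

@[simp] theorem F_η : η (F J) = (epsIso J).inv := rfl

theorem fn_muInv_smp (k : OnePoint A) (l : OnePoint B) (x : (𝟙_ J ⟶ a)) (y : (𝟙_ J ⟶ b)) :
    fn (muInv A B) (fm (kp k l) (smp x y)) = tm (fm k x) (fm l y) := by
  rw [← fn_muHom, ← fn_comp]
  exact (congrArg (fun f => fn f (tm (fm k x) (fm l y))) (muIso A B).hom_inv_id).trans (fn_id _ _)

theorem fn_epsIso_inv (x : (𝟙_ J ⟶ a)) : fn (epsIso J).inv (fm kpu x) = pr x := by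
  rw [← fn_epsIso_hom, ← fn_comp, Iso.hom_inv_id, fn_id]

noncomputable instance : (F J).Braided where
  braided A B := by
    apply FF_ext; intro k l
    rw [fn_comp, fn_comp, braiding_tm, fn_act, F_μ, F_μ, fn_muHom, fn_muHom, fn_F_map, F_act,
      PQ.app_braiding_kp, smp_braiding]

/-- The functor from locally compact spaces to continuous functors is braided. -/
noncomputable instance : (PQ.LCPQ ⋙ EF.F J).Braided := inferInstance

end EF

end Vale.Agent.P257.D
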