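import Vale.Agent.P257.D.Base
import Mathlib.Algebra.Order.Monoid.Prod

/-!
# P257, design D: graded / filtered index categories

`Gr J Λ`: the product of an index category `J` with a preordered commutative monoid `Λ`.  Objects
are pairs `⟨c, l⟩`; a morphism `⟨c, l⟩ ⟶ ⟨d, m⟩` is a morphism `c ⟶ d` which is zero unless
`l ≤ m`.  `Disc A` is the monoid `A` with the discrete order (gradings).
-/

open CategoryTheory MonoidalCategory Topology OnePoint

namespace Vale.Agent.P257.D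

open Vale.Agent.P251.H (CH PQ)
open Vale.Agent.P251.G (LC)
open Vale.Agent.P251.G.LC (smash RR II)

/-- a commutative monoid with the discrete order -/
def Disc (A : Type) : Type := A

namespace Disc

variable {A : Type}

instance [h : AddCommMonoid A] : AddCommMonoid (Disc A) := h

instance [h : AddCommGroup A] : AddCommGroup (Disc A) := h

instance [h : DecidableEq A] : DecidableEq (Disc A) := h

instance : PartialOrder (Disc A) where
  le a b := a = b
  le_refl _ := rfl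
  le_trans _ _ _ := Eq.trans
  le_antisymm _ _ h _ := h

theorem le_iff {a b : Disc A} : a ≤ b ↔ a = b := Iff.rfl

instance [AddCommMonoid A] : IsOrderedAddMonoid (Disc A) where
  add_le_add_left _ _ h c := congrArg (· + c) h

/-- the identity -/
def mk (a : A) : Disc A := a

/-- the identity -/
def val (a : Disc A) : A := a

@[simp] theorem val_mk (a : A) : (mk a).val = a := rfl

@[simp] theorem mk_val (a : Disc A) : mk a.val = a := rfl

@[simp] theorem mk_le_mk {a b : A} : mk a ≤ mk b ↔ a = b := Iff.rfl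

@[simp] theorem val_add [AddCommMonoid A] (a b : Disc A) : (a + b).val = a.val + b.val := rfl

@[simp] theorem val_zero [AddCommMonoid A] : (0 : Disc A).val = 0 := rfl

@[simp] theorem mk_add [AddCommMonoid A] (a b : A) : mk (a + b) = mk a + mk b := rfl

@[simp] theorem mk_zero [AddCommMonoid A] : mk (0 : A) = 0 := rfl

theorem val_injective : Function.Injective (val : Disc A → A) := fun _ _ h => h

end Disc

/-- Objects of the graded index category. -/
@[ext]
structure Gr (J Λ : Type) where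
  /-- the level -/
  ob : J
  /-- the degree -/
  deg : Λ

namespace Gr

set_option linter.unusedSectionVars false

variable {J : Type} [Idx J] {Λ : Type} [AddCommMonoid Λ] [Preorder Λ] [IsOrderedAddMonoid Λ]

/-- Morphisms of the graded index category. -/
@[ext]
structure Hom (x y : Gr J Λ) where
  /-- the underlying morphism -/
  hom : x.ob ⟶ y.ob
  cond : hom = 0 ∨ x.deg ≤ y.deg

instance : Category (Gr J Λ) where
  Hom := Hom
  id x := ⟨𝟙 x.ob, Or.inr le_rfl⟩
  comp f g := ⟨f.hom ≫ g.hom, by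
    rcases f.cond with h | h
    · left; rw [h, Limits.zero_comp]
    rcases g.cond with h' | h'
    · left; rw [h', Limits.comp_zero]
    · exact Or.inr (h.trans h')⟩
  id_comp f := Hom.ext (Category.id_comp _)
  comp_id f := Hom.ext (Category.comp_id _)
  assoc f g h := Hom.ext (Category.assoc _ _ _)

variable {x y z t : Gr J Λ}

@[ext (iff := false)]
theorem hom_ext {f g : x ⟶ y} (h : f.hom = g.hom) : f = g := Hom.ext h

@[simp] theorem id_hom (x : Gr J Λ) : Hom.hom (𝟙 x) = 𝟙 x.ob := rfl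

@[simp, reassoc] theorem comp_hom (f : x ⟶ y) (g : y ⟶ z) : (f ≫ g).hom = f.hom ≫ g.hom := rfl

/-- the morphism given by a morphism of levels and an inequality of degrees -/
def homMk (f : x.ob ⟶ y.ob) (h : x.deg ≤ y.deg) : x ⟶ y := ⟨f, Or.inr h⟩

@[simp] theorem homMk_hom (f : x.ob ⟶ y.ob) (h : x.deg ≤ y.deg) : (homMk f h).hom = f := rfl

/-- isomorphisms -/
@[simps] def isoMk (e : x.ob ≅ y.ob) (h : x.deg = y.deg) : x ≅ y where
  hom := homMk e.hom h.le
  inv := homMk e.inv h.ge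
  hom_inv_id := hom_ext e.hom_inv_id
  inv_hom_id := hom_ext e.inv_hom_id

instance : Limits.HasZeroMorphisms (Gr J Λ) where
  zero _ _ := ⟨⟨0, Or.inl rfl⟩⟩
  comp_zero _ _ := hom_ext Limits.comp_zero
  zero_comp _ _ _ _ := hom_ext Limits.zero_comp

@[simp] theorem zero_hom (x y : Gr J Λ) : (0 : x ⟶ y).hom = 0 := rfl

theorem eq_zero_of_not_le (h : ¬ x.deg ≤ y.deg) (f : x ⟶ y) : f = 0 :=
  hom_ext (f.cond.resolve_right h)

theorem hom_cases (f : x ⟶ y) : f = 0 ∨ ∃ h : x.deg ≤ y.deg, f = homMk f.hom h := by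
  rcases f.cond with h | h
  · exact Or.inl (hom_ext h)
  · exact Or.inr ⟨h, rfl⟩

/-- tensor product of morphisms -/
def tensorHom' (f : x ⟶ y) (g : z ⟶ t) :
    (⟨x.ob ⊗ z.ob, x.deg + z.deg⟩ : Gr J Λ) ⟶ ⟨y.ob ⊗ t.ob, y.deg + t.deg⟩ :=
  ⟨f.hom ⊗ₘ g.hom, by
    rcases f.cond with h | h
    · left; rw [h]; exact Idx.zero_tensorHom _
    rcases g.cond with h' | h'
    · left; rw [h']; exact Idx.tensorHom_zero _
    · exact Or.inr (add_le_add h h')⟩

instance : MonoidalCategoryStruct (Gr J Λ) where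
  tensorObj x y := ⟨x.ob ⊗ y.ob, x.deg + y.deg⟩
  tensorUnit := ⟨𝟙_ J, 0⟩
  whiskerLeft x _ _ f := ⟨x.ob ◁ f.hom, by
    rcases f.cond with h | h
    · left; rw [h]; exact Idx.whiskerLeft_zero _ _ _
    · exact Or.inr (add_le_add le_rfl h)⟩
  whiskerRight f z := ⟨f.hom ▷ z.ob, by
    rcases f.cond with h | h
    · left; rw [h]; exact Idx.zero_whiskerRight _ _ _
    · exact Or.inr (add_le_add h le_rfl)⟩
  tensorHom := tensorHom'
  associator x y z := isoMk (α_ x.ob y.ob z.ob) (add_assoc _ _ _)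
  leftUnitor x := isoMk (λ_ x.ob) (zero_add _)
  rightUnitor x := isoMk (ρ_ x.ob) (add_zero _)

@[simp] theorem tensor_ob (x y : Gr J Λ) : (x ⊗ y).ob = x.ob ⊗ y.ob := rfl
@[simp] theorem tensor_deg (x y : Gr J Λ) : (x ⊗ y).deg = x.deg + y.deg := rfl
@[simp] theorem unit_ob : (𝟙_ (Gr J Λ)).ob = 𝟙_ J := rfl
@[simp] theorem unit_deg : (𝟙_ (Gr J Λ)).deg = 0 := rfl

@[simp] theorem whiskerLeft_hom (x : Gr J Λ) (f : y ⟶ z) : (x ◁ f).hom = x.ob ◁ f.hom := rfl
@[simp] theorem whiskerRight_hom (f : x ⟶ y) (z : Gr J Λ) : (f ▷ z).hom = f.hom ▷ z.ob := rfl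
@[simp] theorem tensorHom_hom (f : x ⟶ y) (g : z ⟶ t) : (f ⊗ₘ g).hom = f.hom ⊗ₘ g.hom := rfl
@[simp] theorem associator_hom_hom (x y z : Gr J Λ) :
    (α_ x y z).hom.hom = (α_ x.ob y.ob z.ob).hom := rfl
@[simp] theorem associator_inv_hom (x y z : Gr J Λ) :
    (α_ x y z).inv.hom = (α_ x.ob y.ob z.ob).inv := rfl
@[simp] theorem leftUnitor_hom_hom (x : Gr J Λ) : (λ_ x).hom.hom = (λ_ x.ob).hom := rfl
@[simp] theorem leftUnitor_inv_hom (x : Gr J Λ) : (λ_ x).inv.hom = (λ_ x.ob).inv := rfl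
@[simp] theorem rightUnitor_hom_hom (x : Gr J Λ) : (ρ_ x).hom.hom = (ρ_ x.ob).hom := rfl
@[simp] theorem rightUnitor_inv_hom (x : Gr J Λ) : (ρ_ x).inv.hom = (ρ_ x.ob).inv := rfl

instance : MonoidalCategory (Gr J Λ) where
  tensorHom_def f g := hom_ext (tensorHom_def f.hom g.hom)
  id_tensorHom_id a b := hom_ext (id_tensorHom_id a.ob b.ob)
  tensorHom_comp_tensorHom f₁ f₂ g₁ g₂ :=
    hom_ext (tensorHom_comp_tensorHom f₁.hom f₂.hom g₁.hom g₂.hom)
  whiskerLeft_id a b := hom_ext (MonoidalCategory.whiskerLeft_id a.ob b.ob)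
  id_whiskerRight a b := hom_ext (id_whiskerRight a.ob b.ob)
  associator_naturality f₁ f₂ f₃ := hom_ext (associator_naturality f₁.hom f₂.hom f₃.hom)
  leftUnitor_naturality f := hom_ext (leftUnitor_naturality f.hom)
  rightUnitor_naturality f := hom_ext (rightUnitor_naturality f.hom)
  pentagon a b c d := hom_ext (pentagon a.ob b.ob c.ob d.ob)
  triangle a b := hom_ext (triangle a.ob b.ob)

instance : BraidedCategory (Gr J Λ) where
  braiding a b := isoMk (x := a ⊗ b) (y := b ⊗ a) (β_ a.ob b.ob) (add_comm _ _)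
  braiding_naturality_right a _ _ f :=
    hom_ext (BraidedCategory.braiding_naturality_right a.ob f.hom)
  braiding_naturality_left f c :=
    hom_ext (BraidedCategory.braiding_naturality_left f.hom c.ob)
  hexagon_forward a b c := hom_ext (BraidedCategory.hexagon_forward a.ob b.ob c.ob)
  hexagon_reverse a b c := hom_ext (BraidedCategory.hexagon_reverse a.ob b.ob c.ob)

@[simp] theorem braiding_hom_hom (a b : Gr J Λ) : (β_ a b).hom.hom = (β_ a.ob b.ob).hom := rfl
@[simp] theorem braiding_inv_hom (a b : Gr J Λ) : (β_ a b).inv.hom = (β_ a.ob b.ob).inv := rfl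

instance : SymmetricCategory (Gr J Λ) where
  symmetry a b := hom_ext (SymmetricCategory.symmetry a.ob b.ob)

instance : Idx (Gr J Λ) where
  plot K _ _ w := Idx.plot K (fun k => (w k).hom)
  plot_const K _ _ w := Idx.plot_const K w.hom
  plot_pre g hg _ hw := Idx.plot_pre g hg hw
  plot_sum h1 h2 := Idx.plot_sum h1 h2
  plot_surj g hg hs _ hw := Idx.plot_surj g hg hs hw
  plot_comp hw hv := Idx.plot_comp hw hv
  plot_tensorHom hw hv := Idx.plot_tensorHom hw hv
  zero_tensorHom g := hom_ext (Idx.zero_tensorHom g.hom)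
  tensorHom_zero f := hom_ext (Idx.tensorHom_zero f.hom)

theorem plot_iff {K : CH} {w : K → (x ⟶ y)} :
    Idx.plot K w ↔ Idx.plot K (fun k => (w k).hom) := Iff.rfl

theorem plot_homMk {K : CH} {w : K → (x.ob ⟶ y.ob)} (hw : Idx.plot K w) (h : x.deg ≤ y.deg) :
    Idx.plot K (fun k => homMk (w k) h) := hw

open EF

@[simp] theorem smp_hom (u : 𝟙_ (Gr J Λ) ⟶ x) (v : 𝟙_ (Gr J Λ) ⟶ y) :
    (smp u v).hom = smp (J := J) u.hom v.hom := rfl

/-- morphism spaces when the degrees are comparable -/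
noncomputable def homIso (h : x.deg ≤ y.deg) : (rep x).obj y ≅ (rep x.ob).obj y.ob where
  hom := ⟨fun u => pr (unpr u).hom, pr_zero, fun _ _ hu => pr_plot (unpr_plot hu)⟩
  inv := ⟨fun u => pr (homMk (unpr u) h), by
      rw [unpr_infty]; exact pr_zero,
    fun _ _ hu => pr_plot (plot_homMk (unpr_plot hu) h)⟩
  hom_inv_id := PQ.hom_ext' fun u => by
    change pr (homMk (unpr (pr (unpr u).hom)) h) = u
    rw [unpr_pr]
    exact pr_unpr u
  inv_hom_id := PQ.hom_ext' fun u => by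
    change pr (unpr (pr (homMk (unpr u) h))).hom = u
    rw [unpr_pr]
    exact pr_unpr u

theorem app_homIso_hom (h : x.deg ≤ y.deg) (u : x ⟶ y) :
    PQ.app (homIso h).hom (pr u) = pr u.hom := by
  change pr (unpr (pr u)).hom = _
  rw [unpr_pr]

theorem app_homIso_inv (h : x.deg ≤ y.deg) (u : x.ob ⟶ y.ob) :
    PQ.app (homIso h).inv (pr u) = pr (homMk u h) := by
  change pr (homMk (unpr (pr u)) h) = _
  rw [unpr_pr]

theorem app_homIso_inv' (h : x.deg ≤ y.deg) (u : OnePoint ((rep x.ob).obj y.ob)) :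
    PQ.app (homIso h).inv u = pr (homMk (unpr u) h) := rfl

theorem isZero_rep (h : ¬ x.deg ≤ y.deg) : Limits.IsZero ((rep x).obj y) := by
  rw [Limits.IsZero.iff_id_eq_zero]
  apply PQ.hom_ext'
  intro u
  obtain ⟨u, rfl⟩ := pr_surjective u
  rw [eq_zero_of_not_le h u, pr_zero]
  rfl

variable [SphIdx J]

noncomputable instance : SphIdx (Gr J Λ) where
  gen := ⟨SphIdx.gen, 0⟩
  isIso_eps := by
    have : epsPQ (Gr J Λ) = epsPQ J ≫ (homIso (x := 𝟙_ (Gr J Λ)) (y := 𝟙_ _) le_rfl).inv := by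
      apply PQ.hom_ext
      rintro ⟨⟩
      exact (app_homIso_inv (x := 𝟙_ (Gr J Λ)) (y := 𝟙_ _) le_rfl (𝟙 _)).symm
    rw [this]
    exact IsIso.comp_isIso' inferInstance inferInstance
  σ := SphIdx.σ ≫ (homIso (x := 𝟙_ (Gr J Λ)) (y := ⟨SphIdx.gen, 0⟩) le_rfl).inv
  isIso_sigMul b := by
    by_cases h : (0 : Λ) ≤ b.deg
    · have h' : (0 : Λ) ≤ 0 + b.deg := by rwa [zero_add]
      have : sigMul (SphIdx.σ ≫ (homIso (x := 𝟙_ (Gr J Λ)) (y := ⟨SphIdx.gen, 0⟩) le_rfl).inv) b =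
          (whiskerLeftIso _ (homIso (x := 𝟙_ (Gr J Λ)) (y := b) h) ≪≫
            asIso (sigMul SphIdx.σ b.ob) ≪≫
            (homIso (x := 𝟙_ (Gr J Λ)) (y := ⟨SphIdx.gen, 0⟩ ⊗ b) h').symm).hom := by
        apply PQ.hom_ext₂
        intro r t
        obtain ⟨t, rfl⟩ := pr_surjective t
        refine (app_sigMul _ r t).trans ?_
        change _ = PQ.app (homIso (x := 𝟙_ (Gr J Λ)) (y := ⟨SphIdx.gen, 0⟩ ⊗ b) h').inv
          (PQ.app (sigMul SphIdx.σ b.ob)
            (PQ.app (_ ◁ (homIso (x := 𝟙_ (Gr J Λ)) (y := b) h).hom) (smash r (pr t))))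
        rw [PQ.app_whiskerLeft_smash, app_homIso_hom]
        erw [app_sigMul, app_homIso_inv]
        refine congrArg pr (hom_ext ?_)
        rw [smp_hom, PQ.app_comp]
        erw [app_homIso_inv', unpr_pr]
        rfl
      rw [this]
      infer_instance
    · have h' : ¬ (0 : Λ) ≤ 0 + b.deg := by rwa [zero_add]
      have z1 := isZero_rep (x := 𝟙_ (Gr J Λ)) (y := b) h
      have z2 := isZero_rep (x := 𝟙_ (Gr J Λ)) (y := ⟨SphIdx.gen, 0⟩ ⊗ b) h'
      refine ⟨0, ?_, z2.eq_of_src _ _⟩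
      rw [Limits.comp_zero, ← MonoidalCategory.whiskerLeft_id, z1.eq_of_src (𝟙 _) 0]
      apply PQ.hom_ext₂
      intro r t
      rw [PQ.app_whiskerLeft_smash, PQ.app_zero, PQ.app_zero, LC.smash_infty_right]
  rot := SphIdx.rot ≫ (homIso (x := (⟨SphIdx.gen, 0⟩ : Gr J Λ))
    (y := ⟨SphIdx.gen, 0⟩ ⊗ ⟨SphIdx.gen, 0⟩) (add_zero (0 : Λ)).ge).inv
  rot_zero w := by
    erw [PQ.app_comp, SphIdx.rot_zero, PQ.app_comp, app_homIso_inv, app_homIso_inv', unpr_pr]
    rfl
  rot_one w := by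
    erw [PQ.app_comp, SphIdx.rot_one, PQ.app_comp, app_homIso_inv, app_homIso_inv', unpr_pr]
    rfl

theorem gen_eq : (SphIdx.gen : Gr J Λ) = ⟨SphIdx.gen, 0⟩ := rfl

theorem sphIdx_pt_hom (r : OnePoint ℝ) :
    (SphIdx.pt r : 𝟙_ (Gr J Λ) ⟶ SphIdx.gen).hom = SphIdx.pt r :=
  congrArg Hom.hom (unpr_pr (homMk (x := 𝟙_ (Gr J Λ)) (y := ⟨SphIdx.gen, 0⟩)
    (SphIdx.pt r) le_rfl))

end Gr

end Vale.Agent.P257.D
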