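import Vale.Agent.P257.D.OSph
import Vale.Agent.P257.D.Gr
import Vale.Agent.P257.A.Big
import Mathlib.Topology.Algebra.Module.FiniteDimension
import Mathlib.LinearAlgebra.Matrix.DotProduct

/-!
# P257, design D: coordinates on unordered tensor products in `O` and `Gr`

`O.bvec v : (big a).El → ℝ` for `v : ∀ i, (a i).El → ℝ` is a linear isometric bijection
(`bvecEquiv`, inverse `bproj`), and the structure morphisms of `A.big` act on `bvec` in the
evident way.
-/

open CategoryTheory MonoidalCategory Topology OnePoint Filter Matrix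

namespace Vale.Agent.P257.D

open Vale.Agent.P251.H (CH PQ)
open Vale.Agent.P251.G (LC)
open Vale.Agent.P257.A (evL mapL big bigMap bigEquiv bigSum bigEmpty bigUnique bigOption enum)

section generic

variable {J : Type} [Idx J] {ι : Type}

theorem mapL_zero {a b : ι → J} (f : ∀ i, a i ⟶ b i) {i : ι} (h : f i = 0) :
    ∀ l : List ι, i ∈ l → mapL f l = 0
  | [], hi => absurd hi List.not_mem_nil
  | j :: l, hi => by
    rcases List.mem_cons.mp hi with rfl | hi
    · rw [A.mapL_cons, h]; exact Idx.zero_tensorHom _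
    · rw [A.mapL_cons, mapL_zero f h l hi]; exact Idx.tensorHom_zero _

theorem plot_mapL {a b : ι → J} {K : CH} {f : K → ∀ i, a i ⟶ b i}
    (h : ∀ i, Idx.plot K (fun k => f k i)) : ∀ l : List ι, Idx.plot K (fun k => mapL (f k) l)
  | [] => Idx.plot_const K _
  | j :: l => Idx.plot_tensorHom (h j) (plot_mapL h l)

variable [Finite ι]

theorem bigMap_zero {a b : ι → J} (f : ∀ i, a i ⟶ b i) {i : ι} (h : f i = 0) : bigMap f = 0 :=
  mapL_zero f h _ (A.mem_enum i)

theorem plot_bigMap {a b : ι → J} {K : CH} {f : K → ∀ i, a i ⟶ b i}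
    (h : ∀ i, Idx.plot K (fun k => f k i)) : Idx.plot K (fun k => bigMap (f k)) :=
  plot_mapL h _

end generic

namespace O

variable {a b c : O}

theorem id_ne_zero (a : O) : 𝟙 a ≠ 0 := mk_ne_zero _

theorem exists_mk_of_ne_zero {f : a ⟶ b} (h : f ≠ 0) : ∃ g, f = mk g :=
  (hom_cases f).resolve_left h

theorem ne_zero_of_isIso (f : a ⟶ b) [IsIso f] : f ≠ 0 := fun h => id_ne_zero a (by
  rw [← IsIso.hom_inv_id f]
  generalize CategoryTheory.inv f = g
  rw [h, Limits.zero_comp])

theorem comp_ne_zero {f : a ⟶ b} {g : b ⟶ c} (hf : f ≠ 0) (hg : g ≠ 0) : f ≫ g ≠ 0 := by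
  obtain ⟨f, rfl⟩ := exists_mk_of_ne_zero hf
  obtain ⟨g, rfl⟩ := exists_mk_of_ne_zero hg
  exact mk_ne_zero _

theorem eq_of_isEmpty [IsEmpty b.El] {f g : a ⟶ b} (hf : f ≠ 0) (hg : g ≠ 0) : f = g := by
  obtain ⟨f, rfl⟩ := exists_mk_of_ne_zero hf
  obtain ⟨g, rfl⟩ := exists_mk_of_ne_zero hg
  exact mk_ext fun _ => Subsingleton.elim _ _

/-- the linear isometry of an isomorphism -/
noncomputable def isoOH (f : a ⟶ b) [IsIso f] : OH a.El b.El :=
  (exists_mk_of_ne_zero (ne_zero_of_isIso f)).choose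

@[simp] theorem mk_isoOH (f : a ⟶ b) [IsIso f] : mk (isoOH f) = f :=
  (exists_mk_of_ne_zero (ne_zero_of_isIso f)).choose_spec.symm

theorem isoOH_w (f : a ⟶ b) [IsIso f] : (isoOH f).w = 0 := by
  have h : (isoOH f).comp (isoOH (CategoryTheory.inv f)) = OH.ofEquiv (Equiv.refl _) := by
    apply mk_injective
    rw [← mk_comp, mk_isoOH, mk_isoOH, IsIso.hom_inv_id, id_eq]
  have h2 := OH.nrm_comp (isoOH f) (isoOH (CategoryTheory.inv f))
  rw [h] at h2
  have h3 : (OH.ofEquiv (Equiv.refl a.El)).nrm = 0 := by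
    rw [OH.nrm, OH.ofEquiv_w, dotProduct_zero]
  have h4 := OH.propFn_nrm.nonneg (isoOH f)
  have h5 := OH.propFn_nrm.nonneg (isoOH (CategoryTheory.inv f))
  have h6 : (isoOH f).nrm = 0 := by linarith
  exact dotProduct_self_eq_zero.mp h6

theorem isoOH_ap_eq_iff (f : a ⟶ b) [IsIso f] {u : a.El → ℝ} {v : b.El → ℝ} :
    (isoOH f).ap u = v ↔ act f (u : OnePoint _) = (v : OnePoint _) := by
  conv_rhs => rw [← mk_isoOH f, act_mk_coe]
  exact OnePoint.coe_eq_coe.symm

theorem vec_add (u u' : a.El → ℝ) (v v' : b.El → ℝ) :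
    vec (u + u') (v + v') = vec u v + vec u' v' := by
  funext x; rcases x with x | x <;> rfl

theorem vec_smul (r : ℝ) (u : a.El → ℝ) (v : b.El → ℝ) : vec (r • u) (r • v) = r • vec u v := by
  funext x; rcases x with x | x <;> rfl

@[simp] theorem vec_zero : vec (0 : a.El → ℝ) (0 : b.El → ℝ) = 0 := by
  funext x; rcases x with x | x <;> rfl

theorem vec_dot (u u' : a.El → ℝ) (v v' : b.El → ℝ) :
    vec u v ⬝ᵥ vec u' v' = u ⬝ᵥ u' + v ⬝ᵥ v' := sumElim_dotProduct_sumElim _ _ _ _

theorem vec_inj {u u' : a.El → ℝ} {v v' : b.El → ℝ} : vec u v = vec u' v' ↔ u = u' ∧ v = v' :=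
  ⟨fun h => ⟨congrArg vfst h, congrArg vsnd h⟩, fun h => by rw [h.1, h.2]⟩

theorem act_tensor_vsm {d : O} (f : a ⟶ b) (g : c ⟶ d) (u : OnePoint (a.El → ℝ))
    (v : OnePoint (c.El → ℝ)) : act (f ⊗ₘ g) (vsm u v) = vsm (act f u) (act g v) := by
  apply spt_injective
  rw [← spt_comp, ← smp_spt, ← smp_spt, EF.smp_comp, spt_comp, spt_comp]

variable {ι κ : Type}

/-- the vector with given components, along a list -/
def lvec {a : ι → O} (v : ∀ i, (a i).El → ℝ) : ∀ l : List ι, (evL a l).El → ℝ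
  | [] => 0
  | i :: l => vec (v i) (lvec v l)

theorem lvec_add {a : ι → O} (u v : ∀ i, (a i).El → ℝ) :
    ∀ l : List ι, lvec (u + v) l = lvec u l + lvec v l
  | [] => (add_zero _).symm
  | i :: l => by
    change vec (u i + v i) (lvec (u + v) l) = vec _ _ + vec _ _
    rw [lvec_add u v l, vec_add]
    rfl

theorem lvec_smul {a : ι → O} (r : ℝ) (v : ∀ i, (a i).El → ℝ) :
    ∀ l : List ι, lvec (r • v) l = r • lvec v l
  | [] => (smul_zero _).symm
  | i :: l => by
    change vec (r • v i) (lvec (r • v) l) = r • vec _ _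
    rw [lvec_smul r v l, vec_smul]

theorem lvec_dot {a : ι → O} (u v : ∀ i, (a i).El → ℝ) :
    ∀ l : List ι, lvec u l ⬝ᵥ lvec v l = (l.map (fun i => u i ⬝ᵥ v i)).sum
  | [] => dotProduct_zero _
  | i :: l => by
    refine (vec_dot _ _ _ _).trans ?_
    rw [lvec_dot u v l, List.map_cons, List.sum_cons]

theorem lvec_congr {a : ι → O} {u v : ∀ i, (a i).El → ℝ} :
    ∀ l : List ι, (∀ i ∈ l, u i = v i) → lvec u l = lvec v l
  | [], _ => rfl
  | i :: l, h => by
    change vec _ _ = vec _ _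
    rw [h i List.mem_cons_self, lvec_congr l (fun j hj => h j (List.mem_cons_of_mem _ hj))]

theorem lvec_inj {a : ι → O} {u v : ∀ i, (a i).El → ℝ} :
    ∀ l : List ι, lvec u l = lvec v l → ∀ i ∈ l, u i = v i
  | [], _, _, hi => absurd hi List.not_mem_nil
  | j :: l, h, i, hi => by
    have h' := vec_inj.mp h
    rcases List.mem_cons.mp hi with rfl | hi
    · exact h'.1
    · exact lvec_inj l h'.2 i hi

theorem lvec_surj {a : ι → O} : ∀ l : List ι, l.Nodup → ∀ z : (evL a l).El → ℝ,
    ∃ v : ∀ i, (a i).El → ℝ, lvec v l = z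
  | [], _, _ => ⟨0, funext fun x => x.elim⟩
  | j :: l, h, z => by
    classical
    obtain ⟨u, z, rfl⟩ := vec_surj (a := a j) (b := evL a l) z
    obtain ⟨v, rfl⟩ := lvec_surj l (List.nodup_cons.mp h).2 z
    refine ⟨Function.update v j u, ?_⟩
    change vec _ _ = vec _ _
    rw [Function.update_self, lvec_congr l (fun i hi => Function.update_of_ne
      (fun hij : i = j => (List.nodup_cons.mp h).1 (hij ▸ hi)) _ _)]

theorem act_mapL_mk {a b : ι → O} (f : ∀ i, OH (a i).El (b i).El) (v : ∀ i, (a i).El → ℝ) :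
    ∀ l : List ι, act (mapL (fun i => mk (f i)) l) (lvec v l : OnePoint _) =
      (lvec (fun i => (f i).ap (v i)) l : OnePoint _)
  | [] => act_id _
  | i :: l => by
    refine (act_tensor_vsm (mk (f i)) (mapL (fun i => mk (f i)) l) (v i) (lvec v l)).trans ?_
    rw [act_mapL_mk f v l]
    rfl

theorem mapL_mk_ne_zero {a b : ι → O} (f : ∀ i, OH (a i).El (b i).El) (l : List ι) :
    mapL (fun i => mk (f i)) l ≠ 0 := fun h => by
  have := act_mapL_mk f 0 l
  rw [h, act_zero] at this
  exact OnePoint.infty_ne_coe _ this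

instance isEmpty_evL : ∀ l : List ι, IsEmpty (evL (fun _ : ι => 𝟙_ O) l).El
  | [] => inferInstanceAs (IsEmpty Empty)
  | _ :: l => @instIsEmptySum _ _ (inferInstanceAs (IsEmpty Empty)) (isEmpty_evL l)

variable [Finite ι] [Finite κ]

instance : IsEmpty (big (fun _ : ι => 𝟙_ O)).El := isEmpty_evL _

/-- the vector of `big a` with given components -/
noncomputable def bvec {a : ι → O} (v : ∀ i, (a i).El → ℝ) : (big a).El → ℝ := lvec v (enum ι)

theorem bvec_injective {a : ι → O} : Function.Injective (bvec (a := a)) :=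
  fun _ _ h => funext fun i => lvec_inj _ h i (A.mem_enum i)

theorem bvec_surjective {a : ι → O} : Function.Surjective (bvec (a := a)) :=
  lvec_surj _ (A.nodup_enum ι)

/-- `bvec` as a linear equivalence -/
noncomputable def bvecEquiv (a : ι → O) : (∀ i, (a i).El → ℝ) ≃ₗ[ℝ] ((big a).El → ℝ) :=
  LinearEquiv.ofBijective
    ({ toFun := bvec
       map_add' := fun u v => lvec_add u v _
       map_smul' := fun r v => lvec_smul r v _ } :
      (∀ i, (a i).El → ℝ) →ₗ[ℝ] ((big a).El → ℝ)) ⟨bvec_injective, bvec_surjective⟩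

@[simp] theorem bvecEquiv_apply {a : ι → O} (v : ∀ i, (a i).El → ℝ) : bvecEquiv a v = bvec v := rfl

/-- the components of a vector of `big a` -/
noncomputable def bproj {a : ι → O} (z : (big a).El → ℝ) : ∀ i, (a i).El → ℝ :=
  (bvecEquiv a).symm z

@[simp] theorem bproj_bvec {a : ι → O} (v : ∀ i, (a i).El → ℝ) : bproj (bvec v) = v :=
  (bvecEquiv a).symm_apply_apply v

@[simp] theorem bvec_bproj {a : ι → O} (z : (big a).El → ℝ) : bvec (bproj z) = z :=
  (bvecEquiv a).apply_symm_apply z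

theorem bvec_add {a : ι → O} (u v : ∀ i, (a i).El → ℝ) : bvec (u + v) = bvec u + bvec v :=
  lvec_add u v _

theorem bvec_smul {a : ι → O} (r : ℝ) (v : ∀ i, (a i).El → ℝ) : bvec (r • v) = r • bvec v :=
  lvec_smul r v _

@[simp] theorem bvec_zero {a : ι → O} : bvec (0 : ∀ i, (a i).El → ℝ) = 0 :=
  (bvecEquiv a).map_zero

theorem bvec_dot [Fintype ι] {a : ι → O} (u v : ∀ i, (a i).El → ℝ) :
    bvec u ⬝ᵥ bvec v = ∑ i, u i ⬝ᵥ v i := by
  refine (lvec_dot u v _).trans ?_
  rw [A.enum, Finset.sum_map_toList]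
  congr 1
  exact congrArg (fun h : Fintype ι => @Finset.univ ι h) (Subsingleton.elim _ _)

@[fun_prop] theorem continuous_bvec {a : ι → O} : Continuous (bvec (a := a)) :=
  haveI := Fintype.ofFinite ι
  LinearMap.continuous_of_finiteDimensional (bvecEquiv a).toLinearMap

@[fun_prop] theorem continuous_bproj {a : ι → O} : Continuous (bproj (a := a)) :=
  LinearMap.continuous_of_finiteDimensional (bvecEquiv a).symm.toLinearMap

/-- `bvec` as a homeomorphism -/
noncomputable def bvecHomeo (a : ι → O) : (∀ i, (a i).El → ℝ) ≃ₜ ((big a).El → ℝ) where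
  toFun := bvec
  invFun := bproj
  left_inv := bproj_bvec
  right_inv := bvec_bproj
  continuous_toFun := continuous_bvec
  continuous_invFun := continuous_bproj

theorem mk_ext_big {a : ι → O} {f g : OH (big a).El c.El}
    (h : ∀ v, f.ap (bvec v) = g.ap (bvec v)) : mk f = mk g := mk_ext fun v => by
  obtain ⟨v, rfl⟩ := bvec_surjective v
  exact h v

theorem act_bigMap_mk {a b : ι → O} (f : ∀ i, OH (a i).El (b i).El) (v : ∀ i, (a i).El → ℝ) :
    act (bigMap (fun i => mk (f i))) (bvec v : OnePoint _) =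
      (bvec (fun i => (f i).ap (v i)) : OnePoint _) := act_mapL_mk f v _

theorem bigMap_mk_ne_zero {a b : ι → O} (f : ∀ i, OH (a i).El (b i).El) :
    bigMap (fun i => mk (f i)) ≠ 0 := mapL_mk_ne_zero f _

/-- the direct sum of a finite family of affine isometric embeddings -/
noncomputable def bigOH {a b : ι → O} (f : ∀ i, OH (a i).El (b i).El) :
    OH (big a).El (big b).El := (exists_mk_of_ne_zero (bigMap_mk_ne_zero f)).choose

theorem bigMap_mk {a b : ι → O} (f : ∀ i, OH (a i).El (b i).El) :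
    bigMap (fun i => mk (f i)) = mk (bigOH f) :=
  (exists_mk_of_ne_zero (bigMap_mk_ne_zero f)).choose_spec

@[simp] theorem bigOH_ap {a b : ι → O} (f : ∀ i, OH (a i).El (b i).El) (v : ∀ i, (a i).El → ℝ) :
    (bigOH f).ap (bvec v) = bvec (fun i => (f i).ap (v i)) := by
  have := act_bigMap_mk f v
  rw [bigMap_mk, act_mk_coe] at this
  exact OnePoint.coe_injective this

theorem spt_bvec {a : ι → O} (v : ∀ i, (a i).El → ℝ) :
    spt (bvec v : OnePoint _) = spt ((0 : (big (fun _ : ι => 𝟙_ O)).El → ℝ) : OnePoint _) ≫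
      bigMap (fun i => spt (a := a i) (OnePoint.some (v i))) := by
  rw [spt_comp]
  congr 1
  have := act_bigMap_mk (a := fun _ : ι => 𝟙_ O) (fun i => OH.pt (v i)) 0
  rw [bvec_zero] at this
  refine Eq.trans ?_ this.symm
  simp

theorem spt_comp_of_isEmpty {a b : O} [IsEmpty b.El] (u : a.El → ℝ) (f : a ⟶ b) [IsIso f] :
    spt (u : OnePoint _) ≫ f = spt ((0 : b.El → ℝ) : OnePoint _) :=
  eq_of_isEmpty (comp_ne_zero (mk_ne_zero _) (ne_zero_of_isIso f)) (mk_ne_zero _)

theorem act_bigEquiv (e : ι ≃ κ) (a : κ → O) (v : ∀ k, (a k).El → ℝ) :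
    act (bigEquiv e a).hom (bvec (a := fun i => a (e i)) (fun i => v (e i)) : OnePoint _) =
      (bvec v : OnePoint _) := by
  apply spt_injective
  rw [← spt_comp, spt_bvec, spt_bvec v, Category.assoc]
  have := A.bigMap_bigEquiv e (X := fun _ => 𝟙_ O) (Y := a) (fun k => spt (OnePoint.some (v k)))
  rw [this, ← Category.assoc, spt_comp_of_isEmpty]

theorem isoOH_bigEquiv_ap (e : ι ≃ κ) (a : κ → O) (v : ∀ k, (a k).El → ℝ) :
    (isoOH (bigEquiv e a).hom).ap (bvec (a := fun i => a (e i)) (fun i => v (e i))) = bvec v :=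
  (isoOH_ap_eq_iff _).mpr (act_bigEquiv e a v)

instance {a b : O} [IsEmpty a.El] [IsEmpty b.El] : IsEmpty (a ⊗ b).El :=
  inferInstanceAs (IsEmpty (a.El ⊕ b.El))

theorem act_bigSum (a : ι ⊕ κ → O) (v : ∀ k, (a k).El → ℝ) :
    act (bigSum a).hom (bvec v : OnePoint _) =
      (vec (bvec (a := fun i => a (Sum.inl i)) (fun i => v (Sum.inl i)))
        (bvec (a := fun i => a (Sum.inr i)) (fun i => v (Sum.inr i))) : OnePoint _) := by
  apply spt_injective
  rw [← spt_comp, spt_bvec, Category.assoc]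
  have := A.bigMap_bigSum (X := fun _ => 𝟙_ O) (Y := a) (fun k => spt (OnePoint.some (v k)))
  rw [this, ← Category.assoc, spt_comp_of_isEmpty, ← vec_zero, ← vsm_coe, ← smp_spt, EF.smp_comp,
    ← spt_bvec, ← spt_bvec, smp_spt, vsm_coe]

theorem act_bigOption (a : Option ι → O) (v : ∀ k, (a k).El → ℝ) :
    act (bigOption a).hom (bvec v : OnePoint _) =
      OnePoint.some (vec (v none)
        (bvec (a := fun i => a (Option.some i)) (fun i => v (Option.some i)))) := by
  apply spt_injective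
  rw [← spt_comp, spt_bvec, Category.assoc]
  have := A.bigMap_bigOption (X := fun _ => 𝟙_ O) (Y := a) (fun k => spt (OnePoint.some (v k)))
  rw [this, ← Category.assoc, spt_comp_of_isEmpty, ← vec_zero, ← vsm_coe, ← smp_spt, EF.smp_comp,
    ← spt_bvec, ← id_unit_eq, Category.id_comp, smp_spt, vsm_coe]

theorem act_bigUnique [Subsingleton ι] (a : ι → O) (i : ι) (v : ∀ k, (a k).El → ℝ) :
    act (bigUnique a i).hom (bvec v : OnePoint _) = (v i : OnePoint _) := by
  apply spt_injective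
  rw [← spt_comp, spt_bvec, Category.assoc]
  have := A.bigMap_bigUnique (X := fun _ => 𝟙_ O) (Y := a) (fun k => spt (OnePoint.some (v k))) i
  rw [this, ← Category.assoc, spt_comp_of_isEmpty, ← id_unit_eq, Category.id_comp]

end O

end Vale.Agent.P257.D
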