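import Vale.Agent.P257.D.Res
import Vale.Agent.P257.D.OBig
import Mathlib.Algebra.Order.Hom.Monoid

/-!
# P257, design D: functors between graded index categories

* `Gr.proj : Gr J Λ ⥤ J` (strict braided monoidal), `Gr.inc l : J ⥤ Gr J Λ` (`inc 0` braided
  monoidal);
* `Gr.mapO Φ φ` for a monotone `φ`, `Gr.map Φ φ` for an ordered monoid map `φ` (lax braided if
  `Φ` is); `Gr.mapNat`: natural transformations;
* degrees of `A.big`.
-/

open CategoryTheory MonoidalCategory Topology OnePoint Limits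

namespace Vale.Agent.P257.D

open Vale.Agent.P251.H (CH PQ)
open Vale.Agent.P257.A (evL big)

namespace Gr

set_option linter.unusedSectionVars false

variable {J J' : Type} [Idx J] [Idx J'] {Λ Λ' : Type} [AddCommMonoid Λ] [Preorder Λ]
  [IsOrderedAddMonoid Λ] [AddCommMonoid Λ'] [Preorder Λ'] [IsOrderedAddMonoid Λ']

variable (J Λ) in
/-- forgetting the degree -/
@[simps] def proj : Gr J Λ ⥤ J where
  obj x := x.ob
  map f := f.hom

instance : IdxFun (proj J Λ) where
  map_zero _ _ := rfl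
  map_plot h := h

instance : (proj J Λ).Faithful where
  map_injective h := hom_ext h

variable (J Λ) in
/-- the monoidal structure of `proj` -/
def projCore : (proj J Λ).CoreMonoidal where
  εIso := Iso.refl _
  μIso _ _ := Iso.refl _
  μIso_hom_natural_left f z := Functor.LaxMonoidal.μ_natural_left (𝟭 J) f.hom z.ob
  μIso_hom_natural_right z f := Functor.LaxMonoidal.μ_natural_right (𝟭 J) z.ob f.hom
  associativity x y z := Functor.LaxMonoidal.associativity (𝟭 J) x.ob y.ob z.ob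
  left_unitality x := Functor.LaxMonoidal.left_unitality (𝟭 J) x.ob
  right_unitality x := Functor.LaxMonoidal.right_unitality (𝟭 J) x.ob

instance : (proj J Λ).Monoidal := (projCore J Λ).toMonoidal

@[simp] theorem proj_μ (x y : Gr J Λ) : Functor.LaxMonoidal.μ (proj J Λ) x y = 𝟙 _ := rfl
@[simp] theorem proj_ε : Functor.LaxMonoidal.ε (proj J Λ) = 𝟙 _ := rfl
@[simp] theorem proj_δ (x y : Gr J Λ) : Functor.OplaxMonoidal.δ (proj J Λ) x y = 𝟙 _ := rfl
@[simp] theorem proj_η : Functor.OplaxMonoidal.η (proj J Λ) = 𝟙 _ := rfl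

instance : (proj J Λ).Braided where
  braided x y := Functor.LaxBraided.braided (F := 𝟭 J) x.ob y.ob

variable (J) in
/-- the inclusion in degree `l` -/
@[simps] def inc (l : Λ) : J ⥤ Gr J Λ where
  obj c := ⟨c, l⟩
  map f := homMk f le_rfl

instance (l : Λ) : IdxFun (inc J l) where
  map_zero _ _ := rfl
  map_plot h := h

variable (J) in
/-- raising the degree -/
@[simps] def incLe {l m : Λ} (h : l ≤ m) : inc J l ⟶ inc J m where
  app c := homMk (𝟙 c) h
  naturality _ _ f := hom_ext ((Category.comp_id f).trans (Category.id_comp f).symm)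

variable (J Λ) in
/-- the monoidal structure of `inc 0` -/
def incCore : (inc J (0 : Λ)).CoreMonoidal where
  εIso := Iso.refl _
  μIso a b := isoMk (Iso.refl (a ⊗ b)) (add_zero (0 : Λ))
  μIso_hom_natural_left f c := hom_ext (Functor.LaxMonoidal.μ_natural_left (𝟭 J) f c)
  μIso_hom_natural_right c f := hom_ext (Functor.LaxMonoidal.μ_natural_right (𝟭 J) c f)
  associativity a b c := hom_ext (Functor.LaxMonoidal.associativity (𝟭 J) a b c)
  left_unitality a := hom_ext (Functor.LaxMonoidal.left_unitality (𝟭 J) a)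
  right_unitality a := hom_ext (Functor.LaxMonoidal.right_unitality (𝟭 J) a)

instance : (inc J (0 : Λ)).Monoidal := (incCore J Λ).toMonoidal

@[simp] theorem inc_μ_hom (a b : J) :
    (Functor.LaxMonoidal.μ (inc J (0 : Λ)) a b).hom = 𝟙 (a ⊗ b) := rfl
@[simp] theorem inc_ε : Functor.LaxMonoidal.ε (inc J (0 : Λ)) = 𝟙 _ := rfl
@[simp] theorem inc_δ_hom (a b : J) :
    (Functor.OplaxMonoidal.δ (inc J (0 : Λ)) a b).hom = 𝟙 (a ⊗ b) := rfl
@[simp] theorem inc_η : Functor.OplaxMonoidal.η (inc J (0 : Λ)) = 𝟙 _ := rfl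

instance : (inc J (0 : Λ)).Braided where
  braided x y := hom_ext (Functor.LaxBraided.braided (F := 𝟭 J) x y)

/-- the functor induced by a functor of levels and a monotone map of degrees -/
@[simps obj] def mapO (Φ : J ⥤ J') [IdxFun Φ] (φ : Λ →o Λ') : Gr J Λ ⥤ Gr J' Λ' where
  obj x := ⟨Φ.obj x.ob, φ x.deg⟩
  map f := ⟨Φ.map f.hom, by
    rcases f.cond with h | h
    · left; rw [h]; exact IdxFun.map_zero _ _
    · exact Or.inr (φ.monotone h)⟩
  map_id x := hom_ext (Φ.map_id _)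
  map_comp f g := hom_ext (Φ.map_comp _ _)

@[simp] theorem mapO_map_hom (Φ : J ⥤ J') [IdxFun Φ] (φ : Λ →o Λ') {x y : Gr J Λ} (f : x ⟶ y) :
    ((mapO Φ φ).map f).hom = Φ.map f.hom := rfl

instance (Φ : J ⥤ J') [IdxFun Φ] (φ : Λ →o Λ') : IdxFun (mapO Φ φ) where
  map_zero _ _ := hom_ext (IdxFun.map_zero _ _)
  map_plot h := IdxFun.map_plot (Φ := Φ) h

/-- natural transformations between the functors `mapO` -/
@[simps] def mapONat {Φ Ψ : J ⥤ J'} [IdxFun Φ] [IdxFun Ψ] (η : Φ ⟶ Ψ) {φ ψ : Λ →o Λ'}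
    (h : ∀ l, φ l ≤ ψ l) : mapO Φ φ ⟶ mapO Ψ ψ where
  app x := homMk (η.app x.ob) (h x.deg)
  naturality _ _ f := hom_ext (η.naturality f.hom)

/-- the functor induced by a functor of levels and an ordered monoid map of degrees -/
@[simps obj] def map (Φ : J ⥤ J') [IdxFun Φ] (φ : Λ →+o Λ') : Gr J Λ ⥤ Gr J' Λ' where
  obj x := ⟨Φ.obj x.ob, φ x.deg⟩
  map f := ⟨Φ.map f.hom, by
    rcases f.cond with h | h
    · left; rw [h]; exact IdxFun.map_zero _ _
    · exact Or.inr (φ.monotone' h)⟩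
  map_id x := hom_ext (Φ.map_id _)
  map_comp f g := hom_ext (Φ.map_comp _ _)

section map

variable (Φ : J ⥤ J') [IdxFun Φ] (φ : Λ →+o Λ')

@[simp] theorem map_map_hom {x y : Gr J Λ} (f : x ⟶ y) :
    ((map Φ φ).map f).hom = Φ.map f.hom := rfl

instance : IdxFun (map Φ φ) where
  map_zero _ _ := hom_ext (IdxFun.map_zero _ _)
  map_plot h := IdxFun.map_plot (Φ := Φ) h

open Functor.LaxMonoidal

instance [Φ.LaxMonoidal] : (map Φ φ).LaxMonoidal where
  ε := homMk (ε Φ) (map_zero φ).ge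
  μ x y := homMk (μ Φ x.ob y.ob) (map_add φ x.deg y.deg).ge
  μ_natural_left f z := hom_ext (μ_natural_left Φ f.hom z.ob)
  μ_natural_right z f := hom_ext (μ_natural_right Φ z.ob f.hom)
  associativity x y z := hom_ext (associativity Φ x.ob y.ob z.ob)
  left_unitality x := hom_ext (left_unitality Φ x.ob)
  right_unitality x := hom_ext (right_unitality Φ x.ob)

@[simp] theorem map_ε_hom [Φ.LaxMonoidal] : (ε (map Φ φ)).hom = ε Φ := rfl

@[simp] theorem map_μ_hom [Φ.LaxMonoidal] (x y : Gr J Λ) :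
    (μ (map Φ φ) x y).hom = μ Φ x.ob y.ob := rfl

instance [Φ.LaxBraided] : (map Φ φ).LaxBraided where
  braided x y := hom_ext (Functor.LaxBraided.braided (F := Φ) x.ob y.ob)

end map

/-- natural transformations between the functors `map` -/
@[simps] def mapNat {Φ Ψ : J ⥤ J'} [IdxFun Φ] [IdxFun Ψ] (η : Φ ⟶ Ψ) {φ ψ : Λ →+o Λ'}
    (h : ∀ l, φ l ≤ ψ l) : map Φ φ ⟶ map Ψ ψ where
  app x := homMk (η.app x.ob) (h x.deg)
  naturality _ _ f := hom_ext (η.naturality f.hom)

instance {Φ Ψ : J ⥤ J'} [IdxFun Φ] [IdxFun Ψ] [Φ.LaxMonoidal] [Ψ.LaxMonoidal] (η : Φ ⟶ Ψ)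
    [η.IsMonoidal] {φ ψ : Λ →+o Λ'} (h : ∀ l, φ l ≤ ψ l) : (mapNat η h).IsMonoidal where
  unit := hom_ext (NatTrans.IsMonoidal.unit (τ := η))
  tensor x y := hom_ext (NatTrans.IsMonoidal.tensor (τ := η) x.ob y.ob)

section big

variable {ι : Type}

theorem evL_ob (x : ι → Gr J Λ) : ∀ l : List ι, (evL x l).ob = evL (fun i => (x i).ob) l
  | [] => rfl
  | i :: l => congrArg ((x i).ob ⊗ ·) (evL_ob x l)

theorem evL_deg (x : ι → Gr J Λ) : ∀ l : List ι, (evL x l).deg = (l.map (fun i => (x i).deg)).sum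
  | [] => rfl
  | i :: l => by
    rw [List.map_cons, List.sum_cons, ← evL_deg x l]; rfl

theorem big_ob [Finite ι] (x : ι → Gr J Λ) : (big x).ob = big (fun i => (x i).ob) := evL_ob x _

theorem big_deg [Fintype ι] (x : ι → Gr J Λ) : (big x).deg = ∑ i, (x i).deg := by
  refine (evL_deg x _).trans ?_
  rw [A.enum, Finset.sum_map_toList]
  congr 1
  exact congrArg (fun h : Fintype ι => @Finset.univ ι h) (Subsingleton.elim _ _)

end big

end Gr

instance {J J' : Type} [Idx J] [Idx J'] {Φ Ψ : J ⥤ J'} [IdxFun Φ] [IdxFun Ψ] [Φ.LaxMonoidal]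
    [Ψ.LaxMonoidal] (η : Φ ⟶ Ψ) [η.IsMonoidal] : (EF.resMap η).IsMonoidal where
  unit := by
    apply EF.rep_hom_ext
    rw [EF.fn_comp, EF.res_ε, EF.res_ε, EF.fn_resEps, EF.fn_resEps, EF.fn_resMap]
    congr 1
    refine (EF.rep_act _ _).trans ?_
    rw [Φ.map_id, Ψ.map_id, Category.comp_id, Category.comp_id, NatTrans.IsMonoidal.unit]
  tensor X Y := by
    apply EF.tensor_ext; intro a b x y
    obtain ⟨x, rfl⟩ := EF.ri_surjective x
    obtain ⟨y, rfl⟩ := EF.ri_surjective y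
    rw [EF.fn_comp, EF.fn_comp, EF.res_μ, EF.res_μ, EF.fn_resMu, EF.fn_resMap, EF.tensorHom_tm,
      EF.fn_resMap, EF.fn_resMap, EF.fn_resMu, ← EF.act_tm, ← EF.act_comp, ← EF.act_comp,
      NatTrans.IsMonoidal.tensor]

end Vale.Agent.P257.D
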