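import Vale.Agent.P257.D.GrFun

/-!
# P257, design D: monoidal structures on `Gr.map` and `Gr.mapO`

* `Gr.map Φ φ` is strong (braided) monoidal if `Φ` is;
* `Gr.mapO Φ φ` is lax (braided) monoidal if `Φ` is and `φ` is superadditive (`SupAdd φ`);
* `Gr.natMk`: natural transformations between functors to `Gr J Λ`.
-/

open CategoryTheory MonoidalCategory Limits Functor.LaxMonoidal Functor.OplaxMonoidal

namespace Vale.Agent.P257.D

namespace Gr

set_option linter.unusedSectionVars false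

variable {J J' : Type} [Idx J] [Idx J'] {Λ Λ' : Type} [AddCommMonoid Λ] [Preorder Λ]
  [IsOrderedAddMonoid Λ] [AddCommMonoid Λ'] [Preorder Λ'] [IsOrderedAddMonoid Λ']

section map

variable (Φ : J ⥤ J') [IdxFun Φ] (φ : Λ →+o Λ')

instance [Φ.Monoidal] : (map Φ φ).Monoidal where
  η := homMk (η Φ) (map_zero φ).le
  δ x y := homMk (δ Φ x.ob y.ob) (map_add φ x.deg y.deg).le
  δ_natural_left f z := hom_ext (δ_natural_left Φ f.hom z.ob)
  δ_natural_right z f := hom_ext (δ_natural_right Φ z.ob f.hom)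
  oplax_associativity x y z := hom_ext (Functor.OplaxMonoidal.associativity Φ x.ob y.ob z.ob)
  oplax_left_unitality x := hom_ext (Functor.OplaxMonoidal.left_unitality Φ x.ob)
  oplax_right_unitality x := hom_ext (Functor.OplaxMonoidal.right_unitality Φ x.ob)
  η_ε := hom_ext (Functor.Monoidal.η_ε Φ)
  ε_η := hom_ext (Functor.Monoidal.ε_η Φ)
  μ_δ x y := hom_ext (Functor.Monoidal.μ_δ Φ x.ob y.ob)
  δ_μ x y := hom_ext (Functor.Monoidal.δ_μ Φ x.ob y.ob)

@[simp] theorem map_η_hom [Φ.Monoidal] : (η (map Φ φ)).hom = η Φ := rfl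

@[simp] theorem map_δ_hom [Φ.Monoidal] (x y : Gr J Λ) :
    (δ (map Φ φ) x y).hom = δ Φ x.ob y.ob := rfl

instance [Φ.Braided] : (map Φ φ).Braided where
  braided x y := hom_ext (Functor.LaxBraided.braided (F := Φ) x.ob y.ob)

end map

/-- superadditive monotone maps -/
class SupAdd (φ : Λ →o Λ') : Prop where
  zero_le : 0 ≤ φ 0
  add_le : ∀ a b, φ a + φ b ≤ φ (a + b)

section mapO

variable (Φ : J ⥤ J') [IdxFun Φ] (φ : Λ →o Λ') [SupAdd φ]

instance [Φ.LaxMonoidal] : (mapO Φ φ).LaxMonoidal where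
  ε := homMk (ε Φ) SupAdd.zero_le
  μ x y := homMk (μ Φ x.ob y.ob) (SupAdd.add_le x.deg y.deg)
  μ_natural_left f z := hom_ext (μ_natural_left Φ f.hom z.ob)
  μ_natural_right z f := hom_ext (μ_natural_right Φ z.ob f.hom)
  associativity x y z := hom_ext (Functor.LaxMonoidal.associativity Φ x.ob y.ob z.ob)
  left_unitality x := hom_ext (Functor.LaxMonoidal.left_unitality Φ x.ob)
  right_unitality x := hom_ext (Functor.LaxMonoidal.right_unitality Φ x.ob)

@[simp] theorem mapO_ε_hom [Φ.LaxMonoidal] : (ε (mapO Φ φ)).hom = ε Φ := rfl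

@[simp] theorem mapO_μ_hom [Φ.LaxMonoidal] (x y : Gr J Λ) :
    (μ (mapO Φ φ) x y).hom = μ Φ x.ob y.ob := rfl

instance [Φ.LaxBraided] : (mapO Φ φ).LaxBraided where
  braided x y := hom_ext (Functor.LaxBraided.braided (F := Φ) x.ob y.ob)

end mapO

section natMk

universe v u

variable {C : Type u} [Category.{v} C] {F F' : C ⥤ Gr J Λ}

/-- natural transformations between functors to a graded index category -/
@[simps] def natMk (τ : F ⋙ proj J Λ ⟶ F' ⋙ proj J Λ) (h : ∀ c, (F.obj c).deg ≤ (F'.obj c).deg) :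
    F ⟶ F' where
  app c := homMk (τ.app c) (h c)
  naturality _ _ f := hom_ext (τ.naturality f)

instance [MonoidalCategory C] [F.LaxMonoidal] [F'.LaxMonoidal]
    (τ : F ⋙ proj J Λ ⟶ F' ⋙ proj J Λ) [τ.IsMonoidal]
    (h : ∀ c, (F.obj c).deg ≤ (F'.obj c).deg) : (natMk τ h).IsMonoidal where
  unit := hom_ext (by
    have := NatTrans.IsMonoidal.unit (τ := τ)
    change (𝟙 (𝟙_ J) ≫ (ε F).hom) ≫ _ = 𝟙 (𝟙_ J) ≫ (ε F').hom at this
    erw [Category.id_comp, Category.id_comp] at this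
    exact this)
  tensor x y := hom_ext (by
    have := NatTrans.IsMonoidal.tensor (τ := τ) x y
    change (𝟙 _ ≫ (μ F x y).hom) ≫ _ = _ ≫ 𝟙 _ ≫ (μ F' x y).hom at this
    erw [Category.id_comp, Category.id_comp] at this
    exact this)

end natMk

theorem isIso_of_hom {x y : Gr J Λ} (f : x ⟶ y) [IsIso f.hom] (h : y.deg ≤ x.deg) : IsIso f :=
  ⟨homMk (inv f.hom) h, hom_ext (IsIso.hom_inv_id f.hom), hom_ext (IsIso.inv_hom_id f.hom)⟩

end Gr

end Vale.Agent.P257.D
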