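import Vale.Agent.P251.H.CF

/-!
# P257, design D: index categories

`Idx J`: a small symmetric monoidal category with zero morphisms, together with a notion of
continuous family (`plot`) of morphisms indexed by a compact Hausdorff space; this is a small
symmetric monoidal category enriched in pointed quasi-topological spaces.
-/

open CategoryTheory MonoidalCategory Topology OnePoint

namespace Vale.Agent.P257.D

open Vale.Agent.P251.H (CH PQ)

/-- An index category. -/
class Idx (J : Type) extends Category.{0} J, MonoidalCategory J, SymmetricCategory J,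
    Limits.HasZeroMorphisms J where
  /-- continuous families of morphisms -/
  plot : ∀ (K : CH) {a b : J}, (K → (a ⟶ b)) → Prop
  plot_const : ∀ (K : CH) {a b : J} (w : a ⟶ b), plot K (fun _ => w)
  plot_pre : ∀ {K L : CH} {a b : J} (g : L → K), Continuous g → ∀ {w : K → (a ⟶ b)},
    plot K w → plot L (fun l => w (g l))
  plot_sum : ∀ {K L : CH} {a b : J} {w : K ⊕ L → (a ⟶ b)}, plot K (fun k => w (Sum.inl k)) →
    plot L (fun l => w (Sum.inr l)) → plot (CH.sum K L) w
  plot_surj : ∀ {K L : CH} {a b : J} (g : L → K), Continuous g → Function.Surjective g →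
    ∀ {w : K → (a ⟶ b)}, plot L (fun l => w (g l)) → plot K w
  plot_comp : ∀ {K : CH} {a b c : J} {w : K → (a ⟶ b)} {v : K → (b ⟶ c)}, plot K w → plot K v →
    plot K (fun k => w k ≫ v k)
  plot_tensorHom : ∀ {K : CH} {a b c d : J} {w : K → (a ⟶ b)} {v : K → (c ⟶ d)}, plot K w →
    plot K v → plot K (fun k => w k ⊗ₘ v k)
  zero_tensorHom : ∀ {a b c d : J} (g : c ⟶ d), (0 : a ⟶ b) ⊗ₘ g = 0
  tensorHom_zero : ∀ {a b c d : J} (f : a ⟶ b), f ⊗ₘ (0 : c ⟶ d) = 0

namespace Idx

variable {J : Type} [Idx J]

attribute [simp] zero_tensorHom tensorHom_zero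

@[simp] theorem zero_whiskerRight (a b c : J) : (0 : a ⟶ b) ▷ c = 0 := by
  rw [← tensorHom_id, zero_tensorHom]

@[simp] theorem whiskerLeft_zero (a b c : J) : a ◁ (0 : b ⟶ c) = 0 := by
  rw [← id_tensorHom, tensorHom_zero]

variable {K : CH} {a b : J}

theorem plot_whiskerRight {w : K → (a ⟶ b)} (hw : plot K w) (c : J) :
    plot K (fun k => w k ▷ c) := by
  simp_rw [← tensorHom_id]
  exact plot_tensorHom hw (plot_const K _)

theorem plot_whiskerLeft {w : K → (a ⟶ b)} (hw : plot K w) (c : J) :
    plot K (fun k => c ◁ w k) := by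
  simp_rw [← id_tensorHom]
  exact plot_tensorHom (plot_const K _) hw

end Idx

end Vale.Agent.P257.D
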