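import Vale.Agent.P257.D.GrFun

/-!
# P257, design D: left Kan extension along functors of index categories

`EF.lan Φ : EF J ⥤ EF J'` is left adjoint to the restriction `EF.res Φ` (`EF.lanAdj`).  Its value
at `d` consists of the classes `lr w x`, `w : Φ a ⟶ d`, `x` a point of `X a`; the generators are
`li Φ x = lr (𝟙 _) x`.  It is strong (braided) monoidal when `Φ` is.
-/

open CategoryTheory MonoidalCategory Topology OnePoint Limits

namespace Vale.Agent.P257.D

open Vale.Agent.P251.H (CH PQ NonBase toQ ofQ toQ_infty toQ_coe ofQ_base toQ_ofQ ofQ_toQ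
  ofQ_surjective ofQ_injective ofQ_eq_infty)

section natmon

open Functor.LaxMonoidal Functor.OplaxMonoidal

universe v₁ u₁ v₂ u₂

variable {C : Type u₁} [Category.{v₁} C] [MonoidalCategory C] {D : Type u₂} [Category.{v₂} D]
  [MonoidalCategory D] {Φ Ψ : C ⥤ D} [Φ.Monoidal] [Ψ.Monoidal] (θ : Φ ⟶ Ψ) [θ.IsMonoidal]

@[reassoc]
theorem app_η : θ.app (𝟙_ C) ≫ η Ψ = η Φ := by
  rw [← cancel_epi (ε Φ), NatTrans.IsMonoidal.unit_assoc, Functor.Monoidal.ε_η,
    Functor.Monoidal.ε_η]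

@[reassoc]
theorem app_δ (a b : C) : θ.app (a ⊗ b) ≫ δ Ψ a b = δ Φ a b ≫ (θ.app a ⊗ₘ θ.app b) := by
  rw [← cancel_epi (μ Φ a b), NatTrans.IsMonoidal.tensor_assoc, Functor.Monoidal.μ_δ,
    Functor.Monoidal.μ_δ_assoc, Category.comp_id]

end natmon

namespace EF

variable {J J' J'' : Type} [Idx J] [Idx J'] [Idx J'']

section raw

variable (Φ : J ⥤ J')

/-- Representatives of points of the left Kan extension. -/
structure LanRaw (X : EF J) (d : J') where
  /-- the index -/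
  a : J
  /-- the morphism -/
  w : Φ.obj a ⟶ d
  /-- the point -/
  x : OnePoint (X.obj a)

/-- The relation defining the left Kan extension. -/
inductive LanRel (X : EF J) (d : J') : LanRaw Φ X d → LanRaw Φ X d → Prop
  | nat {a a' : J} (u : a ⟶ a') (w : Φ.obj a' ⟶ d) (x : OnePoint (X.obj a)) :
      LanRel X d ⟨a, Φ.map u ≫ w, x⟩ ⟨a', w, X.act u x⟩
  | base {a a' : J} (w : Φ.obj a ⟶ d) (w' : Φ.obj a' ⟶ d) : LanRel X d ⟨a, w, ∞⟩ ⟨a', w', ∞⟩
  | zero {a : J} (x : OnePoint (X.obj a)) : LanRel X d ⟨a, 0, x⟩ ⟨a, 0, ∞⟩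

/-- The pointed set of the left Kan extension. -/
def LanQ (X : EF J) (d : J') : Type := Quot (LanRel Φ X d)

variable {Φ}

/-- the class of a representative -/
def LanQ.mk {X : EF J} {a : J} {d : J'} (w : Φ.obj a ⟶ d) (x : OnePoint (X.obj a)) :
    LanQ Φ X d := Quot.mk _ ⟨a, w, x⟩

variable (Φ)

/-- the base point -/
def LanQ.base (X : EF J) (d : J') : LanQ Φ X d := LanQ.mk (a := 𝟙_ J) 0 ∞

/-- The value of the left Kan extension at `d`. -/
noncomputable def lanObj (X : EF J) (d : J') : PQ :=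
  P251.H.PQ.ptd (LanQ Φ X d) (LanQ.base Φ X d) (fun K f =>
    ∃ (a : J) (w : K → (Φ.obj a ⟶ d)) (x : K → OnePoint (X.obj a)),
      Idx.plot K w ∧ (X.obj a).plot K x ∧ f = fun k => LanQ.mk (w k) (x k))

variable {Φ}

/-- The point `[w; x]` of the left Kan extension. -/
noncomputable def lr {X : EF J} {a : J} {d : J'} (w : Φ.obj a ⟶ d) (x : OnePoint (X.obj a)) :
    OnePoint (lanObj Φ X d) := ofQ (LanQ.base Φ X d) (LanQ.mk w x)

variable {X : EF J} {a a' : J} {d : J'}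

theorem lr_nat (u : a ⟶ a') (w : Φ.obj a' ⟶ d) (x : OnePoint (X.obj a)) :
    lr (Φ.map u ≫ w) x = lr w (X.act u x) :=
  congrArg (ofQ (LanQ.base Φ X d)) (Quot.sound (LanRel.nat u w x))

@[simp] theorem lr_infty (w : Φ.obj a ⟶ d) : lr w (∞ : OnePoint (X.obj a)) = ∞ :=
  ofQ_eq_infty.mpr (Quot.sound (LanRel.base w 0))

@[simp] theorem lr_zero (x : OnePoint (X.obj a)) : lr (0 : Φ.obj a ⟶ d) x = ∞ :=
  ofQ_eq_infty.mpr ((Quot.sound (LanRel.zero x)).trans (Quot.sound (LanRel.base 0 0)))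

theorem exists_lr (z : OnePoint (lanObj Φ X d)) :
    ∃ (a : J) (w : Φ.obj a ⟶ d) (x : OnePoint (X.obj a)), z = lr w x := by
  obtain ⟨q, rfl⟩ := ofQ_surjective (LanQ.base Φ X d) z
  obtain ⟨⟨a, w, x⟩, rfl⟩ := Quot.exists_rep q
  exact ⟨a, w, x, rfl⟩

theorem lr_plot {K : CH} {w : K → (Φ.obj a ⟶ d)} {x : K → OnePoint (X.obj a)}
    (hw : Idx.plot K w) (hx : (X.obj a).plot K x) :
    (lanObj Φ X d).plot K (fun k => lr (w k) (x k)) :=
  P251.H.PQ.ptd_plot (G := fun K f => ∃ (a : J) (w : K → (Φ.obj a ⟶ d))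
    (x : K → OnePoint (X.obj a)), Idx.plot K w ∧ (X.obj a).plot K x ∧
      f = fun k => LanQ.mk (w k) (x k)) ⟨a, w, x, hw, hx, rfl⟩

variable (Φ) in
/-- Compatible families: the data needed to define a function out of the Kan extension. -/
structure LanFam (X : EF J) (d : J') (P : Type) (p₀ : P) where
  /-- the value on `[w; x]` -/
  F : ∀ {a : J}, (Φ.obj a ⟶ d) → OnePoint (X.obj a) → P
  h1 : ∀ {a : J} (w : Φ.obj a ⟶ d), F w (∞ : OnePoint (X.obj a)) = p₀
  h2 : ∀ {a : J} (x : OnePoint (X.obj a)), F (0 : Φ.obj a ⟶ d) x = p₀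
  h3 : ∀ {a a' : J} (u : a ⟶ a') (w : Φ.obj a' ⟶ d) (x : OnePoint (X.obj a)),
      F (Φ.map u ≫ w) x = F w (X.act u x)

section elim

variable {P : Type} {p₀ : P} (T : LanFam Φ X d P p₀)

/-- Functions out of the pointed set of the Kan extension. -/
def LanQ.lift : LanQ Φ X d → P :=
  Quot.lift (fun r : LanRaw Φ X d => T.F r.w r.x) (by
    rintro _ _ (⟨u, w, x⟩ | ⟨w, w'⟩ | ⟨x⟩)
    · exact T.h3 u w x
    · exact (T.h1 w).trans (T.h1 w').symm
    · exact (T.h2 x).trans (T.h1 0).symm)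

/-- Functions out of the Kan extension at the level of points. -/
def lanElim (z : OnePoint (lanObj Φ X d)) : P := LanQ.lift T (toQ (LanQ.base Φ X d) z)

@[simp] theorem lanElim_lr (w : Φ.obj a ⟶ d) (x : OnePoint (X.obj a)) :
    lanElim T (lr w x) = T.F w x := by
  unfold lanElim lr
  rw [toQ_ofQ]
  rfl

@[simp] theorem lanElim_infty : lanElim T ∞ = p₀ := by
  rw [← lr_infty (a := 𝟙_ J) (0 : Φ.obj (𝟙_ J) ⟶ d), lanElim_lr]
  exact T.h1 _

end elim

/-- Plots of the Kan extension may be tested on the generating ones. -/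
theorem lan_plot {W : PQ} (F : OnePoint (lanObj Φ X d) → OnePoint W)
    (h : ∀ (K : CH) (a : J) (w : K → (Φ.obj a ⟶ d)) (x : K → OnePoint (X.obj a)),
      Idx.plot K w → (X.obj a).plot K x → W.plot K (fun k => F (lr (w k) (x k))))
    {K : CH} {z : K → OnePoint (lanObj Φ X d)} (hz : (lanObj Φ X d).plot K z) :
    W.plot K (fun k => F (z k)) := by
  refine PQ.gen_plot_map (Y := W) F ?_ hz
  rintro K f ⟨g, ⟨a, w, x, hw, hx, rfl⟩, rfl⟩
  exact h K a w x hw hx

/-- Plots of the Kan extension may be tested on the generating ones, jointly with a parameter. -/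
theorem lan_plot_left {W : PQ} {P : Type} (F : OnePoint (lanObj Φ X d) → P → OnePoint W)
    (PP : ∀ K : CH, (K → P) → Prop)
    (hPP : ∀ {K L : CH} (g : L → K) (p : K → P), Continuous g → PP K p → PP L (fun l => p (g l)))
    (h : ∀ (K : CH) (a : J) (w : K → (Φ.obj a ⟶ d)) (x : K → OnePoint (X.obj a)) (p : K → P),
      Idx.plot K w → (X.obj a).plot K x → PP K p →
        W.plot K (fun k => F (lr (w k) (x k)) (p k)))
    {K : CH} {z : K → OnePoint (lanObj Φ X d)} (hz : (lanObj Φ X d).plot K z) {p : K → P}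
    (hp : PP K p) : W.plot K (fun k => F (z k) (p k)) := by
  have key := PQ.gen_prod_left (Y := W) K (fun z k => F z (p k)) (fun z => by
      obtain ⟨a, w, x, rfl⟩ := exists_lr z
      exact h K a (fun _ => w) (fun _ => x) p (Idx.plot_const K w)
        ((X.obj a).plot_const K x) hp) (by
      rintro K' f ⟨g, ⟨a, w, x, hw, hx, rfl⟩, rfl⟩
      exact h (CH.prod K' K) a (fun q => w q.1) (fun q => x q.1)
        (fun q => p q.2) (Idx.plot_pre (K := K') (L := CH.prod K' K) _ continuous_fst hw)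
        ((X.obj a).plot_comp (L := CH.prod K' K) _ x continuous_fst hx)
        (hPP (K := K) (L := CH.prod K' K) _ p continuous_snd hp)) hz
  exact W.plot_comp (K := CH.prod K K) (L := K) (fun k => (k, k)) _ (by fun_prop) key

/-- the action on points of the Kan extension -/
noncomputable def lanAct {c d : J'} (v : c ⟶ d) :
    OnePoint (lanObj Φ X c) → OnePoint (lanObj Φ X d) :=
  lanElim (p₀ := ∞)
    { F := fun w x => lr (w ≫ v) x
      h1 := fun _ => lr_infty _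
      h2 := fun x => by rw [zero_comp, lr_zero]
      h3 := fun u w x => by rw [Category.assoc, lr_nat] }

@[simp] theorem lanAct_lr {c d : J'} (v : c ⟶ d) (w : Φ.obj a ⟶ c) (x : OnePoint (X.obj a)) :
    lanAct v (lr w x) = lr (w ≫ v) x := lanElim_lr _ _ _

@[simp] theorem lanAct_infty {c d : J'} (v : c ⟶ d) :
    lanAct v (∞ : OnePoint (lanObj Φ X c)) = ∞ := lanElim_infty _

theorem lanAct_plot {c d : J'} {K : CH} {v : K → (c ⟶ d)}
    {z : K → OnePoint (lanObj Φ X c)} (hv : Idx.plot K v) (hz : (lanObj Φ X c).plot K z) :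
    (lanObj Φ X d).plot K (fun k => lanAct (v k) (z k)) := by
  refine lan_plot_left (W := lanObj Φ X d) (fun z v => lanAct v z)
    (fun K (v : K → (c ⟶ d)) => Idx.plot K v) (fun g p hg hp => Idx.plot_pre g hg hp)
    ?_ hz hv
  intro K a w x v hw hx hv
  simp_rw [lanAct_lr]
  exact lr_plot (Idx.plot_comp hw hv) hx

variable (Φ) in
/-- The left Kan extension of a continuous functor. -/
noncomputable def lanO (X : EF J) : EF J' where
  obj := lanObj Φ X
  map v := ⟨lanAct v, lanAct_infty v, fun _ _ hz => lanAct_plot (Idx.plot_const _ v) hz⟩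
  map_id c := PQ.hom_ext' (fun z => by
    obtain ⟨a, w, x, rfl⟩ := exists_lr z
    exact (lanAct_lr _ _ _).trans (by rw [Category.comp_id]; rfl))
  map_comp f g := PQ.hom_ext' (fun z => by
    obtain ⟨a, w, x, rfl⟩ := exists_lr z
    change lanAct (f ≫ g) (lr w x) = lanAct g (lanAct f (lr w x))
    rw [lanAct_lr, lanAct_lr, lanAct_lr, Category.assoc])
  map_zero c d := PQ.hom_ext' (fun z => by
    obtain ⟨a, w, x, rfl⟩ := exists_lr z
    exact (lanAct_lr _ _ _).trans (by rw [Limits.comp_zero, lr_zero]; rfl))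
  map_plot K w x hw hx := lanAct_plot hw hx

theorem lanO_act_lr {c : J'} (v : c ⟶ d) (w : Φ.obj a ⟶ c) (x : OnePoint (X.obj a)) :
    (lanO Φ X).act v (lr w x) = lr (w ≫ v) x := lanAct_lr _ _ _

variable [IdxFun Φ]

/-- The morphism out of the Kan extension given by a morphism to the restriction. -/
noncomputable def lanODesc {Y : EF J'} (f : X ⟶ (res Φ).obj Y) : lanO Φ X ⟶ Y :=
  homMk (X := lanO Φ X) (fun d => lanElim (p₀ := ∞)
      { F := fun w x => Y.act w (unri (fn f x))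
        h1 := fun w => by rw [fn_infty, unri_infty, act_infty]
        h2 := fun x => act_zero _ _
        h3 := fun u w x => by rw [fn_act, unri_act, act_comp] })
    (fun d => lanElim_infty _)
    (fun d K z hz => lan_plot (W := Y.obj d) _ (fun K a w x hw hx => by
      simp_rw [lanElim_lr]
      exact Y.act_plot hw (unri_plot (fn_plot f hx))) hz)
    (fun {c d} v z => by
      obtain ⟨a, w, x, rfl⟩ := exists_lr z
      rw [lanO_act_lr, lanElim_lr, lanElim_lr]
      exact Y.act_comp _ _ _)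

theorem fn_lanODesc {Y : EF J'} (f : X ⟶ (res Φ).obj Y) (w : Φ.obj a ⟶ d)
    (x : OnePoint (X.obj a)) : fn (lanODesc f) (lr w x) = Y.act w (unri (fn f x)) :=
  lanElim_lr _ _ _

variable (Φ) in
/-- the unit of the adjunction -/
noncomputable def lanOUnit (X : EF J) : X ⟶ (res Φ).obj (lanO Φ X) :=
  homMk (fun a x => ri Φ (X := lanO Φ X) (lr (𝟙 _) x))
    (fun a => by rw [lr_infty]; rfl)
    (fun a K x hx => ri_plot (X := lanO Φ X) (lr_plot (Idx.plot_const K _) hx))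
    (fun {a b} w x => by
      refine congrArg (ri Φ (X := lanO Φ X)) (Eq.trans ?_ (lanO_act_lr _ _ x).symm)
      rw [← lr_nat, Category.comp_id, Category.id_comp])

end raw

variable (Φ : J ⥤ J') [IdxFun Φ]

/-- The left Kan extension along a continuous functor. -/
noncomputable def lan : EF J ⥤ EF J' where
  obj X := lanO Φ X
  map {_ Y} f := lanODesc (f ≫ lanOUnit Φ Y)
  map_id X := hom_ext fun d z => by
    obtain ⟨a, w, x, rfl⟩ := exists_lr z
    refine (fn_lanODesc _ w x).trans ?_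
    refine (lanO_act_lr w (𝟙 _) x).trans ?_
    rw [Category.id_comp]; rfl
  map_comp {X Y Z} f g := hom_ext fun d z => by
    obtain ⟨a, w, x, rfl⟩ := exists_lr z
    refine (fn_lanODesc _ w x).trans (Eq.trans ?_
      (congrArg (fn (lanODesc (g ≫ lanOUnit Φ Z))) (fn_lanODesc (f ≫ lanOUnit Φ Y) w x)).symm)
    rw [fn_act]
    congr 1
    exact ((fn_lanODesc (g ≫ lanOUnit Φ Z) (𝟙 _) (fn f x)).trans (act_id _ _)).symm

section pts

variable {X Y : EF J} {Z : EF J'} {a b : J} {d : J'}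

/-- The generators of the Kan extension. -/
noncomputable def li (x : OnePoint (X.obj a)) : OnePoint (((lan Φ).obj X).obj (Φ.obj a)) :=
  lr (𝟙 _) x

@[simp] theorem li_infty : li Φ (∞ : OnePoint (X.obj a)) = ∞ := lr_infty _

theorem act_li (u : a ⟶ b) (x : OnePoint (X.obj a)) :
    ((lan Φ).obj X).act (Φ.map u) (li Φ x) = li Φ (X.act u x) := by
  refine (lanO_act_lr _ _ x).trans ?_
  rw [Category.id_comp, ← Category.comp_id (Φ.map u), lr_nat]; rfl

theorem li_plot {K : CH} {x : K → OnePoint (X.obj a)} (hx : (X.obj a).plot K x) :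
    (((lan Φ).obj X).obj (Φ.obj a)).plot K (fun k => li Φ (x k)) :=
  lr_plot (Idx.plot_const K _) hx

variable {Φ}

theorem act_li_eq (w : Φ.obj a ⟶ d) (x : OnePoint (X.obj a)) :
    ((lan Φ).obj X).act w (li Φ x) = lr w x := by
  refine (lanO_act_lr _ _ x).trans ?_
  rw [Category.id_comp]

theorem exists_li (z : OnePoint (((lan Φ).obj X).obj d)) :
    ∃ (a : J) (w : Φ.obj a ⟶ d) (x : OnePoint (X.obj a)),
      z = ((lan Φ).obj X).act w (li Φ x) := by
  obtain ⟨a, w, x, rfl⟩ := exists_lr z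
  exact ⟨a, w, x, (act_li_eq w x).symm⟩

theorem fn_lan_map (f : X ⟶ Y) (x : OnePoint (X.obj a)) :
    fn ((lan Φ).map f) (li Φ x) = li Φ (fn f x) :=
  (fn_lanODesc _ _ x).trans (act_id _ _)

/-- Morphisms out of the Kan extension are determined on generators. -/
theorem lan_ext {f g : (lan Φ).obj X ⟶ Z}
    (h : ∀ (a : J) (x : OnePoint (X.obj a)), fn f (li Φ x) = fn g (li Φ x)) : f = g := by
  apply hom_ext
  intro d z
  obtain ⟨a, w, x, rfl⟩ := exists_li z
  rw [fn_act, fn_act, h]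

/-- The morphism out of the Kan extension given by a morphism to the restriction. -/
noncomputable def lanDesc (f : X ⟶ (res Φ).obj Z) : (lan Φ).obj X ⟶ Z := lanODesc f

@[simp] theorem fn_lanDesc (f : X ⟶ (res Φ).obj Z) (x : OnePoint (X.obj a)) :
    fn (lanDesc f) (li Φ x) = unri (fn f x) := (fn_lanODesc f _ x).trans (act_id _ _)

/-- Morphisms out of the Kan extension, from functions on generators. -/
noncomputable def lanMk (F : ∀ a, OnePoint (X.obj a) → OnePoint (Z.obj (Φ.obj a)))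
    (h0 : ∀ a, F a ∞ = ∞)
    (hp : ∀ (a : J) (K : CH) (x : K → OnePoint (X.obj a)), (X.obj a).plot K x →
      (Z.obj (Φ.obj a)).plot K (fun k => F a (x k)))
    (hn : ∀ {a b : J} (w : a ⟶ b) (x : OnePoint (X.obj a)),
      F b (X.act w x) = Z.act (Φ.map w) (F a x)) : (lan Φ).obj X ⟶ Z :=
  lanDesc (homMk (Y := (res Φ).obj Z) F h0 hp hn)

@[simp] theorem fn_lanMk (F : ∀ a, OnePoint (X.obj a) → OnePoint (Z.obj (Φ.obj a)))
    (h0 : ∀ a, F a ∞ = ∞)
    (hp : ∀ (a : J) (K : CH) (x : K → OnePoint (X.obj a)), (X.obj a).plot K x →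
      (Z.obj (Φ.obj a)).plot K (fun k => F a (x k)))
    (hn : ∀ {a b : J} (w : a ⟶ b) (x : OnePoint (X.obj a)),
      F b (X.act w x) = Z.act (Φ.map w) (F a x)) (x : OnePoint (X.obj a)) :
    fn (lanMk F h0 hp hn) (li Φ x) = F a x := fn_lanDesc _ x

end pts

/-- the unit of the adjunction -/
noncomputable def lanUnit (X : EF J) : X ⟶ (res Φ).obj ((lan Φ).obj X) := lanOUnit Φ X

@[simp] theorem fn_lanUnit {X : EF J} {a : J} (x : OnePoint (X.obj a)) :
    fn (lanUnit Φ X) x = ri Φ (li Φ x) := rfl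

/-- The Kan extension is left adjoint to the restriction. -/
noncomputable def lanAdj : lan Φ ⊣ res Φ where
  unit :=
    { app := lanUnit Φ
      naturality := fun X Y f => hom_ext fun a x =>
        congrArg (ri Φ) (fn_lan_map (Φ := Φ) f x).symm }
  counit :=
    { app := fun Z => lanDesc (𝟙 ((res Φ).obj Z))
      naturality := fun Z W f => lan_ext fun a x => by
        change fn (lanDesc (𝟙 _)) (fn ((lan Φ).map ((res Φ).map f)) (li Φ x)) =
          fn f (fn (lanDesc (𝟙 _)) (li Φ x))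
        rw [fn_lan_map, fn_lanDesc, fn_lanDesc]
        rfl }
  left_triangle_components X := lan_ext fun a x => by
    change fn (lanDesc (𝟙 _)) (fn ((lan Φ).map (lanUnit Φ X)) (li Φ x)) = li Φ x
    rw [fn_lan_map, fn_lanDesc]
    rfl
  right_triangle_components Z := hom_ext fun a x =>
    congrArg (ri Φ) (fn_lanDesc (𝟙 ((res Φ).obj Z)) x)

theorem lanAdj_unit_app (X : EF J) : (lanAdj Φ).unit.app X = lanUnit Φ X := rfl

theorem lanAdj_counit_app (Z : EF J') :
    (lanAdj Φ).counit.app Z = lanDesc (𝟙 ((res Φ).obj Z)) := rfl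

theorem fn_lanAdj_counit {Z : EF J'} {a : J} (x : OnePoint (Z.obj (Φ.obj a))) :
    fn ((lanAdj Φ).counit.app Z) (li Φ (ri Φ x)) = x := fn_lanDesc _ _

theorem lanAdj_homEquiv_symm {X : EF J} {Z : EF J'} (f : X ⟶ (res Φ).obj Z) :
    ((lanAdj Φ).homEquiv X Z).symm f = lanDesc f := lan_ext fun a x => by
  rw [Adjunction.homEquiv_counit, fn_comp, fn_lan_map, fn_lanDesc]
  exact fn_lanDesc _ _

theorem fn_lanAdj_homEquiv {X : EF J} {Z : EF J'} (f : (lan Φ).obj X ⟶ Z) {a : J}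
    (x : OnePoint (X.obj a)) : fn ((lanAdj Φ).homEquiv X Z f) x = ri Φ (fn f (li Φ x)) := rfl

instance : (lan Φ).IsLeftAdjoint := (lanAdj Φ).isLeftAdjoint

instance : (res Φ).IsRightAdjoint := (lanAdj Φ).isRightAdjoint

instance : PreservesColimitsOfSize.{0, 0} (lan Φ) := (lanAdj Φ).leftAdjoint_preservesColimits

instance : (lan Φ).PreservesZeroMorphisms where
  map_zero _ _ := lan_ext fun a x => by rw [fn_lan_map, fn_zero, li_infty, fn_zero]

/-- A natural transformation induces a transformation of Kan extensions (contravariantly). -/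
noncomputable def lanMap {Φ Ψ : J ⥤ J'} [IdxFun Φ] [IdxFun Ψ] (η : Φ ⟶ Ψ) : lan Ψ ⟶ lan Φ where
  app X := lanDesc (lanUnit Φ X ≫ (resMap η).app _)
  naturality X Y f := lan_ext fun a x => by
    rw [fn_comp, fn_comp, fn_lan_map, fn_lanDesc, fn_lanDesc, fn_comp, fn_comp, fn_lanUnit,
      fn_lanUnit, fn_resMap, fn_resMap, unri_ri, unri_ri, fn_act, fn_lan_map]

theorem fn_lanMap {Φ Ψ : J ⥤ J'} [IdxFun Φ] [IdxFun Ψ] (η : Φ ⟶ Ψ) {X : EF J} {a : J}
    (x : OnePoint (X.obj a)) :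
    fn ((lanMap η).app X) (li Ψ x) = ((lan Φ).obj X).act (η.app a) (li Φ x) :=
  fn_lanDesc _ x

theorem lanMap_id : lanMap (𝟙 Φ) = 𝟙 (lan Φ) := by
  ext X
  exact lan_ext fun a x => (fn_lanMap _ x).trans (act_id _ _)

theorem lanMap_comp {Φ Ψ Θ : J ⥤ J'} [IdxFun Φ] [IdxFun Ψ] [IdxFun Θ] (η : Φ ⟶ Ψ) (θ : Ψ ⟶ Θ) :
    lanMap (η ≫ θ) = lanMap θ ≫ lanMap η := by
  ext X
  refine lan_ext fun a x => ?_
  rw [NatTrans.comp_app, fn_comp, fn_lanMap, fn_lanMap, fn_act, fn_lanMap, NatTrans.comp_app,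
    act_comp]

/-- The Kan extension of a representable functor. -/
noncomputable def lanRep (c : J) : (lan Φ).obj (rep c) ≅ rep (Φ.obj c) where
  hom := lanDesc (yo (X := (res Φ).obj (rep (Φ.obj c))) (ri Φ (pr (𝟙 _))))
  inv := yo (li Φ (pr (𝟙 c)))
  hom_inv_id := lan_ext fun a x => by
    obtain ⟨u, rfl⟩ := pr_surjective x
    rw [fn_comp, fn_lanDesc, fn_yo_pr, act_ri, unri_ri, rep_act, Category.id_comp, fn_yo_pr,
      act_li, rep_act, Category.id_comp, fn_id]
  inv_hom_id := rep_hom_ext (by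
    rw [fn_comp, fn_yo_pr, act_id, fn_lanDesc, fn_yo_pr, act_id, unri_ri, fn_id])

theorem fn_lanRep_hom {c a : J} (u : c ⟶ a) :
    fn (lanRep Φ c).hom (li Φ (pr u)) = pr (Φ.map u) := by
  refine (fn_lanDesc _ _).trans ?_
  rw [fn_yo_pr, act_ri, unri_ri, rep_act, Category.id_comp]

theorem fn_lanRep_inv {c : J} {d : J'} (w : Φ.obj c ⟶ d) :
    fn (lanRep Φ c).inv (pr w) = ((lan Φ).obj (rep c)).act w (li Φ (pr (𝟙 c))) := fn_yo_pr _ _

@[reassoc]
theorem lan_map_repMap {c c' : J} (u : c ⟶ c') :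
    (lan Φ).map (repMap u) ≫ (lanRep Φ c).hom = (lanRep Φ c').hom ≫ repMap (Φ.map u) :=
  lan_ext fun a x => by
    obtain ⟨v, rfl⟩ := pr_surjective x
    rw [fn_comp, fn_comp, fn_lan_map, fn_repMap_pr, fn_lanRep_hom, fn_lanRep_hom, fn_repMap_pr,
      Φ.map_comp]

@[reassoc]
theorem lanMap_lanRep {Φ Ψ : J ⥤ J'} [IdxFun Φ] [IdxFun Ψ] (η : Φ ⟶ Ψ) (c : J) :
    (lanMap η).app (rep c) ≫ (lanRep Φ c).hom = (lanRep Ψ c).hom ≫ repMap (η.app c) :=
  lan_ext fun a x => by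
    obtain ⟨v, rfl⟩ := pr_surjective x
    rw [fn_comp, fn_comp, fn_lanMap, fn_act, fn_lanRep_hom, fn_lanRep_hom, fn_repMap_pr, rep_act,
      η.naturality]

/-- the Kan extension along the identity -/
noncomputable def lanId : lan (𝟭 J) ≅ 𝟭 (EF J) :=
  NatIso.ofComponents (fun X =>
    { hom := lanDesc (𝟙 X)
      inv := lanUnit (𝟭 J) X
      hom_inv_id := lan_ext fun a x =>
        congrArg (fn (lanUnit (𝟭 J) X)) (fn_lanDesc (Φ := 𝟭 J) (𝟙 X) x)
      inv_hom_id := hom_ext fun a x => fn_lanDesc (Φ := 𝟭 J) (𝟙 X) x })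
    (fun {X Y} f => lan_ext fun a x => by
      change fn (lanDesc (Φ := 𝟭 J) (𝟙 Y)) (fn ((lan (𝟭 J)).map f) (li (𝟭 J) x)) =
        fn f (fn (lanDesc (Φ := 𝟭 J) (𝟙 X)) (li (𝟭 J) x))
      rw [fn_lan_map]
      exact (fn_lanDesc (Φ := 𝟭 J) (𝟙 Y) _).trans
        (congrArg (fn f) (fn_lanDesc (Φ := 𝟭 J) (𝟙 X) x)).symm)

section mon

open Functor.LaxMonoidal Functor.OplaxMonoidal

section lanMu

variable [Φ.OplaxMonoidal] {X Y : EF J}

/-- the inner family for the tensorator -/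
noncomputable def lanMuIn {a : J} {c : J'} (w : Φ.obj a ⟶ c) (x : OnePoint (X.obj a)) (d : J') :
    LanFam Φ Y d (OnePoint (((lan Φ).obj (X ⊗ Y)).obj (c ⊗ d))) ∞ where
  F {b} v y := ((lan Φ).obj (X ⊗ Y)).act (δ Φ a b ≫ (w ⊗ₘ v)) (li Φ (tm x y))
  h1 v := by rw [tm_infty_right, li_infty, act_infty]
  h2 y := by rw [Idx.tensorHom_zero, comp_zero, act_zero]
  h3 u v y := by
    rw [← act_tm_right, ← act_li, ← act_comp, ← δ_natural_right_assoc, ← id_tensorHom,
      tensorHom_comp_tensorHom, Category.id_comp]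

/-- the outer family for the tensorator -/
noncomputable def lanMuOut (c : J') {d : J'} (q : OnePoint (lanObj Φ Y d)) :
    LanFam Φ X c (OnePoint (((lan Φ).obj (X ⊗ Y)).obj (c ⊗ d))) ∞ where
  F {a} w x := lanElim (lanMuIn Φ w x d) q
  h1 w := by
    obtain ⟨b, v, y, rfl⟩ := exists_lr q
    rw [lanElim_lr]
    change ((lan Φ).obj (X ⊗ Y)).act _ (li Φ (tm ∞ y)) = ∞
    rw [tm_infty_left, li_infty, act_infty]
  h2 x := by
    obtain ⟨b, v, y, rfl⟩ := exists_lr q
    rw [lanElim_lr]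
    change ((lan Φ).obj (X ⊗ Y)).act (_ ≫ (0 ⊗ₘ v)) _ = ∞
    rw [Idx.zero_tensorHom, comp_zero, act_zero]
  h3 u w x := by
    obtain ⟨b, v, y, rfl⟩ := exists_lr q
    rw [lanElim_lr, lanElim_lr]
    change ((lan Φ).obj (X ⊗ Y)).act (_ ≫ ((Φ.map u ≫ w) ⊗ₘ v)) (li Φ (tm x y)) =
      ((lan Φ).obj (X ⊗ Y)).act (_ ≫ (w ⊗ₘ v)) (li Φ (tm (X.act u x) y))
    rw [← act_tm_left, ← act_li, ← act_comp, ← δ_natural_left_assoc, ← tensorHom_id,
      tensorHom_comp_tensorHom, Category.id_comp]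

theorem lanMuOut_lr {a b : J} {c d : J'} (w : Φ.obj a ⟶ c) (x : OnePoint (X.obj a))
    (v : Φ.obj b ⟶ d) (y : OnePoint (Y.obj b)) :
    lanElim (lanMuOut Φ c (lr v y)) (lr w x) =
      ((lan Φ).obj (X ⊗ Y)).act (δ Φ a b ≫ (w ⊗ₘ v)) (li Φ (tm x y)) :=
  (lanElim_lr _ w x).trans (lanElim_lr _ v y)

variable (X Y)

/-- the tensorator of the Kan extension -/
noncomputable def lanMu : (lan Φ).obj X ⊗ (lan Φ).obj Y ⟶ (lan Φ).obj (X ⊗ Y) :=
  tensorDesc
    { toFun := fun {c d} p q => lanElim (lanMuOut Φ c q) p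
      infty_left := fun q => lanElim_infty _
      infty_right := fun {c d} p => by
        obtain ⟨a, w, x, rfl⟩ := exists_lr p
        exact (lanElim_lr _ w x).trans (lanElim_infty (lanMuIn Φ w x d))
      nat := fun {c d c' d'} u v p q => by
        obtain ⟨a, w, x, rfl⟩ := exists_lr p
        obtain ⟨b, w', y, rfl⟩ := exists_lr q
        erw [lanO_act_lr, lanO_act_lr]
        rw [lanMuOut_lr, lanMuOut_lr, ← act_comp, Category.assoc, tensorHom_comp_tensorHom]
      plot := fun {c d K p q} hp hq => by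
        refine lan_plot_left (W := ((lan Φ).obj (X ⊗ Y)).obj (c ⊗ d))
          (fun p q => lanElim (lanMuOut Φ c q) p)
          (fun K (q : K → OnePoint (lanObj Φ Y d)) => (lanObj Φ Y d).plot K q)
          (fun g p hg hp => (lanObj Φ Y d).plot_comp g p hg hp) ?_ hp hq
        intro K a w x q hw hx hq
        refine lan_plot_left (W := ((lan Φ).obj (X ⊗ Y)).obj (c ⊗ d))
          (fun q (r : (Φ.obj a ⟶ c) × OnePoint (X.obj a)) =>
            lanElim (lanMuOut Φ c q) (lr r.1 r.2))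
          (fun K r => Idx.plot K (fun k => (r k).1) ∧ (X.obj a).plot K (fun k => (r k).2))
          (fun g r hg hr => ⟨Idx.plot_pre g hg hr.1, (X.obj a).plot_comp g _ hg hr.2⟩) ?_ hq
          (p := fun k => (w k, x k)) ⟨hw, hx⟩
        intro K b v y r hv hy hr
        simp_rw [lanMuOut_lr]
        exact act_plot _ (Idx.plot_comp (Idx.plot_const K _) (Idx.plot_tensorHom hr.1 hv))
          (li_plot Φ (tm_plot hr.2 hy)) }

variable {X Y}

theorem fn_lanMu {a b : J} (x : OnePoint (X.obj a)) (y : OnePoint (Y.obj b)) :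
    fn (lanMu Φ X Y) (tm (li Φ x) (li Φ y)) =
      ((lan Φ).obj (X ⊗ Y)).act (δ Φ a b) (li Φ (tm x y)) := by
  refine (tensorDesc_tm _ _ _).trans ((lanMuOut_lr Φ _ x _ y).trans ?_)
  rw [id_tensorHom_id, Category.comp_id]

/-- the unit of the Kan extension -/
noncomputable def lanEps : 𝟙_ (EF J') ⟶ (lan Φ).obj (𝟙_ (EF J)) :=
  yo (((lan Φ).obj (𝟙_ (EF J))).act (η Φ) (li Φ onePt))

theorem fn_lanEps {d : J'} (w : 𝟙_ J' ⟶ d) :
    fn (lanEps Φ) (pr w) = ((lan Φ).obj (𝟙_ (EF J))).act (η Φ ≫ w) (li Φ onePt) := by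
  refine (fn_yo_pr _ _).trans ?_
  rw [act_comp]

end lanMu

variable {Φ} in
theorem lan_tensor_ext {X Y : EF J} {Z : EF J'} {f g : (lan Φ).obj X ⊗ (lan Φ).obj Y ⟶ Z}
    (h : ∀ (a b : J) (x : OnePoint (X.obj a)) (y : OnePoint (Y.obj b)),
      fn f (tm (li Φ x) (li Φ y)) = fn g (tm (li Φ x) (li Φ y))) : f = g := by
  apply tensor_ext
  intro c d p q
  obtain ⟨a, w, x, rfl⟩ := exists_li p
  obtain ⟨b, v, y, rfl⟩ := exists_li q
  rw [← act_tm, fn_act, fn_act, h]

variable {Φ} in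
theorem lan_ext₂ {X Y : EF J} {Z : EF J'} {f g : (lan Φ).obj (X ⊗ Y) ⟶ Z}
    (h : ∀ (a b : J) (x : OnePoint (X.obj a)) (y : OnePoint (Y.obj b)),
      fn f (li Φ (tm x y)) = fn g (li Φ (tm x y))) : f = g := by
  apply lan_ext
  intro c z
  obtain ⟨a, b, w, x, y, rfl⟩ := exists_tm z
  rw [← act_li, fn_act, fn_act, h]

section lanDel

variable [Φ.LaxMonoidal]

/-- the cotensorator of the Kan extension -/
noncomputable def lanDel (X Y : EF J) : (lan Φ).obj (X ⊗ Y) ⟶ (lan Φ).obj X ⊗ (lan Φ).obj Y :=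
  lanDesc ((lanUnit Φ X ⊗ₘ lanUnit Φ Y) ≫ resMu Φ _ _)

theorem fn_lanDel {X Y : EF J} {a b : J} (x : OnePoint (X.obj a)) (y : OnePoint (Y.obj b)) :
    fn (lanDel Φ X Y) (li Φ (tm x y)) =
      ((lan Φ).obj X ⊗ (lan Φ).obj Y).act (μ Φ a b) (tm (li Φ x) (li Φ y)) := by
  refine (fn_lanDesc _ _).trans ?_
  rw [fn_comp, tensorHom_tm, fn_lanUnit, fn_lanUnit, fn_resMu, unri_ri]

/-- the counit of the Kan extension -/
noncomputable def lanEta : (lan Φ).obj (𝟙_ (EF J)) ⟶ 𝟙_ (EF J') := lanDesc (resEps Φ)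

theorem fn_lanEta {a : J} (u : 𝟙_ J ⟶ a) :
    fn (lanEta Φ) (li Φ (X := 𝟙_ (EF J)) (pr u)) = pr (ε Φ ≫ Φ.map u) := by
  refine (fn_lanDesc _ _).trans ?_
  erw [fn_resEps]
  rfl

end lanDel

variable [Φ.Monoidal]

/-- the monoidal structure of the Kan extension -/
noncomputable def lanCore : (lan Φ).CoreMonoidal where
  εIso :=
    { hom := lanEps Φ
      inv := lanEta Φ
      hom_inv_id := rep_hom_ext (by
        erw [fn_comp, fn_lanEps, fn_act, fn_lanEta, rep_act]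
        simp
        rfl)
      inv_hom_id := lan_ext fun a x => by
        obtain ⟨u, rfl⟩ := pr_surjective x
        erw [fn_comp, fn_lanEta, fn_lanEps]
        rw [Functor.Monoidal.η_ε_assoc, act_li]
        erw [rep_act]
        rw [Category.id_comp, fn_id] }
  μIso X Y :=
    { hom := lanMu Φ X Y
      inv := lanDel Φ X Y
      hom_inv_id := lan_tensor_ext fun a b x y => by
        rw [fn_comp, fn_lanMu, fn_act, fn_lanDel, ← act_comp, Functor.Monoidal.μ_δ, act_id, fn_id]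
      inv_hom_id := lan_ext₂ fun a b x y => by
        rw [fn_comp, fn_lanDel, fn_act, fn_lanMu, ← act_comp, Functor.Monoidal.δ_μ, act_id,
          fn_id] }
  μIso_hom_natural_left f Z := lan_tensor_ext fun a b x y => by
    dsimp only
    rw [fn_comp, fn_comp, whiskerRight_tm, fn_lan_map, fn_lanMu, fn_lanMu, fn_act, fn_lan_map,
      whiskerRight_tm]
  μIso_hom_natural_right Z f := lan_tensor_ext fun a b x y => by
    dsimp only
    rw [fn_comp, fn_comp, whiskerLeft_tm, fn_lan_map, fn_lanMu, fn_lanMu, fn_act, fn_lan_map,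
      whiskerLeft_tm]
  associativity X Y Z := by
    apply tensor_ext₃; intro c d e p q r
    obtain ⟨a, w, x, rfl⟩ := exists_li p
    obtain ⟨b, v, y, rfl⟩ := exists_li q
    obtain ⟨b', t, z, rfl⟩ := exists_li r
    rw [← act_tm, ← act_tm, fn_act, fn_act]
    congr 1
    simp only [fn_comp]
    rw [whiskerRight_tm, fn_lanMu, ← act_tm_left, fn_act, fn_lanMu, fn_act, fn_act, fn_lan_map,
      associator_tm, associator_tm, fn_act, fn_act, whiskerLeft_tm, fn_lanMu, ← act_tm_right,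
      fn_act, fn_lanMu, ← act_li]
    simp only [← act_comp]
    congr 1
    rw [Category.assoc, Category.assoc, Functor.OplaxMonoidal.associativity_inv]
  left_unitality X := by
    apply tensor_ext; intro c d u p
    obtain ⟨a, w, x, rfl⟩ := exists_li p
    obtain ⟨u, rfl⟩ := pr_surjective u
    simp only [fn_comp]
    rw [leftUnitor_tm, whiskerRight_tm]
    erw [fn_lanEps, unpr_pr]
    rw [← act_tm, fn_act, fn_act, fn_lanMu, fn_act, fn_lan_map, leftUnitor_tm, ← act_li]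
    erw [unpr_pr]
    simp only [← act_comp]
    congr 1
    simp only [tensorHom_def, comp_whiskerRight, id_whiskerRight, Category.comp_id, Category.assoc,
      Functor.OplaxMonoidal.left_unitality_assoc, leftUnitor_inv_naturality_assoc,
      whisker_exchange]
  right_unitality X := by
    apply tensor_ext; intro c d p u
    obtain ⟨a, w, x, rfl⟩ := exists_li p
    obtain ⟨u, rfl⟩ := pr_surjective u
    simp only [fn_comp]
    rw [rightUnitor_tm, whiskerLeft_tm]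
    erw [fn_lanEps, unpr_pr]
    rw [← act_tm, fn_act, fn_act, fn_lanMu, fn_act, fn_lan_map, rightUnitor_tm, ← act_li]
    erw [unpr_pr]
    simp only [← act_comp]
    congr 1
    simp only [tensorHom_def', MonoidalCategory.whiskerLeft_comp, MonoidalCategory.whiskerLeft_id,
      Category.comp_id, Category.assoc, Functor.OplaxMonoidal.right_unitality_assoc,
      rightUnitor_inv_naturality_assoc, whisker_exchange]

noncomputable instance : (lan Φ).Monoidal := (lanCore Φ).toMonoidal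

theorem lan_μ (X Y : EF J) : μ (lan Φ) X Y = lanMu Φ X Y := rfl
theorem lan_ε : ε (lan Φ) = lanEps Φ := rfl
theorem lan_δ (X Y : EF J) : δ (lan Φ) X Y = lanDel Φ X Y := rfl
theorem lan_η : η (lan Φ) = lanEta Φ := rfl

instance : (lanAdj Φ).IsMonoidal where
  leftAdjoint_ε := rep_hom_ext (by
    erw [res_ε, fn_resEps, fn_comp, fn_lanUnit, fn_res_map, lan_η, fn_lanEta])
  leftAdjoint_μ X Y := by
    apply tensor_ext; intro a b x y
    obtain ⟨x, rfl⟩ := ri_surjective x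
    obtain ⟨y, rfl⟩ := ri_surjective y
    erw [res_μ, fn_resMu, fn_comp, fn_lanUnit, fn_res_map, fn_comp, lan_δ, fn_lanDel, fn_act,
      tensorHom_tm, fn_lanAdj_counit, fn_lanAdj_counit]
    rfl

instance {Φ Ψ : J ⥤ J'} [IdxFun Φ] [IdxFun Ψ] [Φ.Monoidal] [Ψ.Monoidal] (θ : Φ ⟶ Ψ)
    [θ.IsMonoidal] : (lanMap θ).IsMonoidal where
  unit := rep_hom_ext (by
    erw [fn_comp, lan_ε, fn_lanEps, fn_act, fn_lanMap, lan_ε, fn_lanEps]
    rw [← act_comp, app_η_assoc])
  tensor X Y := lan_tensor_ext fun a b x y => by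
    rw [fn_comp, fn_comp, lan_μ, lan_μ, fn_lanMu, fn_act, fn_lanMap, tensorHom_tm, fn_lanMap,
      fn_lanMap, ← act_tm, fn_act, fn_lanMu, ← act_comp, ← act_comp, app_δ]

end mon

section lanF

open Functor.LaxMonoidal Functor.OplaxMonoidal

variable [Φ.Monoidal]

/-- The Kan extension along a monoidal functor of a free object is free. -/
noncomputable def lanFIso (A : PQ) : (lan Φ).obj ((F J).obj A) ≅ (F J').obj A where
  hom := lanDesc (Fyo (X := (res Φ).obj ((F J').obj A))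
    (Funit A ≫ ((F J').obj A).map (ε Φ)))
  inv := Fyo (Funit A ≫ Hom.app (lanUnit Φ ((F J).obj A)) (𝟙_ J) ≫
    ((lan Φ).obj ((F J).obj A)).map (η Φ))
  hom_inv_id := lan_ext fun a x => by
    obtain ⟨k, x, rfl⟩ := fm_surjective x
    rw [fn_comp, fn_lanDesc, fn_Fyo, unri_act, fn_act]
    change ((lan Φ).obj ((F J).obj A)).act (Φ.map x) (fn (Fyo _)
      (((F J').obj A).act (ε Φ) (fm k (𝟙 _)))) = _
    rw [fn_act, fn_Fyo_id]
    change ((lan Φ).obj ((F J).obj A)).act (Φ.map x) (((lan Φ).obj ((F J).obj A)).act (ε Φ)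
      (((lan Φ).obj ((F J).obj A)).act (η Φ) (li Φ (fm k (𝟙 _))))) = _
    rw [← act_comp (f := η Φ), Functor.Monoidal.η_ε, act_id, act_li, F_act, Category.id_comp,
      fn_id]
  inv_hom_id := F_hom_ext fun k => by
    rw [fn_comp, fn_Fyo_id]
    change fn (lanDesc _) (((lan Φ).obj ((F J).obj A)).act (η Φ) (li Φ (fm k (𝟙 _)))) = _
    rw [fn_act, fn_lanDesc, fn_Fyo_id]
    change ((F J').obj A).act (η Φ) (((F J').obj A).act (ε Φ) (fm k (𝟙 _))) = _
    rw [← act_comp, Functor.Monoidal.ε_η, act_id, fn_id]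

theorem fn_lanFIso_hom {A : PQ} {a : J} (k : OnePoint A) (x : 𝟙_ J ⟶ a) :
    fn (lanFIso Φ A).hom (li Φ (fm k x)) = fm k (ε Φ ≫ Φ.map x) := by
  refine (fn_lanDesc _ _).trans ?_
  rw [fn_Fyo, unri_act]
  change ((F J').obj A).act (Φ.map x) (((F J').obj A).act (ε Φ) (fm k (𝟙 _))) = _
  rw [F_act, F_act, Category.id_comp]

theorem fn_lanFIso_inv {A : PQ} {d : J'} (k : OnePoint A) (x : 𝟙_ J' ⟶ d) :
    fn (lanFIso Φ A).inv (fm k x) =
      ((lan Φ).obj ((F J).obj A)).act (η Φ ≫ x) (li Φ (fm k (𝟙 _))) := by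
  refine (fn_Fyo _ _ _).trans ?_
  rw [act_comp]
  rfl

omit [IdxFun Φ] in
theorem map_smp {a b : J} (x : 𝟙_ J ⟶ a) (y : 𝟙_ J ⟶ b) :
    smp (ε Φ ≫ Φ.map x) (ε Φ ≫ Φ.map y) ≫ μ Φ a b = ε Φ ≫ Φ.map (smp x y) := by
  rw [smp, smp, Category.assoc, ← tensorHom_comp_tensorHom, Category.assoc, μ_natural,
    Φ.map_comp, ← left_unitality_inv_assoc, tensorHom_def', leftUnitor_inv_naturality_assoc,
    Category.assoc]

/-- The Kan extension along a monoidal functor commutes with the free functors. -/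
noncomputable def lanF : F J ⋙ lan Φ ≅ F J' :=
  NatIso.ofComponents (lanFIso Φ) (fun {A B} f => lan_ext fun a x => by
    obtain ⟨k, x, rfl⟩ := fm_surjective x
    change fn (lanFIso Φ B).hom (fn ((lan Φ).map ((F J).map f)) (li Φ (fm k x))) =
      fn ((F J').map f) (fn (lanFIso Φ A).hom (li Φ (fm k x)))
    rw [fn_lan_map, fn_F_map, fn_lanFIso_hom, fn_lanFIso_hom, fn_F_map])

instance : (lanF Φ).hom.IsMonoidal where
  unit := rep_hom_ext (by
    change fn (lanFIso Φ _).hom (fn ((lan Φ).map (epsIso J).hom)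
      (fn (lanEps Φ) (pr (𝟙 _)))) = fn (epsIso J').hom (pr (𝟙 _))
    rw [fn_lanEps, fn_act, fn_act, fn_lan_map]
    erw [fn_epsIso_hom, fn_lanFIso_hom, F_act, fn_epsIso_hom]
    simp)
  tensor A B := lan_tensor_ext fun a b x y => by
    obtain ⟨k, x, rfl⟩ := fm_surjective x
    obtain ⟨l, y, rfl⟩ := fm_surjective y
    change fn (lanFIso Φ _).hom (fn ((lan Φ).map (muHom A B))
      (fn (lanMu Φ _ _) (tm (li Φ (fm k x)) (li Φ (fm l y))))) =
      fn (muHom A B) (fn ((lanFIso Φ A).hom ⊗ₘ (lanFIso Φ B).hom)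
        (tm (li Φ (fm k x)) (li Φ (fm l y))))
    rw [fn_lanMu, fn_act, fn_act, fn_lan_map, fn_muHom, fn_lanFIso_hom, tensorHom_tm,
      fn_lanFIso_hom, fn_lanFIso_hom, fn_muHom, F_act, ← map_smp, Category.assoc,
      Functor.Monoidal.μ_δ, Category.comp_id]

/-- The Kan extension along a monoidal functor of a space. -/
noncomputable def lanJIso (K : P251.G.LC) : (lan Φ).obj ((jC J).obj K) ≅ (jC J').obj K :=
  lanFIso Φ (PQ.LCPQ.obj K)

theorem fn_lanJIso_hom {K : P251.G.LC} {a : J} (k : OnePoint K) (x : 𝟙_ J ⟶ a) :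
    fn (lanJIso Φ K).hom (li Φ (jm k x)) = jm k (ε Φ ≫ Φ.map x) :=
  fn_lanFIso_hom Φ (A := PQ.LCPQ.obj K) k x

theorem fn_lanJIso_inv {K : P251.G.LC} {d : J'} (k : OnePoint K) (x : 𝟙_ J' ⟶ d) :
    fn (lanJIso Φ K).inv (jm k x) =
      ((lan Φ).obj ((jC J).obj K)).act (η Φ ≫ x) (li Φ (jm k (𝟙 _))) :=
  fn_lanFIso_inv Φ (A := PQ.LCPQ.obj K) k x

@[reassoc]
theorem lan_map_lanJIso {K L : P251.G.LC} (f : K ⟶ L) :
    (lan Φ).map ((jC J).map f) ≫ (lanJIso Φ L).hom = (lanJIso Φ K).hom ≫ (jC J').map f :=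
  (lanF Φ).hom.naturality (PQ.LCPQ.map f)

/-- The Kan extension along a monoidal functor commutes with the functors from spaces. -/
noncomputable def lanJ : jC J ⋙ lan Φ ≅ jC J' :=
  NatIso.ofComponents (lanJIso Φ) (fun f => lan_map_lanJIso Φ f)

@[simp] theorem lanJ_hom_app (K : P251.G.LC) : (lanJ Φ).hom.app K = (lanJIso Φ K).hom := rfl

@[simp] theorem lanJ_inv_app (K : P251.G.LC) : (lanJ Φ).inv.app K = (lanJIso Φ K).inv := rfl

@[reassoc]
theorem lanEps_lanJIso :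
    lanEps Φ ≫ (lan Φ).map (ε (jC J)) ≫ (lanJIso Φ (𝟙_ _)).hom = ε (jC J') :=
  rep_hom_ext (by
    change fn (lanJIso Φ _).hom (fn ((lan Φ).map (ε (jC J)))
      (fn (lanEps Φ) (pr (𝟙 _)))) = fn (ε (jC J')) (pr (𝟙 _))
    rw [fn_lanEps, fn_act, fn_act, fn_lan_map]
    erw [fn_ε_jC, fn_lanJIso_hom, jC_act, fn_ε_jC]
    simp
    rfl)

@[reassoc]
theorem lanMu_lanJIso (K L : P251.G.LC) :
    lanMu Φ _ _ ≫ (lan Φ).map (μ (jC J) K L) ≫ (lanJIso Φ (K ⊗ L)).hom =
      ((lanJIso Φ K).hom ⊗ₘ (lanJIso Φ L).hom) ≫ μ (jC J') K L :=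
  lan_tensor_ext fun a b x y => by
    obtain ⟨k, x, rfl⟩ := jm_surjective x
    obtain ⟨l, y, rfl⟩ := jm_surjective y
    simp only [fn_comp]
    rw [fn_lanMu, fn_act, fn_act, fn_lan_map, fn_μ_jC, fn_lanJIso_hom, tensorHom_tm,
      fn_lanJIso_hom, fn_lanJIso_hom, fn_μ_jC, jC_act, ← map_smp, Category.assoc,
      Functor.Monoidal.μ_δ, Category.comp_id]

instance : (lanJ Φ).hom.IsMonoidal where
  unit := (Category.assoc _ _ _).trans (lanEps_lanJIso Φ)
  tensor K L := (Category.assoc _ _ _).trans (lanMu_lanJIso Φ K L)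

@[reassoc]
theorem lanMap_lanJIso {Φ Ψ : J ⥤ J'} [IdxFun Φ] [IdxFun Ψ] [Φ.Monoidal] [Ψ.Monoidal]
    (θ : Φ ⟶ Ψ) [θ.IsMonoidal] (K : P251.G.LC) :
    (lanMap θ).app ((jC J).obj K) ≫ (lanJIso Φ K).hom = (lanJIso Ψ K).hom :=
  lan_ext fun a x => by
    obtain ⟨k, x, rfl⟩ := jm_surjective x
    rw [fn_comp, fn_lanMap, fn_act, fn_lanJIso_hom, fn_lanJIso_hom, jC_act, Category.assoc,
      θ.naturality, NatTrans.IsMonoidal.unit_assoc]

@[reassoc]
theorem lanMu_lanRep (a b : J) :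
    lanMu Φ (rep a) (rep b) ≫ (lan Φ).map (repTensor a b).hom ≫ (lanRep Φ (a ⊗ b)).hom =
      ((lanRep Φ a).hom ⊗ₘ (lanRep Φ b).hom) ≫ (repTensor _ _).hom ≫ repMap (δ Φ a b) := by
  refine lan_tensor_ext fun c d x y => ?_
  obtain ⟨x, rfl⟩ := pr_surjective x
  obtain ⟨y, rfl⟩ := pr_surjective y
  simp only [fn_comp]
  rw [fn_lanMu, fn_act, fn_act, fn_lan_map, fn_repTensor_hom, fn_lanRep_hom, rep_act,
    tensorHom_tm, fn_lanRep_hom, fn_lanRep_hom, fn_repTensor_hom, fn_repMap_pr, δ_natural]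

@[reassoc]
theorem lanEps_lanRep : lanEps Φ ≫ (lanRep Φ (𝟙_ J)).hom = repMap (η Φ) :=
  rep_hom_ext (by
    erw [fn_comp, fn_lanEps, fn_act, fn_lanRep_hom, rep_act, fn_repMap_pr]
    simp)

end lanF

section comp

variable (Ψ : J' ⥤ J'') [IdxFun Ψ]

/-- the Kan extension along a composite -/
noncomputable def lanCompIso (X : EF J) :
    (lan (Φ ⋙ Ψ)).obj X ≅ (lan Ψ).obj ((lan Φ).obj X) where
  hom := lanDesc (lanUnit Φ X ≫ (res Φ).map (lanUnit Ψ _))
  inv := lanDesc (lanDesc (Z := (res Ψ).obj ((lan (Φ ⋙ Ψ)).obj X)) (lanUnit (Φ ⋙ Ψ) X))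
  hom_inv_id := lan_ext fun a x => by
    rw [fn_comp, fn_lanDesc]
    exact (fn_lanDesc _ (li Φ x)).trans
      (fn_lanDesc (Z := (res Ψ).obj ((lan (Φ ⋙ Ψ)).obj X)) (lanUnit (Φ ⋙ Ψ) X) x)
  inv_hom_id := lan_ext fun a z => by
    obtain ⟨b, w, x, rfl⟩ := exists_li z
    rw [← act_li, fn_act, fn_act]
    congr 1
    rw [fn_comp, fn_lanDesc]
    erw [fn_lanDesc]
    exact fn_lanDesc (Φ := Φ ⋙ Ψ) _ x

theorem fn_lanCompIso_hom {X : EF J} {a : J} (x : OnePoint (X.obj a)) :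
    fn (lanCompIso Φ Ψ X).hom (li (Φ ⋙ Ψ) x) = li Ψ (li Φ x) := fn_lanDesc _ x

theorem fn_lanCompIso_inv {X : EF J} {a : J} (x : OnePoint (X.obj a)) :
    fn (lanCompIso Φ Ψ X).inv (li Ψ (li Φ x)) = li (Φ ⋙ Ψ) x :=
  (fn_lanDesc _ (li Φ x)).trans
    (fn_lanDesc (Z := (res Ψ).obj ((lan (Φ ⋙ Ψ)).obj X)) (lanUnit (Φ ⋙ Ψ) X) x)

/-- the Kan extension along a composite -/
noncomputable def lanComp : lan (Φ ⋙ Ψ) ≅ lan Φ ⋙ lan Ψ :=
  NatIso.ofComponents (lanCompIso Φ Ψ) (fun {X Y} f => lan_ext fun a x => by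
    change fn (lanCompIso Φ Ψ Y).hom (fn ((lan (Φ ⋙ Ψ)).map f) (li (Φ ⋙ Ψ) x)) =
      fn ((lan Ψ).map ((lan Φ).map f)) (fn (lanCompIso Φ Ψ X).hom (li (Φ ⋙ Ψ) x))
    rw [fn_lan_map, fn_lanCompIso_hom, fn_lanCompIso_hom, fn_lan_map, fn_lan_map])

end comp

noncomputable instance [Φ.Braided] : (lan Φ).Braided where
  braided X Y := lan_tensor_ext fun a b x y => by
    rw [fn_comp, fn_comp, lan_μ, lan_μ, fn_lanMu, fn_act, fn_lan_map, braiding_tm, braiding_tm,
      fn_act, fn_lanMu, ← act_li, ← act_comp, ← act_comp]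
    congr 1
    simp

end EF

end Vale.Agent.P257.D
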