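import Vale.Agent.P257.D.OH
import Vale.Agent.P257.D.Idx

/-!
# P257, design D: the index category `O` of orthogonal spectra

Objects are codes `a : O` for finite types `a.El`; `a` stands for the inner product space
`a.El → ℝ`.  A morphism `a ⟶ b` is a point of the one-point compactification of
`OH a.El b.El`: either `0` or `O.mk f` with `f` an affine isometric embedding.  The tensor product
is the sum of finite types.
-/

open CategoryTheory MonoidalCategory Topology OnePoint Filter

namespace Vale.Agent.P257.D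

open Vale.Agent.P251.H (CH PQ)
open Vale.Agent.P251.G (LC)
open Vale.Agent.P251.G.LC (smash smash_coe_coe smash_infty_left smash_infty_right)

/-- Codes for finite types. -/
inductive O : Type
  | emp : O
  | pt : O
  | fin (n : ℕ) : O
  | sum (a b : O) : O
  | prod (a b : O) : O

namespace O

/-- the finite type with a given code -/
def El : O → Type
  | emp => Empty
  | pt => Unit
  | fin n => Fin n
  | sum a b => El a ⊕ El b
  | prod a b => El a × El b

instance instFintypeEl : ∀ a : O, Fintype a.El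
  | emp => inferInstanceAs (Fintype Empty)
  | pt => inferInstanceAs (Fintype Unit)
  | fin n => inferInstanceAs (Fintype (Fin n))
  | sum a b => @instFintypeSum _ _ (instFintypeEl a) (instFintypeEl b)
  | prod a b => @instFintypeProd _ _ (instFintypeEl a) (instFintypeEl b)

instance instDecidableEqEl : ∀ a : O, DecidableEq a.El
  | emp => inferInstanceAs (DecidableEq Empty)
  | pt => inferInstanceAs (DecidableEq Unit)
  | fin n => inferInstanceAs (DecidableEq (Fin n))
  | sum a b => @instDecidableEqSum _ _ (instDecidableEqEl a) (instDecidableEqEl b)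
  | prod a b => @instDecidableEqProd _ _ (instDecidableEqEl a) (instDecidableEqEl b)

/-- a code for an arbitrary finite type -/
noncomputable def of (ι : Type) [Finite ι] : O := fin (Nat.card ι)

/-- the elements of `of ι` -/
noncomputable def ofEquiv (ι : Type) [Finite ι] : ι ≃ (of ι).El := Finite.equivFin ι

/-- the space of nonzero morphisms -/
abbrev H (a b : O) : LC := LC.of (OH a.El b.El)

/-- composition as a morphism of `LC` -/
def compLC (a b c : O) : H a b ⊗ H b c ⟶ H a c :=
  LC.ofProper (X := H a b ⊗ H b c) (fun p : OH a.El b.El × OH b.El c.El => p.1.comp p.2)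
    (OH.continuous_comp continuous_fst continuous_snd) OH.tendsto_comp

/-- direct sum as a morphism of `LC` -/
def tensorLC (a b c d : O) : H a b ⊗ H c d ⟶ H (sum a c) (sum b d) :=
  LC.ofProper (X := H a b ⊗ H c d) (Y := H (sum a c) (sum b d))
    (fun p : OH a.El b.El × OH c.El d.El => p.1.tensor p.2)
    (OH.continuous_tensor continuous_fst continuous_snd) OH.tendsto_tensor

instance : CategoryStruct O where
  Hom a b := OnePoint (OH a.El b.El)
  id a := ((OH.ofEquiv (Equiv.refl a.El) : OH a.El a.El) : OnePoint _)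
  comp {a b c} f g := LC.app (compLC a b c) (smash f g)

variable {a b c d : O}

/-- the morphism given by an affine isometric embedding -/
def mk (f : OH a.El b.El) : a ⟶ b := (f : OnePoint (OH a.El b.El))

/-- the zero morphism -/
def zero (a b : O) : a ⟶ b := (∞ : OnePoint (OH a.El b.El))

/-- a morphism as a point of the one-point compactification -/
def toPt (f : a ⟶ b) : OnePoint (OH a.El b.El) := f

/-- a point of the one-point compactification as a morphism -/
def ofPt (f : OnePoint (OH a.El b.El)) : a ⟶ b := f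

@[simp] theorem toPt_ofPt (f : OnePoint (OH a.El b.El)) : toPt (ofPt f) = f := rfl

@[simp] theorem ofPt_toPt (f : a ⟶ b) : ofPt (toPt f) = f := rfl

@[simp] theorem toPt_mk (f : OH a.El b.El) : toPt (mk f) = (f : OnePoint _) := rfl

@[simp] theorem ofPt_coe (f : OH a.El b.El) : ofPt (f : OnePoint _) = mk f := rfl

theorem mk_injective : Function.Injective (mk : OH a.El b.El → (a ⟶ b)) :=
  OnePoint.coe_injective

theorem id_eq (a : O) : 𝟙 a = mk (OH.ofEquiv (Equiv.refl a.El)) := rfl

@[simp] theorem mk_comp (f : OH a.El b.El) (g : OH b.El c.El) : mk f ≫ mk g = mk (f.comp g) := rfl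

theorem zero_comp' (g : b ⟶ c) : zero a b ≫ g = zero a c :=
  (congrArg (LC.app (compLC a b c)) (smash_infty_left (toPt g))).trans (LC.app_infty _)

theorem comp_zero' (f : a ⟶ b) : f ≫ zero b c = zero a c :=
  (congrArg (LC.app (compLC a b c)) (smash_infty_right (toPt f))).trans (LC.app_infty _)

theorem cases' (f : a ⟶ b) : f = zero a b ∨ ∃ g, f = mk g := by
  induction f using OnePoint.rec with
  | infty => exact Or.inl rfl
  | coe g => exact Or.inr ⟨g, rfl⟩

theorem mk_ext {f g : OH a.El b.El} (h : ∀ v, f.ap v = g.ap v) : mk f = mk g :=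
  congrArg mk (OH.ext_ap h)

instance : Category O where
  id_comp f := by
    rcases cases' f with rfl | ⟨f, rfl⟩
    · exact comp_zero' _
    · exact mk_ext fun v => by simp
  comp_id f := by
    rcases cases' f with rfl | ⟨f, rfl⟩
    · exact zero_comp' _
    · exact mk_ext fun v => by simp
  assoc f g h := by
    rcases cases' f with rfl | ⟨f, rfl⟩
    · rw [zero_comp', zero_comp', zero_comp']
    rcases cases' g with rfl | ⟨g, rfl⟩
    · rw [zero_comp', comp_zero', comp_zero', zero_comp']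
    rcases cases' h with rfl | ⟨h, rfl⟩
    · rw [comp_zero', comp_zero', comp_zero']
    exact mk_ext fun v => by simp

instance : Limits.HasZeroMorphisms O where
  zero a b := ⟨zero a b⟩
  comp_zero f _ := comp_zero' f
  zero_comp _ _ _ g := zero_comp' g

theorem zero_eq (a b : O) : zero a b = 0 := rfl

@[simp] theorem toPt_zero : toPt (0 : a ⟶ b) = ∞ := rfl

@[simp] theorem ofPt_infty : ofPt (∞ : OnePoint (OH a.El b.El)) = 0 := rfl

@[simp] theorem mk_ne_zero (f : OH a.El b.El) : mk f ≠ 0 := OnePoint.coe_ne_infty f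

theorem hom_cases (f : a ⟶ b) : f = 0 ∨ ∃ g, f = mk g := cases' f

/-- the isomorphism given by a bijection -/
def isoOfEquiv (e : a.El ≃ b.El) : a ≅ b where
  hom := mk (OH.ofEquiv e)
  inv := mk (OH.ofEquiv e.symm)
  hom_inv_id := mk_ext fun v => by ext; simp
  inv_hom_id := mk_ext fun v => by ext; simp

theorem isoOfEquiv_hom (e : a.El ≃ b.El) : (isoOfEquiv e).hom = mk (OH.ofEquiv e) := rfl

theorem isoOfEquiv_inv (e : a.El ≃ b.El) : (isoOfEquiv e).inv = mk (OH.ofEquiv e.symm) := rfl

/-- direct sum of morphisms -/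
def tensorHom' (f : a ⟶ b) (g : c ⟶ d) : sum a c ⟶ sum b d :=
  ofPt (LC.app (tensorLC a b c d) (smash (toPt f) (toPt g)))

instance : MonoidalCategoryStruct O where
  tensorObj := sum
  tensorUnit := emp
  whiskerLeft a _ _ f := tensorHom' (𝟙 a) f
  whiskerRight f c := tensorHom' f (𝟙 c)
  tensorHom := tensorHom'
  associator a b c := isoOfEquiv (a := sum (sum a b) c) (b := sum a (sum b c))
    (Equiv.sumAssoc a.El b.El c.El)
  leftUnitor a := isoOfEquiv (a := sum emp a) (b := a) (Equiv.emptySum Empty a.El)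
  rightUnitor a := isoOfEquiv (a := sum a emp) (b := a) (Equiv.sumEmpty a.El Empty)

theorem tensorObj_eq (a b : O) : a ⊗ b = sum a b := rfl

theorem tensorUnit_eq : 𝟙_ O = emp := rfl

theorem El_tensor (a b : O) : (a ⊗ b).El = (a.El ⊕ b.El) := rfl

instance : IsEmpty (𝟙_ O).El := inferInstanceAs (IsEmpty Empty)

/-- the direct sum of affine isometric embeddings, typed with codes -/
def tens (f : OH a.El b.El) (g : OH c.El d.El) : OH (a ⊗ c).El (b ⊗ d).El := f.tensor g

/-- a vector of `a ⊗ b` -/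
def vec (u : a.El → ℝ) (v : b.El → ℝ) : (a ⊗ b).El → ℝ := Sum.elim u v

/-- the first component of a vector of `a ⊗ b` -/
def vfst (v : (a ⊗ b).El → ℝ) : a.El → ℝ := fun i => v (Sum.inl i)

/-- the second component of a vector of `a ⊗ b` -/
def vsnd (v : (a ⊗ b).El → ℝ) : b.El → ℝ := fun i => v (Sum.inr i)

@[simp] theorem vfst_vec (u : a.El → ℝ) (v : b.El → ℝ) : vfst (vec u v) = u := rfl

@[simp] theorem vsnd_vec (u : a.El → ℝ) (v : b.El → ℝ) : vsnd (vec u v) = v := rfl

@[simp] theorem vec_vfst_vsnd (v : (a ⊗ b).El → ℝ) : vec (vfst v) (vsnd v) = v := by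
  funext x; rcases x with x | x <;> rfl

theorem vec_surj (v : (a ⊗ b).El → ℝ) : ∃ u u', v = vec u u' := ⟨_, _, (vec_vfst_vsnd v).symm⟩

theorem tens_ap (f : OH a.El b.El) (g : OH c.El d.El) (v : (a ⊗ c).El → ℝ) :
    (tens f g).ap v = vec (f.ap (vfst v)) (g.ap (vsnd v)) := OH.tensor_ap f g v

@[simp] theorem tens_ap_vec (f : OH a.El b.El) (g : OH c.El d.El) (u : a.El → ℝ)
    (v : c.El → ℝ) : (tens f g).ap (vec u v) = vec (f.ap u) (g.ap v) := OH.tensor_ap f g _

@[simp] theorem mk_tensor (f : OH a.El b.El) (g : OH c.El d.El) :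
    mk f ⊗ₘ mk g = mk (tens f g) := rfl

theorem whiskerLeft_mk (a : O) (g : OH c.El d.El) :
    a ◁ mk g = mk (tens (OH.ofEquiv (Equiv.refl a.El)) g) := rfl

theorem whiskerRight_mk (f : OH a.El b.El) (c : O) :
    mk f ▷ c = mk (tens f (OH.ofEquiv (Equiv.refl c.El))) := rfl

theorem zero_tensorHom (g : c ⟶ d) : (0 : a ⟶ b) ⊗ₘ g = 0 :=
  (congrArg (LC.app (tensorLC a b c d)) (smash_infty_left (toPt g))).trans (LC.app_infty _)

theorem tensorHom_zero (f : a ⟶ b) : f ⊗ₘ (0 : c ⟶ d) = 0 :=
  (congrArg (LC.app (tensorLC a b c d)) (smash_infty_right (toPt f))).trans (LC.app_infty _)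

/-- the associator, typed with codes -/
def asc (a b c : O) : OH ((a ⊗ b) ⊗ c).El (a ⊗ b ⊗ c).El :=
  OH.ofEquiv (Equiv.sumAssoc a.El b.El c.El)

/-- the inverse associator, typed with codes -/
def asci (a b c : O) : OH (a ⊗ b ⊗ c).El ((a ⊗ b) ⊗ c).El :=
  OH.ofEquiv (Equiv.sumAssoc a.El b.El c.El).symm

/-- the braiding, typed with codes -/
def brd (a b : O) : OH (a ⊗ b).El (b ⊗ a).El := OH.ofEquiv (Equiv.sumComm a.El b.El)

/-- the left unitor, typed with codes -/
def lu (a : O) : OH (𝟙_ O ⊗ a).El a.El := OH.ofEquiv (Equiv.emptySum Empty a.El)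

/-- the inverse left unitor, typed with codes -/
def lui (a : O) : OH a.El (𝟙_ O ⊗ a).El := OH.ofEquiv (Equiv.emptySum Empty a.El).symm

/-- the right unitor, typed with codes -/
def ru (a : O) : OH (a ⊗ 𝟙_ O).El a.El := OH.ofEquiv (Equiv.sumEmpty a.El Empty)

/-- the inverse right unitor, typed with codes -/
def rui (a : O) : OH a.El (a ⊗ 𝟙_ O).El := OH.ofEquiv (Equiv.sumEmpty a.El Empty).symm

theorem associator_hom (a b c : O) : (α_ a b c).hom = mk (asc a b c) := rfl
theorem associator_inv (a b c : O) : (α_ a b c).inv = mk (asci a b c) := rfl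
theorem leftUnitor_hom (a : O) : (λ_ a).hom = mk (lu a) := rfl
theorem leftUnitor_inv (a : O) : (λ_ a).inv = mk (lui a) := rfl
theorem rightUnitor_hom (a : O) : (ρ_ a).hom = mk (ru a) := rfl
theorem rightUnitor_inv (a : O) : (ρ_ a).inv = mk (rui a) := rfl

@[simp] theorem asc_ap (u : a.El → ℝ) (v : b.El → ℝ) (w : c.El → ℝ) :
    (asc a b c).ap (vec (vec u v) w) = vec u (vec v w) := by
  refine (OH.ofEquiv_ap _ _).trans ?_
  funext x; rcases x with x | x | x <;> rfl

@[simp] theorem asci_ap (u : a.El → ℝ) (v : b.El → ℝ) (w : c.El → ℝ) :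
    (asci a b c).ap (vec u (vec v w)) = vec (vec u v) w := by
  refine (OH.ofEquiv_ap _ _).trans ?_
  funext x; rcases x with (x | x) | x <;> rfl

@[simp] theorem brd_ap (u : a.El → ℝ) (v : b.El → ℝ) : (brd a b).ap (vec u v) = vec v u := by
  refine (OH.ofEquiv_ap _ _).trans ?_
  funext x; rcases x with x | x <;> rfl

@[simp] theorem lu_ap (u : (𝟙_ O).El → ℝ) (v : a.El → ℝ) : (lu a).ap (vec u v) = v :=
  OH.ofEquiv_ap _ _

@[simp] theorem ru_ap (v : a.El → ℝ) (u : (𝟙_ O).El → ℝ) : (ru a).ap (vec v u) = v :=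
  OH.ofEquiv_ap _ _

@[simp] theorem lui_ap (v : a.El → ℝ) : (lui a).ap v = vec (a := 𝟙_ O) 0 v := by
  refine (OH.ofEquiv_ap _ _).trans ?_
  funext x; rcases x with x | x
  · exact x.elim
  · rfl

@[simp] theorem rui_ap (v : a.El → ℝ) : (rui a).ap v = vec (b := 𝟙_ O) v 0 := by
  refine (OH.ofEquiv_ap _ _).trans ?_
  funext x; rcases x with x | x
  · rfl
  · exact x.elim

@[simp] theorem refl_ap (v : a.El → ℝ) : (OH.ofEquiv (Equiv.refl a.El)).ap v = v :=
  OH.ofEquiv_ap _ _

theorem mk_ext₂ {f g : OH (a ⊗ b).El c.El} (h : ∀ u v, f.ap (vec u v) = g.ap (vec u v)) :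
    mk f = mk g := mk_ext fun v => by
  obtain ⟨u, v, rfl⟩ := vec_surj v
  exact h u v

theorem mk_ext₃ {f g : OH ((a ⊗ b) ⊗ c).El d.El}
    (h : ∀ u v w, f.ap (vec (vec u v) w) = g.ap (vec (vec u v) w)) : mk f = mk g :=
  mk_ext₂ fun v w => by
    obtain ⟨u, v, rfl⟩ := vec_surj v
    exact h u v w

theorem mk_ext₃' {f g : OH (a ⊗ b ⊗ c).El d.El}
    (h : ∀ u v w, f.ap (vec u (vec v w)) = g.ap (vec u (vec v w))) : mk f = mk g :=
  mk_ext₂ fun u v => by
    obtain ⟨v, w, rfl⟩ := vec_surj v
    exact h u v w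

theorem whiskerLeft_eq (a : O) (g : c ⟶ d) : a ◁ g = 𝟙 a ⊗ₘ g := rfl

theorem whiskerRight_eq (f : a ⟶ b) (c : O) : f ▷ c = f ⊗ₘ 𝟙 c := rfl

theorem tensorHom_comp_tensorHom' {a' c' : O} (f₁ : a ⟶ b) (f₂ : c ⟶ d) (g₁ : b ⟶ a')
    (g₂ : d ⟶ c') : (f₁ ⊗ₘ f₂) ≫ (g₁ ⊗ₘ g₂) = (f₁ ≫ g₁) ⊗ₘ (f₂ ≫ g₂) := by
  rcases hom_cases f₁ with rfl | ⟨f₁, rfl⟩
  · simp [zero_tensorHom]
  rcases hom_cases f₂ with rfl | ⟨f₂, rfl⟩
  · simp [tensorHom_zero]
  rcases hom_cases g₁ with rfl | ⟨g₁, rfl⟩
  · simp [zero_tensorHom]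
  rcases hom_cases g₂ with rfl | ⟨g₂, rfl⟩
  · simp [tensorHom_zero]
  simp only [O.id_eq, O.associator_hom, O.associator_inv, O.leftUnitor_hom, O.leftUnitor_inv,
    O.rightUnitor_hom, O.rightUnitor_inv, O.whiskerLeft_mk, O.whiskerRight_mk, O.mk_tensor,
    O.mk_comp]
  exact mk_ext₂ fun u v => by simp

instance : MonoidalCategory O where
  tensorHom_def f g := by
    rw [whiskerLeft_eq, whiskerRight_eq, tensorHom_comp_tensorHom', Category.comp_id,
      Category.id_comp]
  id_tensorHom_id a b := by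
    simp only [O.id_eq, O.associator_hom, O.associator_inv, O.leftUnitor_hom, O.leftUnitor_inv,
      O.rightUnitor_hom, O.rightUnitor_inv, O.whiskerLeft_mk, O.whiskerRight_mk, O.mk_tensor,
      O.mk_comp]
    exact mk_ext₂ fun u v => by simp
  tensorHom_comp_tensorHom := tensorHom_comp_tensorHom'
  whiskerLeft_id a b := by
    simp only [O.id_eq, O.associator_hom, O.associator_inv, O.leftUnitor_hom, O.leftUnitor_inv,
      O.rightUnitor_hom, O.rightUnitor_inv, O.whiskerLeft_mk, O.whiskerRight_mk, O.mk_tensor,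
      O.mk_comp]
    exact mk_ext₂ fun u v => by simp
  id_whiskerRight a b := by
    simp only [O.id_eq, O.associator_hom, O.associator_inv, O.leftUnitor_hom, O.leftUnitor_inv,
      O.rightUnitor_hom, O.rightUnitor_inv, O.whiskerLeft_mk, O.whiskerRight_mk, O.mk_tensor,
      O.mk_comp]
    exact mk_ext₂ fun u v => by simp
  associator_naturality f₁ f₂ f₃ := by
    rcases hom_cases f₁ with rfl | ⟨f₁, rfl⟩
    · simp [zero_tensorHom]
    rcases hom_cases f₂ with rfl | ⟨f₂, rfl⟩
    · simp [tensorHom_zero, zero_tensorHom]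
    rcases hom_cases f₃ with rfl | ⟨f₃, rfl⟩
    · simp [tensorHom_zero]
    simp only [O.id_eq, O.associator_hom, O.associator_inv, O.leftUnitor_hom, O.leftUnitor_inv,
      O.rightUnitor_hom, O.rightUnitor_inv, O.whiskerLeft_mk, O.whiskerRight_mk, O.mk_tensor,
      O.mk_comp]
    exact mk_ext₃ fun u v w => by simp
  leftUnitor_naturality f := by
    rcases hom_cases f with rfl | ⟨f, rfl⟩
    · simp [whiskerLeft_eq, tensorHom_zero]
    simp only [O.id_eq, O.associator_hom, O.associator_inv, O.leftUnitor_hom, O.leftUnitor_inv,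
      O.rightUnitor_hom, O.rightUnitor_inv, O.whiskerLeft_mk, O.whiskerRight_mk, O.mk_tensor,
      O.mk_comp]
    exact mk_ext₂ fun u v => by simp
  rightUnitor_naturality f := by
    rcases hom_cases f with rfl | ⟨f, rfl⟩
    · simp [whiskerRight_eq, zero_tensorHom]
    simp only [O.id_eq, O.associator_hom, O.associator_inv, O.leftUnitor_hom, O.leftUnitor_inv,
      O.rightUnitor_hom, O.rightUnitor_inv, O.whiskerLeft_mk, O.whiskerRight_mk, O.mk_tensor,
      O.mk_comp]
    exact mk_ext₂ fun u v => by simp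
  pentagon a b c d := by
    simp only [O.id_eq, O.associator_hom, O.associator_inv, O.leftUnitor_hom, O.leftUnitor_inv,
      O.rightUnitor_hom, O.rightUnitor_inv, O.whiskerLeft_mk, O.whiskerRight_mk, O.mk_tensor,
      O.mk_comp]
    refine mk_ext₃ fun u v w => ?_
    obtain ⟨u, u', rfl⟩ := vec_surj u
    simp
  triangle a b := by
    simp only [O.id_eq, O.associator_hom, O.associator_inv, O.leftUnitor_hom, O.leftUnitor_inv,
      O.rightUnitor_hom, O.rightUnitor_inv, O.whiskerLeft_mk, O.whiskerRight_mk, O.mk_tensor,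
      O.mk_comp]
    exact mk_ext₃ fun u v w => by simp

instance : BraidedCategory O where
  braiding a b := isoOfEquiv (a := a ⊗ b) (b := b ⊗ a) (Equiv.sumComm a.El b.El)
  braiding_naturality_right a _ _ f := by
    rcases hom_cases f with rfl | ⟨f, rfl⟩
    · rw [whiskerLeft_eq, whiskerRight_eq, tensorHom_zero, zero_tensorHom, Limits.zero_comp,
        Limits.comp_zero]
    change mk (tens _ _) ≫ mk (brd _ _) = mk (brd _ _) ≫ mk (tens _ _)
    exact mk_ext₂ fun u v => by simp
  braiding_naturality_left f c := by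
    rcases hom_cases f with rfl | ⟨f, rfl⟩
    · rw [whiskerLeft_eq, whiskerRight_eq, tensorHom_zero, zero_tensorHom, Limits.zero_comp,
        Limits.comp_zero]
    change mk (tens _ _) ≫ mk (brd _ _) = mk (brd _ _) ≫ mk (tens _ _)
    exact mk_ext₂ fun u v => by simp
  hexagon_forward a b c := by
    change mk (asc _ _ _) ≫ mk (brd _ _) ≫ mk (asc _ _ _) =
      mk (tens (brd _ _) _) ≫ mk (asc _ _ _) ≫ mk (tens _ (brd _ _))
    exact mk_ext₃ fun u v w => by simp
  hexagon_reverse a b c := by
    change mk (asci _ _ _) ≫ mk (brd _ _) ≫ mk (asci _ _ _) =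
      mk (tens _ (brd _ _)) ≫ mk (asci _ _ _) ≫ mk (tens (brd _ _) _)
    exact mk_ext₃' fun u v w => by simp

theorem braiding_hom (a b : O) : (β_ a b).hom = mk (brd a b) := rfl

instance : SymmetricCategory O where
  symmetry a b := by
    change mk (brd _ _) ≫ mk (brd _ _) = mk _
    exact mk_ext₂ fun u v => by simp

instance : Idx O where
  plot _ _ _ w := Continuous (fun k => toPt (w k))
  plot_const _ _ _ _ := continuous_const
  plot_pre _ hg _ hw := hw.comp hg
  plot_sum h1 h2 := continuous_sum_dom.mpr ⟨h1, h2⟩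
  plot_surj _ hg hs _ hw := (IsQuotientMap.of_surjective_continuous hs hg).continuous_iff.mpr hw
  plot_comp hw hv := (LC.continuous_app (compLC _ _ _)).comp
    (LC.continuous_smash.comp (hw.prodMk hv))
  plot_tensorHom hw hv := (LC.continuous_app (tensorLC _ _ _ _)).comp
    (LC.continuous_smash.comp (hw.prodMk hv))
  zero_tensorHom := zero_tensorHom
  tensorHom_zero := tensorHom_zero

theorem plot_iff {K : CH} {w : K → (a ⟶ b)} : Idx.plot K w ↔ Continuous (fun k => toPt (w k)) :=
  Iff.rfl

theorem plot_mk {K : CH} {f : K → OH a.El b.El} (hf : Continuous f) :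
    Idx.plot K (fun k => mk (f k)) := OnePoint.continuous_coe.comp hf

theorem plot_ofPt {K : CH} {f : K → OnePoint (OH a.El b.El)} (hf : Continuous f) :
    Idx.plot K (fun k => ofPt (f k)) := hf

end O

end Vale.Agent.P257.D
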