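import Vale.Agent.P251.G.LC
import Mathlib.Topology.Instances.Matrix
import Mathlib.Data.Matrix.Block
import Mathlib.Topology.Algebra.Order.Field
import Mathlib.Topology.Order.Compact
import Mathlib.Analysis.Normed.Group.Constructions
import Mathlib.Topology.MetricSpace.ProperSpace.Real
import Mathlib.LinearAlgebra.Matrix.ToLin

/-!
# P257, design D: spaces of affine isometric embeddings

`OH ι κ` is the space of pairs `(A, w)`, `A : ℝ^ι → ℝ^κ` a linear isometric embedding (a matrix with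
`Aᵀ A = 1`) and `w ∈ ℝ^κ` orthogonal to the image of `A`.  It acts by `v ↦ A v + w`.  Its one-point
compactification is the Thom space which is the morphism space of the index category of
orthogonal spectra.
-/

open Topology Filter Matrix

namespace Vale.Agent.P257.D

/-- Proper functions to `[0, ∞)`. -/
structure PropFn {X : Type} [TopologicalSpace X] (N : X → ℝ) : Prop where
  cont : Continuous N
  nonneg : ∀ x, 0 ≤ N x
  cpt : ∀ M : ℝ, IsCompact {x | N x ≤ M}

namespace PropFn

variable {X Y : Type} [TopologicalSpace X] [TopologicalSpace Y]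

theorem prod {N : X → ℝ} {N' : Y → ℝ} (h : PropFn N) (h' : PropFn N') :
    PropFn (fun p : X × Y => N p.1 + N' p.2) where
  cont := (h.cont.comp continuous_fst).add (h'.cont.comp continuous_snd)
  nonneg p := add_nonneg (h.nonneg _) (h'.nonneg _)
  cpt M := by
    refine ((h.cpt M).prod (h'.cpt M)).of_isClosed_subset
      (isClosed_le ((h.cont.comp continuous_fst).add (h'.cont.comp continuous_snd))
        continuous_const) ?_
    rintro ⟨x, y⟩ hp
    have h1 := h.nonneg x
    have h2 := h'.nonneg y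
    simp only [Set.mem_ofPred_eq] at hp
    exact ⟨by simp only [Set.mem_ofPred_eq]; linarith, by simp only [Set.mem_ofPred_eq]; linarith⟩

/-- A map along which a proper function is bounded by a continuous function is proper. -/
theorem tendsto_cocompact {N : X → ℝ} (h : PropFn N) {N' : Y → ℝ} (h' : Continuous N')
    {f : X → Y} (hf : ∀ x, N x ≤ N' (f x)) : Tendsto f (cocompact X) (cocompact Y) := by
  intro s hs
  obtain ⟨K, hK, hKs⟩ := mem_cocompact.mp hs
  obtain ⟨M, hM⟩ := (hK.image h').bddAbove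
  refine mem_cocompact.mpr ⟨_, h.cpt M, fun x hx => hKs fun hx' => hx ?_⟩
  exact (hf x).trans (hM ⟨_, hx', rfl⟩)

theorem of_compact [CompactSpace X] : PropFn (fun _ : X => (0 : ℝ)) where
  cont := continuous_const
  nonneg _ := le_rfl
  cpt _ := (isClosed_le continuous_const continuous_const).isCompact

end PropFn

theorem sq_le_dotProduct {κ : Type} [Fintype κ] (w : κ → ℝ) (k : κ) : w k * w k ≤ w ⬝ᵥ w :=
  Finset.single_le_sum (f := fun k => w k * w k) (fun k _ => mul_self_nonneg (w k))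
    (Finset.mem_univ k)

theorem dotProduct_self_nonneg' {κ : Type} [Fintype κ] (w : κ → ℝ) : 0 ≤ w ⬝ᵥ w :=
  Finset.sum_nonneg (fun k _ => mul_self_nonneg (w k))

theorem abs_le_of_mul_self_le {x M : ℝ} (h : x * x ≤ M) : x ∈ Set.Icc (-(M + 1)) (M + 1) := by
  constructor <;> nlinarith [mul_self_nonneg (x + 1), mul_self_nonneg (x - 1), mul_self_nonneg x]

theorem propFn_dotProduct (κ : Type) [Fintype κ] : PropFn (fun w : κ → ℝ => w ⬝ᵥ w) where
  cont := by fun_prop
  nonneg := dotProduct_self_nonneg'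
  cpt M := by
    refine (isCompact_univ_pi (fun _ : κ => isCompact_Icc (a := -(M + 1)) (b := M + 1))).of_isClosed_subset
      (isClosed_le (by fun_prop) continuous_const) ?_
    intro w hw k _
    exact abs_le_of_mul_self_le ((sq_le_dotProduct w k).trans hw)

/-- Affine isometric embeddings `v ↦ A v + w` with `w` orthogonal to the image of `A`. -/
def OH (ι κ : Type) [Fintype ι] [Fintype κ] : Type :=
  {p : Matrix κ ι ℝ × (κ → ℝ) // (∀ v : ι → ℝ, p.1ᵀ *ᵥ (p.1 *ᵥ v) = v) ∧ p.1ᵀ *ᵥ p.2 = 0}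

namespace OH

variable {ι κ μ ν : Type} [Fintype ι] [Fintype κ] [Fintype μ] [Fintype ν]

instance : TopologicalSpace (OH ι κ) := instTopologicalSpaceSubtype

instance : T2Space (OH ι κ) := inferInstanceAs (T2Space (Subtype _))

theorem isClosed_cond : IsClosed {p : Matrix κ ι ℝ × (κ → ℝ) |
    (∀ v : ι → ℝ, p.1ᵀ *ᵥ (p.1 *ᵥ v) = v) ∧ p.1ᵀ *ᵥ p.2 = 0} := by
  refine IsClosed.inter ?_ (isClosed_eq (by fun_prop) continuous_const)
  change IsClosed {p : Matrix κ ι ℝ × (κ → ℝ) | ∀ v : ι → ℝ, p.1ᵀ *ᵥ (p.1 *ᵥ v) = v}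
  rw [Set.ofPred_forall]
  exact isClosed_iInter fun v => isClosed_eq (by fun_prop) continuous_const

theorem isClosedEmbedding_val : IsClosedEmbedding (Subtype.val : OH ι κ → _) :=
  isClosed_cond.isClosedEmbedding_subtypeVal

instance : LocallyCompactSpace (OH ι κ) :=
  haveI : LocallyCompactSpace (Matrix κ ι ℝ) := inferInstanceAs (LocallyCompactSpace (κ → ι → ℝ))
  isClosedEmbedding_val.locallyCompactSpace

/-- the linear part -/
def A (f : OH ι κ) : Matrix κ ι ℝ := f.1.1

/-- the translation part -/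
def w (f : OH ι κ) : κ → ℝ := f.1.2

/-- constructor -/
def mk (A : Matrix κ ι ℝ) (w : κ → ℝ) (h1 : ∀ v : ι → ℝ, Aᵀ *ᵥ (A *ᵥ v) = v)
    (h2 : Aᵀ *ᵥ w = 0) : OH ι κ := ⟨(A, w), h1, h2⟩

@[simp] theorem A_mk (A : Matrix κ ι ℝ) (w : κ → ℝ) (h1 : ∀ v : ι → ℝ, Aᵀ *ᵥ (A *ᵥ v) = v)
    (h2 : Aᵀ *ᵥ w = 0) : (mk A w h1 h2).A = A := rfl

@[simp] theorem w_mk (A : Matrix κ ι ℝ) (w : κ → ℝ) (h1 : ∀ v : ι → ℝ, Aᵀ *ᵥ (A *ᵥ v) = v)
    (h2 : Aᵀ *ᵥ w = 0) : (mk A w h1 h2).w = w := rfl

@[simp] theorem iso (f : OH ι κ) (v : ι → ℝ) : f.Aᵀ *ᵥ (f.A *ᵥ v) = v := f.2.1 v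

@[simp] theorem orth (f : OH ι κ) : f.Aᵀ *ᵥ f.w = 0 := f.2.2

theorem transpose_mul_self [DecidableEq ι] (f : OH ι κ) : f.Aᵀ * f.A = 1 := by
  apply Matrix.toLin'.injective
  apply LinearMap.ext
  intro v
  rw [Matrix.toLin'_apply, Matrix.toLin'_apply, ← mulVec_mulVec, iso, one_mulVec]

theorem ext {f g : OH ι κ} (h1 : f.A = g.A) (h2 : f.w = g.w) : f = g :=
  Subtype.ext (Prod.ext h1 h2)

@[fun_prop] theorem continuous_A : Continuous (A : OH ι κ → _) :=
  continuous_fst.comp continuous_subtype_val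

@[fun_prop] theorem continuous_w : Continuous (w : OH ι κ → _) :=
  continuous_snd.comp continuous_subtype_val

theorem continuous_iff {X : Type} [TopologicalSpace X] {f : X → OH ι κ} :
    Continuous f ↔ Continuous (fun x => (f x).A) ∧ Continuous (fun x => (f x).w) :=
  ⟨fun h => ⟨continuous_A.comp h, continuous_w.comp h⟩,
    fun h => continuous_induced_rng.mpr (h.1.prodMk h.2)⟩

theorem continuous_of {X : Type} [TopologicalSpace X] {f : X → OH ι κ}
    (h1 : Continuous (fun x => (f x).A)) (h2 : Continuous (fun x => (f x).w)) : Continuous f :=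
  continuous_iff.mpr ⟨h1, h2⟩

/-- the affine map -/
def ap (f : OH ι κ) (v : ι → ℝ) : κ → ℝ := f.A *ᵥ v + f.w

theorem ap_zero (f : OH ι κ) : f.ap 0 = f.w := by rw [ap, mulVec_zero, zero_add]

@[fun_prop] theorem continuous_ap {X : Type} [TopologicalSpace X] {f : X → OH ι κ}
    {v : X → ι → ℝ} (hf : Continuous f) (hv : Continuous v) :
    Continuous (fun x => (f x).ap (v x)) := by
  unfold ap
  fun_prop

theorem ext_ap {f g : OH ι κ} (h : ∀ v, f.ap v = g.ap v) : f = g := by
  classical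
  have h2 : f.w = g.w := by rw [← ap_zero, ← ap_zero, h]
  refine ext ?_ h2
  apply Matrix.toLin'.injective
  apply LinearMap.ext
  intro v
  have := h v
  rw [ap, ap, h2, add_left_inj] at this
  rw [Matrix.toLin'_apply, Matrix.toLin'_apply, this]

theorem dot_A (f : OH ι κ) (u v : ι → ℝ) : (f.A *ᵥ u) ⬝ᵥ (f.A *ᵥ v) = u ⬝ᵥ v := by
  rw [dotProduct_mulVec, ← mulVec_transpose, iso]

theorem dot_A_w (f : OH ι κ) (u : ι → ℝ) : (f.A *ᵥ u) ⬝ᵥ f.w = 0 := by
  rw [dotProduct_comm, dotProduct_mulVec, ← mulVec_transpose, orth, zero_dotProduct]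

theorem dot_w_A (f : OH ι κ) (u : ι → ℝ) : f.w ⬝ᵥ (f.A *ᵥ u) = 0 := by
  rw [dotProduct_comm, dot_A_w]

theorem dot_ap (f : OH ι κ) (v : ι → ℝ) : f.ap v ⬝ᵥ f.ap v = v ⬝ᵥ v + f.w ⬝ᵥ f.w := by
  rw [ap, add_dotProduct, dotProduct_add, dotProduct_add, dot_A, dot_A_w, dot_w_A, add_zero,
    zero_add]

theorem transpose_ap (f : OH ι κ) (v : ι → ℝ) : f.Aᵀ *ᵥ f.ap v = v := by
  rw [ap, mulVec_add, iso, orth, add_zero]

theorem ap_injective (f : OH ι κ) : Function.Injective f.ap := fun u v h => by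
  rw [← f.transpose_ap u, h, f.transpose_ap]

/-- the square of the norm of the translation part -/
def nrm (f : OH ι κ) : ℝ := f.w ⬝ᵥ f.w

theorem A_mem_Icc (f : OH ι κ) (k : κ) (i : ι) : f.A k i ∈ Set.Icc (-2 : ℝ) 2 := by
  classical
  have h := f.dot_A (Pi.single i 1) (Pi.single i 1)
  rw [single_dotProduct, Pi.single_eq_same, one_mul] at h
  have h2 := (sq_le_dotProduct (f.A *ᵥ Pi.single i 1) k).trans h.le
  rw [mulVec_single_one] at h2
  have := abs_le_of_mul_self_le h2
  norm_num at this ⊢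
  exact this

theorem propFn_nrm : PropFn (nrm : OH ι κ → ℝ) where
  cont := by unfold nrm; fun_prop
  nonneg f := dotProduct_self_nonneg' _
  cpt M := by
    have hK : IsCompact ((Set.pi Set.univ fun _ : κ => Set.pi Set.univ fun _ : ι =>
        Set.Icc (-2 : ℝ) 2) ×ˢ {w : κ → ℝ | w ⬝ᵥ w ≤ M}) :=
      (isCompact_univ_pi fun _ => isCompact_univ_pi fun _ => isCompact_Icc).prod
        ((propFn_dotProduct κ).cpt M)
    refine (isClosedEmbedding_val.isCompact_preimage hK).of_isClosed_subset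
      (isClosed_le (by unfold nrm; fun_prop) continuous_const) ?_
    intro f hf
    exact ⟨fun k _ i _ => OH.A_mem_Icc f k i, hf⟩

/-- composition -/
def comp (f : OH ι κ) (g : OH κ μ) : OH ι μ :=
  mk (g.A * f.A) (g.ap f.w)
    (fun v => by rw [transpose_mul, ← mulVec_mulVec, ← mulVec_mulVec, iso, iso])
    (by rw [transpose_mul, ← mulVec_mulVec, transpose_ap, orth])

@[simp] theorem comp_A (f : OH ι κ) (g : OH κ μ) : (f.comp g).A = g.A * f.A := rfl

@[simp] theorem comp_w (f : OH ι κ) (g : OH κ μ) : (f.comp g).w = g.ap f.w := rfl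

@[simp] theorem comp_ap (f : OH ι κ) (g : OH κ μ) (v : ι → ℝ) :
    (f.comp g).ap v = g.ap (f.ap v) := by
  simp only [ap, comp_A, comp_w, mulVec_add, mulVec_mulVec, add_assoc]

theorem nrm_comp (f : OH ι κ) (g : OH κ μ) : (f.comp g).nrm = f.nrm + g.nrm := g.dot_ap f.w

@[fun_prop] theorem continuous_comp {X : Type} [TopologicalSpace X] {f : X → OH ι κ}
    {g : X → OH κ μ} (hf : Continuous f) (hg : Continuous g) :
    Continuous (fun x => (f x).comp (g x)) :=
  continuous_of (by simp only [comp_A]; fun_prop) (by simp only [comp_w]; fun_prop)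

theorem tendsto_comp : Tendsto (fun p : OH ι κ × OH κ μ => p.1.comp p.2) (cocompact _)
    (cocompact _) :=
  (propFn_nrm.prod propFn_nrm).tendsto_cocompact propFn_nrm.cont
    (fun p => (nrm_comp p.1 p.2).ge)

theorem tendsto_ap : Tendsto (fun p : OH ι κ × (ι → ℝ) => p.1.ap p.2) (cocompact _)
    (cocompact _) :=
  (propFn_nrm.prod (propFn_dotProduct ι)).tendsto_cocompact (propFn_dotProduct κ).cont
    (fun p => by rw [dot_ap, add_comm]; exact le_rfl)

/-- direct sum -/
def tensor (f : OH ι κ) (g : OH μ ν) : OH (ι ⊕ μ) (κ ⊕ ν) :=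
  mk (fromBlocks f.A 0 0 g.A) (Sum.elim f.w g.w)
    (fun v => by
      rw [fromBlocks_transpose, fromBlocks_mulVec, fromBlocks_mulVec]
      simp only [transpose_zero, zero_mulVec, add_zero, zero_add, Sum.elim_comp_inl,
        Sum.elim_comp_inr, iso, Sum.elim_comp_inl_inr])
    (by
      rw [fromBlocks_transpose, fromBlocks_mulVec]
      simp only [transpose_zero, zero_mulVec, add_zero, Sum.elim_comp_inl,
        Sum.elim_comp_inr, orth, Sum.elim_zero_zero])

@[simp] theorem tensor_A (f : OH ι κ) (g : OH μ ν) : (f.tensor g).A = fromBlocks f.A 0 0 g.A := rfl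

@[simp] theorem tensor_w (f : OH ι κ) (g : OH μ ν) : (f.tensor g).w = Sum.elim f.w g.w := rfl

@[simp] theorem tensor_ap (f : OH ι κ) (g : OH μ ν) (v : ι ⊕ μ → ℝ) :
    (f.tensor g).ap v = Sum.elim (f.ap (v ∘ Sum.inl)) (g.ap (v ∘ Sum.inr)) := by
  rw [ap, tensor_A, tensor_w, fromBlocks_mulVec]
  simp only [zero_mulVec, add_zero, zero_add]
  funext x
  rcases x with x | x <;> rfl

theorem nrm_tensor (f : OH ι κ) (g : OH μ ν) : (f.tensor g).nrm = f.nrm + g.nrm := by
  rw [nrm, tensor_w, sumElim_dotProduct_sumElim]; rfl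

@[fun_prop] theorem continuous_tensor {X : Type} [TopologicalSpace X] {f : X → OH ι κ}
    {g : X → OH μ ν} (hf : Continuous f) (hg : Continuous g) :
    Continuous (fun x => (f x).tensor (g x)) := by
  refine continuous_of ?_ ?_
  · simp only [tensor_A]
    exact Continuous.matrix_fromBlocks (by fun_prop) continuous_const continuous_const
      (by fun_prop)
  · simp only [tensor_w]
    refine continuous_pi fun x => ?_
    rcases x with x | x
    · change Continuous fun a => (f a).w x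
      fun_prop
    · change Continuous fun a => (g a).w x
      fun_prop

theorem tendsto_tensor : Tendsto (fun p : OH ι κ × OH μ ν => p.1.tensor p.2) (cocompact _)
    (cocompact _) :=
  (propFn_nrm.prod propFn_nrm).tendsto_cocompact propFn_nrm.cont
    (fun p => (nrm_tensor p.1 p.2).ge)

/-- the linear isometry given by a bijection -/
def ofEquiv [DecidableEq κ] (e : ι ≃ κ) : OH ι κ :=
  mk ((1 : Matrix κ κ ℝ).submatrix id e) 0
    (fun v => by
      rw [submatrix_mulVec_equiv, one_mulVec, transpose_submatrix, transpose_one]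
      change (1 : Matrix κ κ ℝ).submatrix e (Equiv.refl κ) *ᵥ _ = _
      rw [submatrix_mulVec_equiv, one_mulVec]
      funext i
      simp)
    (mulVec_zero _)

@[simp] theorem ofEquiv_w [DecidableEq κ] (e : ι ≃ κ) : (ofEquiv e).w = 0 := rfl

theorem ofEquiv_A [DecidableEq κ] (e : ι ≃ κ) :
    (ofEquiv e).A = (1 : Matrix κ κ ℝ).submatrix id e := rfl

theorem ofEquiv_A_mulVec [DecidableEq κ] (e : ι ≃ κ) (v : ι → ℝ) :
    (ofEquiv e).A *ᵥ v = v ∘ e.symm := by
  rw [ofEquiv_A, submatrix_mulVec_equiv, one_mulVec]; rfl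

@[simp] theorem ofEquiv_ap [DecidableEq κ] (e : ι ≃ κ) (v : ι → ℝ) :
    (ofEquiv e).ap v = v ∘ e.symm := by
  rw [ap, ofEquiv_A_mulVec, ofEquiv_w, add_zero]

end OH

end Vale.Agent.P257.D
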