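import Vale.Agent.P257.D.O
import Vale.Agent.P257.D.Base

/-!
# P257, design D: spheres in the index category `O`; `SphIdx O`

* `O.V a : LC` the vector space `a.El → ℝ`; `O.spt v : 𝟙 ⟶ a` for `v : OnePoint (V a)`;
* `O.act f : OnePoint (V a) → OnePoint (V b)` the action of a morphism on spheres;
* `O.homIso a b : (rep a).obj b ≅ PQ.ofLC (H a b)`, `O.sphIso a : (sphere O).obj a ≅ PQ.ofLC (V a)`;
* `instance : SphIdx O`, hence `StabInput (EF O)`: orthogonal spectra.
-/

open CategoryTheory MonoidalCategory Topology OnePoint Filter Matrix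

namespace Vale.Agent.P257.D

open Vale.Agent.P251.H (CH PQ flipRR rc rs)
open Vale.Agent.P251.G (LC)
open Vale.Agent.P251.G.LC (smash smash_coe_coe smash_infty_left smash_infty_right RR II)

namespace OH

variable {ι κ : Type} [Fintype ι] [Fintype κ]

/-- the morphism out of the zero space given by a vector -/
def pt [IsEmpty ι] (v : κ → ℝ) : OH ι κ :=
  mk 0 v (fun _ => Subsingleton.elim _ _) (Subsingleton.elim _ _)

@[simp] theorem pt_w [IsEmpty ι] (v : κ → ℝ) : (pt v : OH ι κ).w = v := rfl

@[simp] theorem pt_ap [IsEmpty ι] (v : κ → ℝ) (u : ι → ℝ) : (pt v).ap u = v := by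
  rw [ap, pt, A_mk, w_mk, zero_mulVec, zero_add]

@[simp] theorem pt_w_self [IsEmpty ι] (f : OH ι κ) : pt f.w = f :=
  ext (Subsingleton.elim _ _) rfl

/-- morphisms out of the zero space are vectors -/
def ptHomeo [IsEmpty ι] : (κ → ℝ) ≃ₜ OH ι κ where
  toFun := pt
  invFun := w
  left_inv _ := rfl
  right_inv := pt_w_self
  continuous_toFun := continuous_of continuous_const continuous_id
  continuous_invFun := continuous_w

theorem pt_comp {μ : Type} [Fintype μ] [IsEmpty ι] (v : κ → ℝ) (f : OH κ μ) :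
    (pt v : OH ι κ).comp f = pt (f.ap v) := ext_ap fun u => by simp

end OH

namespace O

open EF

variable {a b c : O}

/-- the vector space of a code -/
abbrev V (a : O) : LC := LC.of (a.El → ℝ)

/-- the action on spheres as a morphism of `LC` -/
def actLC (a b : O) : H a b ⊗ V a ⟶ V b :=
  LC.ofProper (X := H a b ⊗ V a) (fun p : OH a.El b.El × (a.El → ℝ) => p.1.ap p.2)
    (OH.continuous_ap continuous_fst continuous_snd) OH.tendsto_ap

/-- the action of a morphism on spheres -/
def act (f : a ⟶ b) (v : OnePoint (a.El → ℝ)) : OnePoint (b.El → ℝ) :=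
  LC.app (actLC a b) (smash (toPt f) v)

@[simp] theorem act_mk_coe (f : OH a.El b.El) (v : a.El → ℝ) :
    act (mk f) (v : OnePoint _) = (f.ap v : OnePoint _) := rfl

@[simp] theorem act_zero (v : OnePoint (a.El → ℝ)) : act (0 : a ⟶ b) v = ∞ :=
  (congrArg (LC.app (actLC a b)) (smash_infty_left v)).trans (LC.app_infty _)

@[simp] theorem act_infty (f : a ⟶ b) : act f ∞ = ∞ :=
  (congrArg (LC.app (actLC a b)) (smash_infty_right (toPt f))).trans (LC.app_infty _)

theorem continuous_act {X : Type} [TopologicalSpace X] {f : X → (a ⟶ b)}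
    {v : X → OnePoint (a.El → ℝ)} (hf : Continuous (fun x => toPt (f x))) (hv : Continuous v) :
    Continuous (fun x => act (f x) (v x)) :=
  (LC.continuous_app (actLC a b)).comp (LC.continuous_smash.comp (hf.prodMk hv))

theorem act_comp (f : a ⟶ b) (g : b ⟶ c) (v : OnePoint (a.El → ℝ)) :
    act (f ≫ g) v = act g (act f v) := by
  rcases hom_cases f with rfl | ⟨f, rfl⟩
  · simp
  rcases hom_cases g with rfl | ⟨g, rfl⟩
  · simp
  induction v using OnePoint.rec with
  | infty => simp
  | coe v => simp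

@[simp] theorem act_id (v : OnePoint (a.El → ℝ)) : act (𝟙 a) v = v := by
  induction v using OnePoint.rec with
  | infty => simp
  | coe v => rw [id_eq, act_mk_coe, refl_ap]

/-- `V a ≅ H 𝟙 a` -/
def ptIso (a : O) : V a ≅ H (𝟙_ O) a := LC.ofHomeo (X := V a) (Y := H (𝟙_ O) a) OH.ptHomeo

/-- the morphism `𝟙 ⟶ a` of a point of the sphere -/
def spt (v : OnePoint (a.El → ℝ)) : 𝟙_ O ⟶ a := ofPt (LC.app (ptIso a).hom v)

/-- the point of the sphere of a morphism `𝟙 ⟶ a` -/
def unspt (x : 𝟙_ O ⟶ a) : OnePoint (a.El → ℝ) := LC.app (ptIso a).inv (toPt x)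

@[simp] theorem spt_coe (v : a.El → ℝ) : spt (v : OnePoint _) = mk (OH.pt v) := rfl

@[simp] theorem spt_infty : spt (∞ : OnePoint (a.El → ℝ)) = 0 := rfl

@[simp] theorem unspt_mk (f : OH (𝟙_ O).El a.El) : unspt (mk f) = (f.w : OnePoint _) := rfl

@[simp] theorem unspt_zero : unspt (0 : 𝟙_ O ⟶ a) = ∞ := rfl

@[simp] theorem unspt_spt (v : OnePoint (a.El → ℝ)) : unspt (spt v) = v := by
  induction v using OnePoint.rec <;> rfl

@[simp] theorem spt_unspt (x : 𝟙_ O ⟶ a) : spt (unspt x) = x := by
  rcases hom_cases x with rfl | ⟨x, rfl⟩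
  · rfl
  · rw [unspt_mk, spt_coe, OH.pt_w_self]

theorem spt_surjective (x : 𝟙_ O ⟶ a) : ∃ v, spt v = x := ⟨_, spt_unspt x⟩

theorem spt_injective : Function.Injective (spt : OnePoint (a.El → ℝ) → _) :=
  Function.LeftInverse.injective unspt_spt

theorem spt_comp (v : OnePoint (a.El → ℝ)) (f : a ⟶ b) : spt v ≫ f = spt (act f v) := by
  rcases hom_cases f with rfl | ⟨f, rfl⟩
  · simp
  induction v using OnePoint.rec with
  | infty => simp
  | coe v => rw [spt_coe, mk_comp, act_mk_coe, spt_coe, OH.pt_comp]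

theorem unspt_comp (x : 𝟙_ O ⟶ a) (f : a ⟶ b) : unspt (x ≫ f) = act f (unspt x) := by
  obtain ⟨v, rfl⟩ := spt_surjective x
  rw [spt_comp, unspt_spt, unspt_spt]

theorem plot_spt {K : CH} {v : K → OnePoint (a.El → ℝ)} (hv : Continuous v) :
    Idx.plot K (fun k => spt (v k)) := (LC.continuous_app (ptIso a).hom).comp hv

theorem continuous_unspt {K : CH} {x : K → (𝟙_ O ⟶ a)} (hx : Idx.plot K x) :
    Continuous (fun k => unspt (x k)) := (LC.continuous_app (ptIso a).inv).comp hx

theorem id_unit_eq : 𝟙 (𝟙_ O) = spt ((0 : (𝟙_ O).El → ℝ) : OnePoint _) :=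
  mk_ext fun _ => Subsingleton.elim _ _

/-- `V a ⊗ V b ≅ V (a ⊗ b)` -/
def vecHomeo (a b : O) : (a.El → ℝ) × (b.El → ℝ) ≃ₜ ((a ⊗ b).El → ℝ) where
  toFun p := vec p.1 p.2
  invFun v := (vfst v, vsnd v)
  left_inv _ := rfl
  right_inv := vec_vfst_vsnd
  continuous_toFun := by
    refine continuous_pi fun x => ?_
    rcases x with x | x
    · exact (continuous_apply x).comp continuous_fst
    · exact (continuous_apply x).comp continuous_snd
  continuous_invFun := by
    refine Continuous.prodMk ?_ ?_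
    · exact continuous_pi fun x => continuous_apply _
    · exact continuous_pi fun x => continuous_apply _

/-- `V a ⊗ V b ≅ V (a ⊗ b)` -/
def vecIso (a b : O) : V a ⊗ V b ≅ V (a ⊗ b) :=
  LC.ofHomeo (X := V a ⊗ V b) (Y := V (a ⊗ b)) (vecHomeo a b)

/-- the smash product of points of spheres -/
def vsm (u : OnePoint (a.El → ℝ)) (v : OnePoint (b.El → ℝ)) : OnePoint ((a ⊗ b).El → ℝ) :=
  LC.app (vecIso a b).hom (smash u v)

@[simp] theorem vsm_coe (u : a.El → ℝ) (v : b.El → ℝ) :
    vsm (a := a) (b := b) (OnePoint.some u) (OnePoint.some v) = OnePoint.some (vec u v) := rfl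

@[simp] theorem vsm_infty_left (v : OnePoint (b.El → ℝ)) :
    vsm (∞ : OnePoint (a.El → ℝ)) v = ∞ :=
  (congrArg (LC.app (vecIso a b).hom) (smash_infty_left v)).trans (LC.app_infty _)

@[simp] theorem vsm_infty_right (u : OnePoint (a.El → ℝ)) :
    vsm u (∞ : OnePoint (b.El → ℝ)) = ∞ :=
  (congrArg (LC.app (vecIso a b).hom) (smash_infty_right u)).trans (LC.app_infty _)

theorem smp_spt (u : OnePoint (a.El → ℝ)) (v : OnePoint (b.El → ℝ)) :
    smp (spt u) (spt v) = spt (vsm u v) := by
  induction u using OnePoint.rec with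
  | infty => simp
  | coe u =>
    induction v using OnePoint.rec with
    | infty => simp
    | coe v =>
      rw [smp, spt_coe, spt_coe, vsm_coe, spt_coe]
      simp only [O.id_eq, O.associator_hom, O.associator_inv, O.leftUnitor_hom, O.leftUnitor_inv,
        O.rightUnitor_hom, O.rightUnitor_inv, O.whiskerLeft_mk, O.whiskerRight_mk, O.mk_tensor,
        O.mk_comp]
      exact mk_ext fun x => by simp

/-- the morphism spaces of `O` are one-point compactifications -/
noncomputable def homIso (a b : O) : (rep a).obj b ≅ PQ.ofLC (H a b) where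
  hom := ⟨fun x => toPt (unpr x), rfl, fun _ _ hx => unpr_plot hx⟩
  inv := ⟨fun x => pr (ofPt x), pr_zero, fun _ _ hx => pr_plot (plot_ofPt hx)⟩
  hom_inv_id := PQ.hom_ext' fun x => pr_unpr x
  inv_hom_id := PQ.hom_ext' fun x => congrArg toPt (unpr_pr (ofPt x))

theorem app_homIso_hom (f : a ⟶ b) : PQ.app (homIso a b).hom (pr f) = toPt f :=
  congrArg toPt (unpr_pr f)

theorem app_homIso_inv (f : OnePoint (OH a.El b.El)) :
    PQ.app (homIso a b).inv f = pr (ofPt f) := rfl

/-- the values of the sphere spectrum are spheres -/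
noncomputable def sphIso (a : O) : PQ.ofLC (V a) ≅ (sphere O).obj a where
  hom := ⟨fun v => pr (spt v), pr_zero, fun _ _ hv => pr_plot (plot_spt hv)⟩
  inv := ⟨fun x => unspt (unpr x), rfl, fun _ _ hx => continuous_unspt (unpr_plot hx)⟩
  hom_inv_id := PQ.hom_ext' fun v => by
    change unspt (unpr (pr (spt v))) = v
    rw [unpr_pr, unspt_spt]
  inv_hom_id := PQ.hom_ext' fun x => by
    change pr (spt (unspt (unpr x))) = x
    rw [spt_unspt, pr_unpr]

theorem app_sphIso_hom (v : OnePoint (a.El → ℝ)) : PQ.app (sphIso a).hom v = pr (spt v) := rfl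

theorem app_sphIso_inv (x : 𝟙_ O ⟶ a) : PQ.app (sphIso a).inv (pr x) = unspt x :=
  congrArg unspt (unpr_pr x)

/-- `ℝ ≅ V pt` -/
def lineIso : RR ≅ V pt :=
  LC.ofHomeo (X := RR) (Y := V pt) (Homeomorph.funUnique Unit ℝ).symm

/-- `𝟙 ≅ V 𝟙` -/
def unitIsoV : 𝟙_ LC ≅ V (𝟙_ O) :=
  LC.ofHomeo (X := LC.of Unit) (Y := V (𝟙_ O))
    { toFun := fun _ => 0
      invFun := fun _ => ()
      left_inv := fun _ => rfl
      right_inv := fun _ => Subsingleton.elim _ _
      continuous_toFun := continuous_const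
      continuous_invFun := continuous_const }

/-- the points of the circle -/
noncomputable def sigmaO : PQ.LCPQ.obj RR ⟶ (sphere O).obj pt :=
  PQ.LCPQ.map lineIso.hom ≫ (sphIso pt).hom

theorem app_sigmaO (r : OnePoint ℝ) : PQ.app sigmaO r = pr (spt (LC.app lineIso.hom r)) := rfl

theorem isIso_epsPQ : IsIso (epsPQ O) := by
  have : epsPQ O = (PQ.εLC ≪≫ PQ.LCPQ.mapIso unitIsoV ≪≫ sphIso (𝟙_ O)).hom := by
    apply PQ.hom_ext
    rintro ⟨⟩
    exact congrArg pr id_unit_eq
  rw [this]
  infer_instance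

theorem isIso_sigMul (b : O) : IsIso (sigMul sigmaO b) := by
  have : sigMul sigmaO b = (tensorIso (PQ.LCPQ.mapIso lineIso) (sphIso b).symm ≪≫
      PQ.μLC (V pt) (V b) ≪≫ PQ.LCPQ.mapIso (vecIso pt b) ≪≫ sphIso (pt ⊗ b)).hom := by
    apply PQ.hom_ext₂
    intro r t
    obtain ⟨t, rfl⟩ := pr_surjective t
    obtain ⟨t, rfl⟩ := spt_surjective t
    refine (app_sigMul sigmaO r (spt t)).trans ?_
    change _ = PQ.app (sphIso (pt ⊗ b)).hom (PQ.app (PQ.LCPQ.map (vecIso pt b).hom)
      (PQ.app (PQ.μLC (V pt) (V b)).hom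
        (PQ.app (PQ.LCPQ.map lineIso.hom ⊗ₘ (sphIso b).inv) (smash r (pr (spt t))))))
    erw [app_sigmaO, unpr_pr, smp_spt, PQ.app_tensorHom_smash, app_sphIso_inv, unspt_spt]
    rfl
  rw [this]
  infer_instance

/-- the rotating embedding of the line in the plane -/
noncomputable def rotOH (p : ℝ × unitInterval) : OH pt.El (pt ⊗ pt).El :=
  OH.mk (fun k _ => Sum.elim (fun _ => rs p.2) (fun _ => rc p.2) k)
    (vec (fun _ => p.1 * rc p.2) (fun _ => -(p.1 * rs p.2)))
    (fun v => by
      funext i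
      have h := P251.H.rc_sq_add_rs_sq p.2
      change ∑ k : Unit ⊕ Unit, Sum.elim (fun _ => rs p.2) (fun _ => rc p.2) k *
        (∑ j : Unit, Sum.elim (fun _ => rs p.2) (fun _ => rc p.2) k * v j) = v i
      simp only [Fintype.sum_sum_type, Finset.univ_unique, Finset.sum_singleton, Sum.elim_inl,
        Sum.elim_inr]
      change rs p.2 * (rs p.2 * v ()) + rc p.2 * (rc p.2 * v ()) = v ()
      linear_combination v () * h)
    (by
      funext i
      change ∑ k : Unit ⊕ Unit, Sum.elim (fun _ => rs p.2) (fun _ => rc p.2) k *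
        Sum.elim (fun _ => p.1 * rc p.2) (fun _ => -(p.1 * rs p.2)) k = 0
      simp only [Fintype.sum_sum_type, Finset.univ_unique, Finset.sum_singleton, Sum.elim_inl,
        Sum.elim_inr]
      ring)

theorem rotOH_ap (p : ℝ × unitInterval) (u : pt.El → ℝ) : (rotOH p).ap u =
    vec (fun _ => p.1 * rc p.2 + u () * rs p.2) (fun _ => u () * rc p.2 - p.1 * rs p.2) := by
  funext k
  rcases k with k | k
  · change ∑ j : Unit, rs p.2 * u j + p.1 * rc p.2 = p.1 * rc p.2 + u () * rs p.2
    simp only [Finset.univ_unique, Finset.sum_singleton]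
    change rs p.2 * u () + _ = _
    ring
  · change ∑ j : Unit, rc p.2 * u j + -(p.1 * rs p.2) = u () * rc p.2 - p.1 * rs p.2
    simp only [Finset.univ_unique, Finset.sum_singleton]
    change rc p.2 * u () + _ = _
    ring

theorem continuous_rotOH : Continuous rotOH := by
  have h1 := P251.H.continuous_rc
  have h2 := P251.H.continuous_rs
  refine OH.continuous_of (continuous_pi fun k => continuous_pi fun _ => ?_)
    (continuous_pi fun k => ?_)
  · rcases k with k | k
    · change Continuous fun p : ℝ × unitInterval => rs p.2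
      fun_prop
    · change Continuous fun p : ℝ × unitInterval => rc p.2
      fun_prop
  · rcases k with k | k
    · change Continuous fun p : ℝ × unitInterval => p.1 * rc p.2
      fun_prop
    · change Continuous fun p : ℝ × unitInterval => -(p.1 * rs p.2)
      fun_prop

theorem propFn_mul_self : PropFn (fun x : ℝ => x * x) where
  cont := by fun_prop
  nonneg := mul_self_nonneg
  cpt M := isCompact_Icc.of_isClosed_subset (isClosed_le (by fun_prop) continuous_const)
    (fun _ hx => abs_le_of_mul_self_le hx)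

theorem nrm_rotOH (p : ℝ × unitInterval) : (rotOH p).nrm = p.1 * p.1 := by
  have h := P251.H.rc_sq_add_rs_sq p.2
  change ∑ k : Unit ⊕ Unit, Sum.elim (fun _ => p.1 * rc p.2) (fun _ => -(p.1 * rs p.2)) k *
    Sum.elim (fun _ => p.1 * rc p.2) (fun _ => -(p.1 * rs p.2)) k = _
  simp only [Fintype.sum_sum_type, Finset.univ_unique, Finset.sum_singleton, Sum.elim_inl,
    Sum.elim_inr]
  linear_combination p.1 * p.1 * h

/-- the rotation as a morphism of `LC` -/
noncomputable def rotLC : RR ⊗ II ⟶ H pt (pt ⊗ pt) :=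
  LC.ofProper (X := RR ⊗ II) rotOH continuous_rotOH
    ((propFn_mul_self.prod PropFn.of_compact).tendsto_cocompact OH.propFn_nrm.cont
      (fun p => by rw [nrm_rotOH, add_zero]))

noncomputable instance : SphIdx O where
  gen := pt
  isIso_eps := isIso_epsPQ
  σ := sigmaO
  isIso_sigMul := isIso_sigMul
  rot := PQ.LCPQ.map rotLC ≫ (homIso pt (pt ⊗ pt)).inv
  rot_zero w := by
    erw [app_sigmaO, unpr_pr]
    induction w using OnePoint.rec with
    | infty =>
      erw [smash_infty_left, PQ.app_infty, LC.app_infty]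
      rw [spt_infty, Idx.zero_whiskerRight, Limits.comp_zero, pr_zero]
    | coe w =>
      change pr (mk (rotOH (w, 0))) = pr ((λ_ pt).inv ≫ mk (OH.pt (fun _ => w)) ▷ pt)
      simp only [O.id_eq, O.associator_hom, O.associator_inv, O.leftUnitor_hom, O.leftUnitor_inv,
        O.rightUnitor_hom, O.rightUnitor_inv, O.whiskerLeft_mk, O.whiskerRight_mk, O.mk_tensor,
        O.mk_comp]
      refine congrArg pr (mk_ext fun u => ?_)
      rw [rotOH_ap]
      simp
      rfl
  rot_one w := by
    erw [app_sigmaO, unpr_pr]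
    induction w using OnePoint.rec with
    | infty =>
      erw [smash_infty_left, PQ.app_infty, LC.app_infty]
      rw [spt_infty, Idx.whiskerLeft_zero, Limits.comp_zero, pr_zero]
    | coe w =>
      change pr (mk (rotOH (w, 1))) = pr ((ρ_ pt).inv ≫ pt ◁ mk (OH.pt (fun _ => -w)))
      simp only [O.id_eq, O.associator_hom, O.associator_inv, O.leftUnitor_hom, O.leftUnitor_inv,
        O.rightUnitor_hom, O.rightUnitor_inv, O.whiskerLeft_mk, O.whiskerRight_mk, O.mk_tensor,
        O.mk_comp]
      refine congrArg pr (mk_ext fun u => ?_)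
      rw [rotOH_ap]
      simp
      rfl

theorem gen_eq : (SphIdx.gen : O) = pt := rfl

theorem sphIdx_pt (r : OnePoint ℝ) :
    (SphIdx.pt r : 𝟙_ O ⟶ SphIdx.gen) = spt (LC.app lineIso.hom r) := unpr_pr _

end O

/-- Orthogonal spectra. -/
abbrev OSp := EF O

noncomputable example : P251.H.StabInput OSp := inferInstance

end Vale.Agent.P257.D
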