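import Vale.Agent.P257.D.Rep
import Vale.Agent.P257.D.DayMon
import Vale.Agent.P251.H.StabInput

/-!
# P257, design D (port of P251.H): tensor products with representables and free functors

* `EF.repEquiv : (rep a ⊗ X ⟶ Z) ≃ (X ⟶ (sh a).obj Z)`, `EF.repAdj a : tensorLeft (rep a) ⊣ sh a`;
* `EF.repTensor a b : rep a ⊗ rep b ≅ rep (a ⊗ b)`;
* `EF.FTensor A X : (F J).obj A ⊗ X ≅ smul A X`;
* `EF.cellEquiv g n A X : (tpow (rep gen) n ⊗ (F J).obj A ⟶ X) ≃ (A ⟶ X.obj (gpow g n))`.
-/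

open CategoryTheory MonoidalCategory Topology OnePoint

namespace Vale.Agent.P257.D

open Vale.Agent.P251.H (CH PQ NonBase toQ ofQ toQ_infty toQ_coe ofQ_base toQ_ofQ ofQ_toQ
  ofQ_surjective ofQ_injective ofQ_eq_infty)
open Vale.Agent.P251.H (tpow)

open Vale.Agent.P251.G (LC)
open Vale.Agent.P251.G.LC (smash smash_coe_coe smash_infty_left smash_infty_right)

namespace EF

variable {J : Type} [Idx J]

section shift

variable {X Y : EF J} {a b c : J}

/-- a point of `X (a ⊗ b)` as a point of `(sh a X) b` -/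
def shi (x : OnePoint (X.obj (a ⊗ b))) : OnePoint (((sh a).obj X).obj b) := x

/-- a point of `(sh a X) b` as a point of `X (a ⊗ b)` -/
def unshi (x : OnePoint (((sh a).obj X).obj b)) : OnePoint (X.obj (a ⊗ b)) := x

@[simp] theorem unshi_shi (x : OnePoint (X.obj (a ⊗ b))) : unshi (shi x) = x := rfl

@[simp] theorem shi_unshi (x : OnePoint (((sh a).obj X).obj b)) : shi (unshi x) = x := rfl

@[simp] theorem shi_infty : shi (∞ : OnePoint (X.obj (a ⊗ b))) = ∞ := rfl

@[simp] theorem unshi_infty : unshi (∞ : OnePoint (((sh a).obj X).obj b)) = ∞ := rfl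

theorem act_shi (w : b ⟶ c) (x : OnePoint (X.obj (a ⊗ b))) :
    ((sh a).obj X).act w (shi x) = shi (X.act (a ◁ w) x) := rfl

theorem unshi_act (w : b ⟶ c) (x : OnePoint (((sh a).obj X).obj b)) :
    unshi (((sh a).obj X).act w x) = X.act (a ◁ w) (unshi x) := rfl

theorem fn_sh_map_shi (f : X ⟶ Y) (x : OnePoint (X.obj (a ⊗ b))) :
    fn ((sh a).map f) (shi x) = shi (fn f x) := rfl

theorem unshi_fn_sh_map (f : X ⟶ Y) (x : OnePoint (((sh a).obj X).obj b)) :
    unshi (fn ((sh a).map f) x) = fn f (unshi x) := rfl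

theorem shi_plot {K : CH} {x : K → OnePoint (X.obj (a ⊗ b))} (hx : (X.obj (a ⊗ b)).plot K x) :
    (((sh a).obj X).obj b).plot K (fun k => shi (x k)) := hx

theorem unshi_plot {K : CH} {x : K → OnePoint (((sh a).obj X).obj b)}
    (hx : (((sh a).obj X).obj b).plot K x) :
    (X.obj (a ⊗ b)).plot K (fun k => unshi (x k)) := hx

theorem unshi_injective :
    Function.Injective (unshi : OnePoint (((sh a).obj X).obj b) → _) := fun _ _ h => h

end shift

section rep

variable {X Y Z : EF J} {a b c : J}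

/-- The bilinear morphism `(u, x) ↦ (u ▷ c) (f x)`. -/
noncomputable def repBil (f : X ⟶ (sh a).obj Z) : Bil (rep a) X Z where
  toFun {b c} u x := Z.act (unpr u ▷ c) (unshi (fn f x))
  infty_left {b c} y := by rw [unpr_infty, Idx.zero_whiskerRight, act_zero]
  infty_right {b c} x := by rw [fn_infty, unshi_infty, act_infty]
  nat {b c b' c'} w v u x := by
    rw [unpr_rep_act, fn_act, unshi_act, ← act_comp, ← act_comp]
    congr 1
    rw [comp_whiskerRight, whisker_exchange_assoc, tensorHom_def']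
  plot {b c K u x} hu hx :=
    Z.act_plot (Idx.plot_whiskerRight (unpr_plot hu) c) (unshi_plot (fn_plot f hx))

/-- The morphism `rep a ⊗ X ⟶ Z` transposed to `X ⟶ (sh a).obj Z`. -/
noncomputable def repDesc (f : X ⟶ (sh a).obj Z) : rep a ⊗ X ⟶ Z := tensorDesc (repBil f)

@[simp] theorem fn_repDesc (f : X ⟶ (sh a).obj Z) (u : a ⟶ b) (x : OnePoint (X.obj c)) :
    fn (repDesc f) (tm (pr u) x) = Z.act (u ▷ c) (unshi (fn f x)) := by
  rw [repDesc, tensorDesc_tm]
  change Z.act (unpr (pr u) ▷ c) (unshi (fn f x)) = _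
  rw [unpr_pr]

theorem fn_repDesc_id (f : X ⟶ (sh a).obj Z) (x : OnePoint (X.obj c)) :
    fn (repDesc f) (tm (pr (𝟙 a)) x) = unshi (fn f x) := by
  rw [fn_repDesc, id_whiskerRight, act_id]

theorem tm_pr (u : a ⟶ b) (x : OnePoint (X.obj c)) :
    tm (pr u) x = (rep a ⊗ X).act (u ▷ c) (tm (pr (𝟙 a)) x) := by
  rw [act_tm_left, rep_act, Category.id_comp]

theorem rep_tensor_ext {f g : rep a ⊗ X ⟶ Z}
    (h : ∀ (c : J) (x : OnePoint (X.obj c)),
      fn f (tm (pr (𝟙 a)) x) = fn g (tm (pr (𝟙 a)) x)) : f = g := by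
  apply tensor_ext
  intro b c u x
  obtain ⟨u, rfl⟩ := pr_surjective u
  rw [tm_pr, fn_act, fn_act, h]

/-- The transpose of `rep a ⊗ X ⟶ Z`. -/
noncomputable def repCurry (g : rep a ⊗ X ⟶ Z) : X ⟶ (sh a).obj Z :=
  homMk (fun b x => shi (fn g (tm (pr (𝟙 a)) x)))
    (fun b => by rw [tm_infty_right, fn_infty, shi_infty])
    (fun b K x hx => fn_plot g (tm_plot (((rep a).obj a).plot_const K _) hx))
    (fun {b c} w x => by rw [act_shi, ← fn_act, act_tm_right])

@[simp] theorem fn_repCurry (g : rep a ⊗ X ⟶ Z) (x : OnePoint (X.obj b)) :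
    fn (repCurry g) x = shi (fn g (tm (pr (𝟙 a)) x)) := rfl

/-- `Hom (rep a ⊗ X, Z) = Hom (X, sh a Z)`. -/
noncomputable def repEquiv (a : J) (X Z : EF J) : (rep a ⊗ X ⟶ Z) ≃ (X ⟶ (sh a).obj Z) where
  toFun g := repCurry g
  invFun f := repDesc f
  left_inv g := rep_tensor_ext (fun c x => fn_repDesc_id _ x)
  right_inv f := hom_ext (fun b x => by
    apply unshi_injective
    exact fn_repDesc_id f x)

theorem fn_repEquiv (g : rep a ⊗ X ⟶ Z) (x : OnePoint (X.obj b)) :
    fn (repEquiv a X Z g) x = shi (fn g (tm (pr (𝟙 a)) x)) := rfl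

theorem repEquiv_symm (f : X ⟶ (sh a).obj Z) : (repEquiv a X Z).symm f = repDesc f := rfl

/-- Tensoring with a representable is left adjoint to the shift. -/
noncomputable def repAdj (a : J) : tensorLeft (rep a) ⊣ sh a :=
  Adjunction.mkOfHomEquiv
    { homEquiv := fun X Z => repEquiv a X Z
      homEquiv_naturality_left_symm := fun {X X' Z} f g => rep_tensor_ext (fun c x => by
        refine (fn_repDesc_id (f ≫ g) x).trans ?_
        refine Eq.trans ?_
          (congrArg (fn (repDesc (Z := Z) g)) (whiskerLeft_tm (rep a) f (pr (𝟙 a)) x)).symm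
        exact (fn_repDesc_id g (fn f x)).symm)
      homEquiv_naturality_right := fun {X Z Z'} f g => rfl }

/-- `rep a ⊗ rep b ≅ rep (a ⊗ b)`. -/
noncomputable def repTensor (a b : J) : rep a ⊗ rep b ≅ rep (a ⊗ b) where
  hom := repDesc (yo (shi (pr (𝟙 (a ⊗ b)))))
  inv := yo (tm (pr (𝟙 a)) (pr (𝟙 b)))
  hom_inv_id := by
    apply rep_tensor_ext
    intro d v
    obtain ⟨v, rfl⟩ := pr_surjective v
    rw [fn_comp, fn_repDesc_id, fn_yo_pr, fn_id, act_shi, unshi_shi, rep_act, fn_yo_pr,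
      Category.id_comp, act_tm_right, rep_act, Category.id_comp]
  inv_hom_id := rep_hom_ext (by
    rw [fn_comp, fn_yo_pr, act_id, fn_repDesc_id, fn_yo_pr, act_id, unshi_shi, fn_id])

theorem fn_repTensor_hom {c d : J} (u : a ⟶ c) (v : b ⟶ d) :
    fn (repTensor a b).hom (tm (pr u) (pr v)) = pr (u ⊗ₘ v) := by
  refine (fn_repDesc (yo (shi (pr (𝟙 (a ⊗ b))))) u (pr v)).trans ?_
  rw [fn_yo_pr, act_shi, unshi_shi, rep_act, rep_act, Category.id_comp, ← tensorHom_def']

theorem fn_repTensor_inv {c : J} (u : a ⊗ b ⟶ c) :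
    fn (repTensor a b).inv (pr u) = (rep a ⊗ rep b).act u (tm (pr (𝟙 a)) (pr (𝟙 b))) :=
  fn_yo_pr _ _

end rep

section free

/-- elimination of the points of `(F J).obj A` -/
noncomputable def fel {A : PQ} {a : J} {W : Type} (G : OnePoint A → (𝟙_ J ⟶ a) → OnePoint W) :
    OnePoint (((F J).obj A).obj a) → OnePoint W :=
  PQ.unsmash (fun k (x : OnePoint ((sphere J).obj a)) => G k (unpr x))

theorem fel_infty {A : PQ} {a : J} {W : Type} (G : OnePoint A → (𝟙_ J ⟶ a) → OnePoint W) :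
    fel G ∞ = ∞ := rfl

theorem fel_fm {A : PQ} {a : J} {W : Type} (G : OnePoint A → (𝟙_ J ⟶ a) → OnePoint W)
    (h1 : ∀ x, G ∞ x = ∞) (h2 : ∀ k, G k 0 = ∞) (k : OnePoint A) (x : 𝟙_ J ⟶ a) :
    fel G (fm k x) = G k x :=
  (PQ.unsmash_smash (fun k (x : OnePoint ((sphere J).obj a)) => G k (unpr x)) (fun _ => h1 _)
    (fun k => h2 k) k (pr x)).trans (by rw [unpr_pr])

theorem plot_F_left {A : PQ} {a : J} {Z W : PQ}
    (Φ : OnePoint (((F J).obj A).obj a) → OnePoint Z → OnePoint W)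
    (h : ∀ (K : CH) (k : K → OnePoint A) (x : K → (𝟙_ J ⟶ a)) (z : K → OnePoint Z),
      A.plot K k → Idx.plot K x → Z.plot K z → W.plot K (fun i => Φ (fm (k i) (x i)) (z i)))
    {K : CH} {d : K → OnePoint (((F J).obj A).obj a)} {z : K → OnePoint Z}
    (hd : (((F J).obj A).obj a).plot K d) (hz : Z.plot K z) :
    W.plot K (fun i => Φ (d i) (z i)) :=
  PQ.plot_tensor_left (X := A) (Y := homPQ (𝟙_ J) a) (Z := Z) (W := W) Φ
    (fun x K c hc => by
      obtain ⟨k, x, rfl⟩ := fm_surjective (A := A) (a := a) x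
      exact h K (fun _ => k) (fun _ => x) c (A.plot_const K k) (Idx.plot_const _ _) hc)
    (fun K k x z hk hx hz => by
      have := h K k (fun i => unpr (a := 𝟙_ J) (x i)) z hk hx hz
      have e : (fun i => Φ (fm (k i) (unpr (a := 𝟙_ J) (x i))) (z i)) =
          fun i => Φ (smash (k i) (x i)) (z i) := by
        funext i
        exact congrArg (fun t => Φ (sm (k i) t) (z i)) (pr_unpr (a := 𝟙_ J) (x i))
      rw [e] at this
      exact this) hd hz

variable {A : PQ} {X Y Z : EF J} {a b c : J}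

/-- The bilinear morphism `((k, x), y) ↦ (k, x ⊗ y)`. -/
noncomputable def FBil (A : PQ) (X : EF J) : Bil ((F J).obj A) X (smul A X) where
  toFun {a b} z y := fel (fun k x => sm k (X.act ((λ_ b).inv ≫ x ▷ b) y)) z
  infty_left {a b} y := fel_infty _
  infty_right {a b} z := by
    obtain ⟨k, x, rfl⟩ := fm_surjective z
    rw [fel_fm, act_infty, sm_infty_right]
    · intro x; rw [sm_infty_left]
    · intro k; rw [act_infty, sm_infty_right]
  nat {a b a' b'} u v z y := by
    obtain ⟨k, x, rfl⟩ := fm_surjective z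
    rw [F_act, fel_fm, fel_fm, smul_act, ← act_comp, ← act_comp]
    · congr 2
      rw [leftUnitor_inv_naturality_assoc, comp_whiskerRight, Category.assoc, tensorHom_def',
        whisker_exchange_assoc]
    · intro x; rw [sm_infty_left]
    · intro k
      rw [Idx.zero_whiskerRight, Limits.comp_zero, act_zero, sm_infty_right]
    · intro x; rw [sm_infty_left]
    · intro k
      rw [Idx.zero_whiskerRight, Limits.comp_zero, act_zero, sm_infty_right]
  plot {a b K z y} hz hy := by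
    refine plot_F_left (Z := X.obj b) (W := (smul A X).obj (a ⊗ b))
      (fun z y => fel (fun k x => sm k (X.act ((λ_ b).inv ≫ x ▷ b) y)) z) ?_ hz hy
    intro K k x y hk hx hy
    have : (fun i => fel (fun k x => sm (A := A) k (X.act ((λ_ b).inv ≫ x ▷ b) (y i)))
        (fm (k i) (x i))) =
        fun i => sm (k i) (X.act ((λ_ b).inv ≫ x i ▷ b) (y i)) := by
      funext i
      rw [fel_fm]
      · intro x; rw [sm_infty_left]
      · intro k
        rw [Idx.zero_whiskerRight, Limits.comp_zero, act_zero, sm_infty_right]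
    rw [this]
    exact sm_plot hk (X.act_plot (Idx.plot_comp (Idx.plot_const _ _)
      (Idx.plot_whiskerRight hx _)) hy)

theorem FBil_fm (k : OnePoint A) (x : (𝟙_ J ⟶ a)) (y : OnePoint (X.obj b)) :
    (FBil A X).toFun (fm k x) y = sm k (X.act ((λ_ b).inv ≫ x ▷ b) y) := by
  refine fel_fm (fun k x => sm k (X.act ((λ_ b).inv ≫ x ▷ b) y)) ?_ ?_ k x
  · intro x; rw [sm_infty_left]
  · intro k
    rw [Idx.zero_whiskerRight, Limits.comp_zero, act_zero, sm_infty_right]

theorem tm_fm (k : OnePoint A) (x : (𝟙_ J ⟶ a)) (y : OnePoint (X.obj b)) :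
    tm (fm k x) y = ((F J).obj A ⊗ X).act (x ▷ b) (tm (fm k (𝟙 _)) y) := by
  rw [act_tm_left, F_act, Category.id_comp]

theorem F_tensor_ext {f g : (F J).obj A ⊗ X ⟶ Z}
    (h : ∀ (c : J) (k : OnePoint A) (x : OnePoint (X.obj c)),
      fn f (tm (fm k (𝟙 _)) x) = fn g (tm (fm k (𝟙 _)) x)) : f = g := by
  apply tensor_ext
  intro b c z x
  obtain ⟨k, y, rfl⟩ := fm_surjective z
  rw [tm_fm, fn_act, fn_act, h]

/-- `F A ⊗ X ≅ smul A X`. -/
noncomputable def FTensor (A : PQ) (X : EF J) : (F J).obj A ⊗ X ≅ smul A X where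
  hom := tensorDesc (FBil A X)
  inv := smulDesc (fun a k x => ((F J).obj A ⊗ X).act (λ_ a).hom (tm (fm k (𝟙 _)) x))
    (fun a x => by rw [fm_infty_left, tm_infty_left, act_infty])
    (fun a k => by rw [tm_infty_right, act_infty])
    (fun a K k x hk hx => act_plot' _ _ (tm_plot (fm_plot hk (Idx.plot_const _ _)) hx))
    (fun a b w k x => by
      rw [← act_tm_right, ← act_comp, ← act_comp, leftUnitor_naturality])
  hom_inv_id := F_tensor_ext (fun c k x => by
    rw [fn_comp, tensorDesc_tm, FBil_fm, id_whiskerRight, Category.comp_id,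
      fn_smulDesc, ← act_tm_right, ← act_comp, fn_id]
    have : 𝟙_ J ◁ (λ_ c).inv ≫ (λ_ (𝟙_ J ⊗ c)).hom = 𝟙 _ := by
      rw [leftUnitor_naturality, Iso.hom_inv_id]
    rw [this, act_id])
  inv_hom_id := smul_hom_ext (fun a k x => by
    rw [fn_comp, fn_smulDesc, fn_act, tensorDesc_tm, FBil_fm, id_whiskerRight,
      Category.comp_id, smul_act, ← act_comp, Iso.inv_hom_id, act_id, fn_id])

theorem fn_FTensor_hom (k : OnePoint A) (x : (𝟙_ J ⟶ a)) (y : OnePoint (X.obj b)) :
    fn (FTensor A X).hom (tm (fm k x) y) = sm k (X.act ((λ_ b).inv ≫ x ▷ b) y) :=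
  (tensorDesc_tm _ _ _).trans (FBil_fm k x y)

theorem fn_FTensor_inv (k : OnePoint A) (x : OnePoint (X.obj a)) :
    fn (FTensor A X).inv (sm k x) = ((F J).obj A ⊗ X).act (λ_ a).hom (tm (fm k (𝟙 _)) x) := by
  simp only [FTensor, fn_smulDesc]

end free

section cells

/-- the powers of an object of the index category -/
def gpow (g : J) : ℕ → J
  | 0 => 𝟙_ J
  | n + 1 => g ⊗ gpow g n

/-- The tensor powers of `rep g`. -/
noncomputable def repTpow (g : J) : ∀ n : ℕ, tpow (rep g) n ≅ rep (gpow g n)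
  | 0 => Iso.refl _
  | n + 1 => whiskerLeftIso (rep g) (repTpow g n) ≪≫ repTensor g (gpow g n)

/-- `rep a ⊗ F A` is the object representing `X ↦ (A ⟶ X.obj a)`. -/
noncomputable def repF (a : J) (A : PQ) : rep a ⊗ (F J).obj A ≅ smul A (rep a) :=
  β_ (rep a) ((F J).obj A) ≪≫ FTensor A (rep a)

/-- The cells. -/
noncomputable def cellIso (g : J) (n : ℕ) (A : PQ) :
    tpow (rep g) n ⊗ (F J).obj A ≅ smul A (rep (gpow g n)) :=
  whiskerRightIso (repTpow g n) ((F J).obj A) ≪≫ repF (gpow g n) A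

/-- Morphisms out of a cell. -/
noncomputable def cellEquiv (g : J) (n : ℕ) (A : PQ) (X : EF J) :
    (tpow (rep g) n ⊗ (F J).obj A ⟶ X) ≃ (A ⟶ X.obj (gpow g n)) :=
  (cellIso g n A).homFromEquiv.trans (smulYoEquiv A X (gpow g n))

theorem smulYoEquiv_comp {A : PQ} {X Y : EF J} {a : J} (f : smul A (rep a) ⟶ X) (g : X ⟶ Y) :
    smulYoEquiv A Y a (f ≫ g) = smulYoEquiv A X a f ≫ Hom.app g a := rfl

theorem cellEquiv_comp {g : J} {n : ℕ} {A : PQ} {X Y : EF J}
    (f : tpow (rep g) n ⊗ (F J).obj A ⟶ X) (h : X ⟶ Y) :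
    cellEquiv g n A Y (f ≫ h) = cellEquiv g n A X f ≫ Hom.app h (gpow g n) := by
  simp only [cellEquiv, Equiv.trans_apply, Iso.homFromEquiv_apply]
  rw [← smulYoEquiv_comp, Category.assoc]

end cells

end EF

end Vale.Agent.P257.D
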