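import Vale.Agent.P257.D.Gr

/-!
# P257, design D: restriction along functors of index categories

`IdxFun Φ`: the functor `Φ : J ⥤ J'` preserves zero morphisms and plots.  `EF.res Φ : EF J' ⥤ EF J`
is the restriction; it is lax braided when `Φ` is, it preserves colimits, and natural
transformations `Φ ⟶ Ψ` induce `res Φ ⟶ res Ψ`.
-/

open CategoryTheory MonoidalCategory Topology OnePoint Limits

namespace Vale.Agent.P257.D

open Vale.Agent.P251.H (CH PQ)

variable {J J' J'' : Type} [Idx J] [Idx J'] [Idx J'']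

/-- Continuous functors of index categories. -/
class IdxFun (Φ : J ⥤ J') : Prop where
  map_zero : ∀ a b : J, Φ.map (0 : a ⟶ b) = 0
  map_plot : ∀ {K : CH} {a b : J} {w : K → (a ⟶ b)}, Idx.plot K w →
    Idx.plot K (fun k => Φ.map (w k))

instance : IdxFun (𝟭 J) where
  map_zero _ _ := rfl
  map_plot h := h

instance (Φ : J ⥤ J') (Ψ : J' ⥤ J'') [IdxFun Φ] [IdxFun Ψ] : IdxFun (Φ ⋙ Ψ) where
  map_zero a b := by rw [Functor.comp_map, IdxFun.map_zero, IdxFun.map_zero]
  map_plot h := IdxFun.map_plot (Φ := Ψ) (IdxFun.map_plot (Φ := Φ) h)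

instance (c : J) : IdxFun (tensorLeft c) where
  map_zero a b := Idx.whiskerLeft_zero c a b
  map_plot h := Idx.plot_whiskerLeft h c

instance (c : J) : IdxFun (tensorRight c) where
  map_zero a b := Idx.zero_whiskerRight a b c
  map_plot h := Idx.plot_whiskerRight h c

namespace EF

variable (Φ : J ⥤ J') [IdxFun Φ]

/-- Restriction along a continuous functor. -/
def res : EF J' ⥤ EF J where
  obj X :=
    { obj := fun a => X.obj (Φ.obj a)
      map := fun w => X.map (Φ.map w)
      map_id := fun a => by rw [Φ.map_id, X.map_id]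
      map_comp := fun f g => by rw [Φ.map_comp, X.map_comp]
      map_zero := fun a b => by rw [IdxFun.map_zero, X.map_zero]
      map_plot := fun K _ x hw hx => X.map_plot K _ x (IdxFun.map_plot hw) hx }
  map f :=
    { app := fun a => Hom.app f (Φ.obj a)
      naturality := fun w => Hom.naturality f (Φ.map w) }

theorem res_obj_obj (X : EF J') (a : J) : ((res Φ).obj X).obj a = X.obj (Φ.obj a) := rfl

section pts

variable {X Y : EF J'} {a b : J}

/-- a point of `X (Φ a)` as a point of the restriction -/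
def ri (x : OnePoint (X.obj (Φ.obj a))) : OnePoint (((res Φ).obj X).obj a) := x

variable {Φ}

/-- a point of the restriction as a point of `X (Φ a)` -/
def unri (x : OnePoint (((res Φ).obj X).obj a)) : OnePoint (X.obj (Φ.obj a)) := x

@[simp] theorem unri_ri (x : OnePoint (X.obj (Φ.obj a))) : unri (ri Φ x) = x := rfl

@[simp] theorem ri_unri (x : OnePoint (((res Φ).obj X).obj a)) : ri Φ (unri x) = x := rfl

@[simp] theorem ri_infty : ri Φ (∞ : OnePoint (X.obj (Φ.obj a))) = ∞ := rfl

@[simp] theorem unri_infty : unri (∞ : OnePoint (((res Φ).obj X).obj a)) = ∞ := rfl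

theorem ri_surjective (x : OnePoint (((res Φ).obj X).obj a)) : ∃ y, ri Φ y = x := ⟨x, rfl⟩

theorem unri_injective :
    Function.Injective (unri : OnePoint (((res Φ).obj X).obj a) → _) := fun _ _ h => h

theorem act_ri (w : a ⟶ b) (x : OnePoint (X.obj (Φ.obj a))) :
    ((res Φ).obj X).act w (ri Φ x) = ri Φ (X.act (Φ.map w) x) := rfl

theorem unri_act (w : a ⟶ b) (x : OnePoint (((res Φ).obj X).obj a)) :
    unri (((res Φ).obj X).act w x) = X.act (Φ.map w) (unri x) := rfl

theorem fn_res_map (f : X ⟶ Y) (x : OnePoint (X.obj (Φ.obj a))) :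
    fn ((res Φ).map f) (ri Φ x) = ri Φ (fn f x) := rfl

theorem unri_fn_res_map (f : X ⟶ Y) (x : OnePoint (((res Φ).obj X).obj a)) :
    unri (fn ((res Φ).map f) x) = fn f (unri x) := rfl

theorem ri_plot {K : CH} {x : K → OnePoint (X.obj (Φ.obj a))} (hx : (X.obj (Φ.obj a)).plot K x) :
    (((res Φ).obj X).obj a).plot K (fun k => ri Φ (x k)) := hx

theorem unri_plot {K : CH} {x : K → OnePoint (((res Φ).obj X).obj a)}
    (hx : (((res Φ).obj X).obj a).plot K x) :
    (X.obj (Φ.obj a)).plot K (fun k => unri (x k)) := hx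

end pts

instance : PreservesColimitsOfSize.{0, 0} (res Φ) where
  preservesColimitsOfShape {_ _} :=
    { preservesColimit := fun {_} =>
        { preserves := fun {c} hc =>
            ⟨isColimitOfEv ((res Φ).mapCocone c)
              (fun a => isColimitOfPreserves (ev (Φ.obj a)) hc)⟩ } }

instance : (res Φ).PreservesZeroMorphisms where
  map_zero _ _ := rfl

/-- A natural transformation induces a transformation of restrictions. -/
def resMap {Φ Ψ : J ⥤ J'} [IdxFun Φ] [IdxFun Ψ] (η : Φ ⟶ Ψ) : res Φ ⟶ res Ψ where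
  app X :=
    { app := fun a => X.map (η.app a)
      naturality := fun {a b} w => by
        change X.map (Φ.map w) ≫ X.map (η.app b) = X.map (η.app a) ≫ X.map (Ψ.map w)
        rw [← X.map_comp, ← X.map_comp, η.naturality] }
  naturality _ _ f := hom_ext' fun a => (Hom.naturality f (η.app a)).symm

theorem fn_resMap {Φ Ψ : J ⥤ J'} [IdxFun Φ] [IdxFun Ψ] (η : Φ ⟶ Ψ) {X : EF J'} {a : J}
    (x : OnePoint (X.obj (Φ.obj a))) :
    fn ((resMap η).app X) (ri Φ x) = ri Ψ (X.act (η.app a) x) := rfl

theorem resMap_id : resMap (𝟙 Φ) = 𝟙 (res Φ) := by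
  ext X
  exact hom_ext fun a x => X.act_id x

theorem resMap_comp {Φ Ψ Θ : J ⥤ J'} [IdxFun Φ] [IdxFun Ψ] [IdxFun Θ] (η : Φ ⟶ Ψ) (θ : Ψ ⟶ Θ) :
    resMap (η ≫ θ) = resMap η ≫ resMap θ := by
  ext X
  exact hom_ext fun a x => X.act_comp _ _ x

section lax

open Functor.LaxMonoidal

variable [Φ.LaxMonoidal]

/-- the tensorator of the restriction -/
noncomputable def resMu (X Y : EF J') :
    (res Φ).obj X ⊗ (res Φ).obj Y ⟶ (res Φ).obj (X ⊗ Y) :=
  tensorDesc
    { toFun := fun {a b} x y => ri Φ ((X ⊗ Y).act (μ Φ a b) (tm (unri x) (unri y)))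
      infty_left := fun y => by rw [unri_infty, tm_infty_left, act_infty, ri_infty]
      infty_right := fun x => by rw [unri_infty, tm_infty_right, act_infty, ri_infty]
      nat := fun u v x y => by
        rw [unri_act, unri_act, ← act_tm, act_ri, ← act_comp, ← act_comp, μ_natural]
      plot := fun hx hy => ri_plot (act_plot' _ _ (tm_plot (unri_plot hx) (unri_plot hy))) }

theorem fn_resMu {X Y : EF J'} {a b : J} (x : OnePoint (X.obj (Φ.obj a)))
    (y : OnePoint (Y.obj (Φ.obj b))) :
    fn (resMu Φ X Y) (tm (ri Φ x) (ri Φ y)) = ri Φ ((X ⊗ Y).act (μ Φ a b) (tm x y)) :=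
  tensorDesc_tm _ _ _

/-- the unit of the restriction -/
noncomputable def resEps : 𝟙_ (EF J) ⟶ (res Φ).obj (𝟙_ (EF J')) :=
  yo (X := (res Φ).obj (𝟙_ (EF J'))) (ri Φ (pr (ε Φ)))

theorem fn_resEps {a : J} (x : 𝟙_ J ⟶ a) :
    fn (resEps Φ) (pr x) = ri Φ (X := 𝟙_ (EF J')) (pr (ε Φ ≫ Φ.map x)) := by
  refine (fn_yo_pr _ _).trans ?_
  rw [act_ri]
  exact congrArg (ri Φ) (rep_act _ _)

noncomputable instance : (res Φ).LaxMonoidal where
  ε := resEps Φ
  μ := resMu Φ
  μ_natural_left f Z := by
    apply tensor_ext; intro a b x y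
    obtain ⟨x, rfl⟩ := ri_surjective x
    obtain ⟨y, rfl⟩ := ri_surjective y
    rw [fn_comp, fn_comp, whiskerRight_tm, fn_res_map, fn_resMu, fn_resMu, fn_res_map, fn_act,
      whiskerRight_tm]
  μ_natural_right Z f := by
    apply tensor_ext; intro a b x y
    obtain ⟨x, rfl⟩ := ri_surjective x
    obtain ⟨y, rfl⟩ := ri_surjective y
    rw [fn_comp, fn_comp, whiskerLeft_tm, fn_res_map, fn_resMu, fn_resMu, fn_res_map, fn_act,
      whiskerLeft_tm]
  associativity X Y Z := by
    apply tensor_ext₃; intro a b c x y z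
    obtain ⟨x, rfl⟩ := ri_surjective x
    obtain ⟨y, rfl⟩ := ri_surjective y
    obtain ⟨z, rfl⟩ := ri_surjective z
    simp only [fn_comp]
    rw [whiskerRight_tm, fn_resMu, fn_resMu, fn_res_map, associator_tm, fn_act, fn_act, fn_act,
      whiskerLeft_tm, fn_resMu, fn_resMu, act_ri, ← act_tm_left, fn_act, associator_tm,
      ← act_tm_right]
    simp only [← act_comp]
    congr 2
    rw [Category.assoc, Category.assoc, Iso.inv_comp_eq, ← associativity_assoc,
      ← Φ.map_comp, Iso.hom_inv_id, Φ.map_id, Category.comp_id]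
  left_unitality X := by
    apply tensor_ext; intro a b u x
    obtain ⟨x, rfl⟩ := ri_surjective x
    obtain ⟨u, rfl⟩ := pr_surjective u
    simp only [fn_comp]
    rw [leftUnitor_tm, whiskerRight_tm, fn_resEps, fn_resMu, fn_res_map, fn_act, leftUnitor_tm,
      act_ri, ← act_comp]
    congr 2
    erw [unpr_pr, unpr_pr]
    rw [Φ.map_comp, comp_whiskerRight, Category.assoc, Category.assoc, μ_natural_left,
      left_unitality_inv_assoc]
  right_unitality X := by
    apply tensor_ext; intro a b x u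
    obtain ⟨x, rfl⟩ := ri_surjective x
    obtain ⟨u, rfl⟩ := pr_surjective u
    simp only [fn_comp]
    rw [rightUnitor_tm, whiskerLeft_tm, fn_resEps, fn_resMu, fn_res_map, fn_act, rightUnitor_tm,
      act_ri, ← act_comp]
    congr 2
    erw [unpr_pr, unpr_pr]
    rw [Φ.map_comp, MonoidalCategory.whiskerLeft_comp, Category.assoc, Category.assoc,
      μ_natural_right, right_unitality_inv_assoc]

theorem res_μ (X Y : EF J') : μ (res Φ) X Y = resMu Φ X Y := rfl

theorem res_ε : ε (res Φ) = resEps Φ := rfl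

end lax

noncomputable instance [Φ.LaxBraided] : (res Φ).LaxBraided where
  braided X Y := by
    apply tensor_ext; intro a b x y
    obtain ⟨x, rfl⟩ := ri_surjective x
    obtain ⟨y, rfl⟩ := ri_surjective y
    rw [fn_comp, fn_comp, res_μ, res_μ, fn_resMu, fn_res_map, fn_act, braiding_tm, braiding_tm,
      fn_act, fn_resMu, act_ri, ← act_comp, ← act_comp]
    congr 2
    rw [← cancel_mono (Φ.map (β_ a b).hom), Category.assoc, Category.assoc, ← Φ.map_comp,
      SymmetricCategory.symmetry, Φ.map_id, Category.comp_id, Functor.LaxBraided.braided,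
      SymmetricCategory.symmetry_assoc]

end EF

end Vale.Agent.P257.D
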