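import Vale.Agent.P257.D.Lan

/-!
# P257, design D: subfunctors

`EF.sub S` for `S : EF.Sub X` (a family of subsets containing the base points, stable under the
action of morphisms), with the inclusion `S.inc` and its universal property `S.lift`.
-/

open CategoryTheory MonoidalCategory Topology OnePoint Limits

namespace Vale.Agent.P257.D

open Vale.Agent.P251.H (CH PQ NonBase toQ ofQ toQ_infty toQ_coe ofQ_base toQ_ofQ ofQ_toQ
  ofQ_surjective ofQ_injective ofQ_eq_infty)

namespace EF

variable {J : Type} [Idx J]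

/-- subfunctors -/
structure Sub (X : EF J) where
  /-- membership -/
  P : ∀ a : J, OnePoint (X.obj a) → Prop
  infty : ∀ a, P a ∞
  act : ∀ {a b : J} (w : a ⟶ b) {x : OnePoint (X.obj a)}, P a x → P b (X.act w x)

namespace Sub

variable {X : EF J} (S : Sub X)

/-- the base point -/
abbrev base (a : J) : {x : OnePoint (X.obj a) // S.P a x} := ⟨∞, S.infty a⟩

/-- the values -/
abbrev obj (a : J) : PQ where
  carrier := NonBase {x : OnePoint (X.obj a) // S.P a x} (S.base a)
  plot K f := (X.obj a).plot K (fun k => (toQ (S.base a) (f k)).1)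
  plot_const K _ := (X.obj a).plot_const K _
  plot_comp g _ hg hf := (X.obj a).plot_comp g _ hg hf
  plot_sum _ h1 h2 := (X.obj a).plot_sum _ h1 h2
  plot_surj g _ hg hs hf := (X.obj a).plot_surj g _ hg hs hf

variable {S}

/-- the underlying point -/
def val' {a : J} (x : OnePoint (S.obj a)) : OnePoint (X.obj a) := (toQ (S.base a) x).1

theorem val'_mem {a : J} (x : OnePoint (S.obj a)) : S.P a (val' x) := (toQ (S.base a) x).2

/-- a point of the subfunctor -/
noncomputable def mk' {a : J} (x : OnePoint (X.obj a)) (h : S.P a x) : OnePoint (S.obj a) :=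
  ofQ (S.base a) ⟨x, h⟩

theorem val'_mk' {a : J} (x : OnePoint (X.obj a)) (h : S.P a x) : val' (mk' x h) = x :=
  congrArg Subtype.val (toQ_ofQ (S.base a) ⟨x, h⟩)

theorem val'_injective {a : J} : Function.Injective (val' : OnePoint (S.obj a) → _) :=
  fun x y h => by
    rw [← ofQ_toQ (S.base a) x, ← ofQ_toQ (S.base a) y]
    exact congrArg _ (Subtype.ext h)

theorem mk'_plot {a : J} {K : CH} {x : K → OnePoint (X.obj a)} (hx : (X.obj a).plot K x)
    (h : ∀ k, S.P a (x k)) : (S.obj a).plot K (fun k => mk' (x k) (h k)) := by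
  change (X.obj a).plot K (fun k => val' (mk' (x k) (h k)))
  simp only [val'_mk']
  exact hx

variable (S)

/-- the subfunctor -/
noncomputable def ef : EF J where
  obj := S.obj
  map w := ⟨fun x => mk' (X.act w (val' x)) (S.act w (val'_mem x)),
    val'_injective ((val'_mk' _ _).trans (X.act_infty w)),
    fun _ _ hf => mk'_plot (X.act_plot' w hf) _⟩
  map_id _ := PQ.hom_ext' fun _ => val'_injective ((val'_mk' _ _).trans (X.act_id _))
  map_comp f g := PQ.hom_ext' fun x => val'_injective ((val'_mk' _ _).trans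
    ((X.act_comp f g _).trans ((congrArg (X.act g) (val'_mk' _ _).symm).trans
      (val'_mk' _ _).symm)))
  map_zero _ _ := PQ.hom_ext' fun _ => val'_injective ((val'_mk' _ _).trans (X.act_zero _))
  map_plot _ _ _ hw hx := mk'_plot (X.act_plot hw hx) _

/-- the inclusion -/
noncomputable def inc : S.ef ⟶ X :=
  homMk (fun _ x => val' x) (fun _ => rfl) (fun _ _ _ hx => hx) (fun _ _ => val'_mk' _ _)

variable {S}

theorem inc_mem {a : J} (x : OnePoint (S.ef.obj a)) : S.P a (fn S.inc x) := val'_mem x

theorem inc_injective {a : J} :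
    Function.Injective (fun x : OnePoint (S.ef.obj a) => fn S.inc x) := val'_injective

/-- a point of the subfunctor -/
noncomputable def pt {a : J} (x : OnePoint (X.obj a)) (h : S.P a x) : OnePoint (S.ef.obj a) :=
  mk' x h

@[simp] theorem fn_inc_pt {a : J} (x : OnePoint (X.obj a)) (h : S.P a x) :
    fn S.inc (pt x h) = x := val'_mk' x h

theorem plot_iff {a : J} {K : CH} {x : K → OnePoint (S.ef.obj a)} :
    (S.ef.obj a).plot K x ↔ (X.obj a).plot K (fun k => fn S.inc (x k)) := Iff.rfl

theorem pt_plot {a : J} {K : CH} {x : K → OnePoint (X.obj a)} (hx : (X.obj a).plot K x)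
    (h : ∀ k, S.P a (x k)) : (S.ef.obj a).plot K (fun k => pt (x k) (h k)) := mk'_plot hx h

instance : Mono S.inc where
  right_cancellation _ _ h := hom_ext fun _ x => inc_injective
    (congrArg (fun t => fn t x) h)

variable (S) in
/-- the universal property -/
noncomputable def lift {Y : EF J} (f : Y ⟶ X) (h : ∀ a y, S.P a (fn f y)) : Y ⟶ S.ef :=
  homMk (fun a y => pt (fn f y) (h a y))
    (fun a => inc_injective ((fn_inc_pt _ _).trans (fn_infty f a)))
    (fun _ _ _ hy => pt_plot (fn_plot f hy) _)
    (fun w y => inc_injective ((fn_inc_pt _ _).trans ((fn_act f w y).trans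
      ((congrArg (X.act w) (fn_inc_pt _ _).symm).trans (fn_act S.inc w _).symm))))

@[reassoc (attr := simp)]
theorem lift_inc {Y : EF J} (f : Y ⟶ X) (h : ∀ a y, S.P a (fn f y)) :
    S.lift f h ≫ S.inc = f := hom_ext fun _ _ => fn_inc_pt _ _

end Sub

/-- the fixed points of a family of endomorphisms -/
@[simps] def fixSub {ι : Type} {Y : EF J} (ρ : ι → (Y ⟶ Y)) : Sub Y where
  P _ x := ∀ i, fn (ρ i) x = x
  infty a i := fn_infty (ρ i) a
  act w x hx i := by rw [fn_act, hx i]

end EF

end Vale.Agent.P257.D
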